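import Vale.Agent.P183.Cert
import Vale.Agent.P183.Mk7

/-!
# Certificates for seven element lattices, part 1
-/

namespace Vale.Agent.P183.Data.L09

noncomputable def g1 (l : List ℕ) (i : ℕ) : ℕ := l.getD i 0

noncomputable def g2 (l : List (List ℕ)) (i j : ℕ) : ℕ := (l.getD i []).getD j 0

noncomputable def opD : ℕ := 54843714958407526714724009279022971638133765367273460160665524326958516267082822840141291771382719365586779041539953289157140752076210250786519832061865873333183082099883812219690299885580291344943160788383217249855098269727657486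

noncomputable def op (i : Fin 3) (x : Fin 32) : Fin 32 :=
  Fin.ofNat 32 ((opD >>> (8 * (32 * i.1 + x.1))) &&& 255)

noncomputable def labD : ℕ := 283565879410238341656247812083574854033249415052098656710830569637167887414951418155475258470141696130743469764585941058550742570880020039471817973587223439474845496172067234147708187075168399487364047465626693494993783441075582434869610976857772391943258706408574051769637381740439365557404132029964787251008399164272723245538610219630773229739748643333752986272208301479439906308044003471288979759183201328957240700099187181159306732832722417604996211583090944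

noncomputable def lab (t : Fin 7) (x : Fin 32) : Fin 32 :=
  Fin.ofNat 32 ((labD >>> (8 * (32 * t.1 + x.1))) &&& 255)

noncomputable def clsR : List ℕ :=
  [2722725211409953920796828226914586407923000305574465159866089126312057765888, 2724505835005007811161721560727853025697797713291172141602211823194086572032, 10413948494355733019035129109260982876244692688634433056857245730635648073728, 909967784272615872434310124387071844420380500747003451077580470948638884353, 964927118361409912553960654796098599715637801213186304740039561938097801218, 20810235473956593723589404062145898678973001381408336780624535746684392047106, 918808921342857798522101816338364969019627391615896762520896872900745888771, 908518444518737245371682528638000743203522791386510407834512665491892470532,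 455881213733683051418656336780003554067181133590138289666561732701997498882, 2722739014902644288047835299444819956848397092580412882727250679833226708741, 2832713112706721839691898549689474733144325132811417408606952321512547419398, 2273952985554750790533327861826297295233012878378289154260772902125075368454, 918774412610304307300619121772283390678025634505988167999218499494972098053, 1044745006082640448021511235597426176879221400036980261115805552520712029447, 919312748826170295802496035535645032614425226950458170721360110645017707016, 908210022710278901616347121572861772921571574045869455426324585659374895362, 919361061050597829773528014787998254423009471451102785044334363294073883395, 41164624243513092902839217461643991950242954649792020079644505467325132246020,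 2722725211407892219334604520663469143898178853760583891350881751836714798341, 43590532763019025195937937093365902500980874819907699847935424632209868654086, 43883194567284866897011068399921308958613308242796740987462500535017666905605, 46147208778714972722653456596026660569312000367459617957469937479392474500615, 909967794487908195522266683038343230968999362404972770781842006819783967240, 48854062696796206037416545463324776222318267999190597245419119628869127176706, 3175038194790059518120166289162337176655522028557344872212983167307179495173, 2272172281814563460886606898185029625238100920764837450786815697865124611849, 1814593480805218005918759597964932815011682902940700923505143386995863716360, 1364040631460286195954774316312440837416191739561436397318945703860263780866,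 906392544970557350145277935550639212874110335024379931430524042408940929539, 3622036483324719212941020192675704759259094083998452849016193620011036050434, 13830875133216433537999315194778097232531956808066832122986720588596741, 55268208258119652887437778462334494072111943990409944714858304319718918]

noncomputable def cls (u v : Fin 32) : Fin 109 :=
  Fin.ofNat 109 ((g1 clsR u.1 >>> (8 * v.1)) &&& 255)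

noncomputable def cpA : List ℕ :=
  [0, 0, 0, 0, 0, 0, 0, 0, 0, 0, 1, 1, 1, 1, 1, 1, 2, 2, 2, 2, 2, 2, 2, 2, 3, 4, 4, 4, 4, 4, 4, 4, 4, 4, 4, 5, 5, 5, 5, 5, 5, 5, 5, 5, 5, 5, 5, 6, 7, 7, 7, 7, 7, 8, 8, 8, 8, 8, 8, 10, 10, 10, 10, 10, 10, 10, 10, 10, 11, 11, 11, 11, 11, 12, 13, 13, 13, 13, 13, 13, 14, 15, 15, 15, 15, 15, 15, 16, 17, 17, 17, 17, 19, 19, 19, 19, 19, 20, 21, 21, 21, 21, 21, 22, 23, 23, 23, 23, 23]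

noncomputable def cpB : List ℕ :=
  [1, 3, 4, 6, 7, 9, 10, 13, 14, 25, 11, 16, 17, 18, 21, 24, 8, 9, 10, 11, 25, 27, 29, 31, 8, 8, 17, 20, 21, 22, 25, 26, 28, 29, 30, 7, 8, 11, 12, 13, 14, 15, 25, 26, 27, 29, 31, 17, 16, 24, 25, 26, 29, 13, 15, 17, 19, 21, 23, 17, 18, 20, 21, 22, 25, 28, 29, 30, 17, 18, 19, 21, 23, 21, 20, 24, 25, 26, 29, 30, 29, 16, 17, 18, 21, 22, 28, 29, 25, 27, 29, 31, 25, 27, 29, 30, 31, 31, 24, 25, 27, 29, 31, 27, 25, 27, 28, 29, 31]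

noncomputable def cp (c : Fin 109) : Fin 32 × Fin 32 :=
  (Fin.ofNat 32 (g1 cpA c.1), Fin.ofNat 32 (g1 cpB c.1))

noncomputable def moveR : List ℕ :=
  [145152127639342389849661476641283538458147016651957021591996811748916751989148876466387030455063140633121911450530720831426652905223459545381922574081783303049322852483472311239782474158440449, 145152127639344222201050635216856575949520730290882758562262690635883012827827655527401003023424600172049795674574756735869087152372484001834477047066729343403935292447118635265380912542515201, 4368618289953132455484728093523842840565642161808410684708296172452865445411534956673283637912968852650054667825264268061326174905271572323291263762268998271091733887267135991205800706576, 145152112302732847265511488821002768798006057588878813227063628527457869869603144659855596545104546972502583820862670561840209685971124538700470996968653120599523582860981853764906523604025345,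 145152110107638854103607148144033222487093333858120342217733822278754635964702452131713825571504858510408715693712835920430601314346842025671334181199158140201110363629880720216467524317872129, 4368647336561986847389620495644451653038484405045954727168004098411592655217816376978746237870260828356731426934621163958646654183430147369278942092335413193743205471801781995902423040656, 145152112265387207145582552194391098024756146714297086454845995564960517974030374090061881750741584059858718108543481206611500928140521921698774438638144614387847149108421340154698864307208193, 145152127406969260784200441531342612113039109182651459947538128302496057277682370525614923810092223319261187426771206547686453568532668209721582792614327678786219453368481809371550435413852161,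 18418149521393083321664269430598589719614299878080929515738622110039534308877119120107359217887771576967199813465485197188723333415073513685041093032089857161879256277262719033693710179140240, 145152248796897970036893866131744407282030486363326145439249654770753720070006535419592760739773783356099591396581699724953833729277018622470452872724720354568590965729609358553885167625175041, 145152110107638854103607161302572334739079792194321165432203831842577509494018843386095984455097356399911804100584765080268819379494109908830876957434940480931096205654717436921860036071784449, 145152112294433816127749502929171894346850898728363192897222885788283252022798828724013909085302492406712556560591770364891844811279012029499268697909696408304291799535002749432390065260102274,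 145152112265403669457104602032178195976272597221264747844393911901959368036520361080127327872225300950775877500942608103183264166691165209710825302405673950990504570847872170555949531728449666, 145152110107638854119370989192512800715406203048411023879968741300487453636365731442689051648831117321623834517757613487597206427632210426367102757183037820051706259996769308670139802421559297, 18178824584331021815288279712388644568926735302066552704204549597126830276131874761022395800727242861366444516394938117603817619616777566340604137192524336693806913774246686433914799758770177, 145152127639344190414742654088680053070850093619664834682592112442577731510534798861475971077419429754839497960241128670383009576235121006959948172556214750378723481204428501988640819184140354,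 282837894267870208840515060984063265332270735962384160665494577126581775133257984413009921421286073904872935721250344690431729853913999766819105765073399916170042250293669670607775337545793, 4368385917081162836948988106400316853175336499075029024854614809418691507961586401543562083476707260107995744482110385753131536872524167410946562561114952234541365795911732082061721207313, 1161226690423937275757336853899869722938498119723191259440251016086348053917616312753175796395692258727886749783749630212257476460338463340070903347957635463634099514874946380153316754504843920, 4351086586674482485189196101611282704725291659502646792288528009421108999655659993207793652987286387882282838909309647127635197999284011367900904305175549746293154001072889812299026563664, 4491838156860372998001980682320647841525868001939060707574262171330576805512835661562692000805127807821090526721061001157874075676830506636676696277695384856916343470745816284447574593680,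 4368410814174576145550513729776747113589921775069057136064987877761940634850582496866994127274612872586266940916759451986574820254073608469228151238572977382109683777109462248501801914448, 18178822455629562680128739253468289665171668100653452249012520941120487513906443216829598357752890483254436048064610519685035643556049162250614721332371981245624352997657639840871549469982728, 4368618289953004438905315720433865195301087366554781800476006250276919492316329704141367895160537570866765752024866212151986179881144171965752412098265477858639527460912453865131220140098, 18448607069390069019477573023202588099943645889856548516596279106889520370259620559209256937655414995269547741372231818732786585137062696303172337917753657814685858944529422524182739085693072, 18170137585936373402304904422817380239815527718838014677480087217945977504100121688900275793416856051114665057019303041638021348835099700942119415982469940087674914696085887796138711290216449,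 34808692693395857949244806375869286132058439280817239805195597215732475742375623150121905819117909897514183554856193372400325329580232722902094912985222047845591222393999690117349533286408, 2271267198242275206854373142054055025311801386175940272758114190871151734276761499616436209442489566926149877717896553130561143663552105061282800322356886055490004997133642045857737034698833, 282820628133841345596080456615358887686570356869729383860588628747423197317463523797628713113255190206215578327789440565957209731101605998759385893188004228381027814018640765970585764233281, 287188976705025149390671073077389243746060831856611095383139434171499417259783990509787035457307833284196265388881282404469329427227799855400301741675459904431885250854689625086546418860098, 18387674383583083423789848272264151041372366361488350476417095490618974106368829422277688175517845831062032186329493835234964995014340183245437425973584198026068336949622353805406633902215298,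 4368618290210228297972814771505934499148399522997393912451643659883271762672830970411346703652372635273320518388138324432186077748051702255770176508340617610353285430425912149746837914192]

noncomputable def dec : ℕ → ℕ → List (Fin 3)
  | 0, _ => []
  | f + 1, p => if p ≤ 1 then [] else Fin.ofNat 3 (p % 8) :: dec f (p / 8)

noncomputable def move (u v : Fin 32) : List (Fin 3) :=
  dec 7 ((g1 moveR u.1 >>> (20 * v.1)) &&& 1048575)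

noncomputable def typN : List ℕ :=
  [5, 1, 6, 2, 4, 2, 6, 4, 2, 6, 6, 6, 6, 6, 6, 6, 3, 6, 6, 3, 3, 3, 3, 3, 6, 6, 6, 6, 6, 6, 6, 6, 6, 6, 6, 6, 3, 3, 6, 6, 6, 6, 3, 6, 3, 3, 3, 6, 6, 6, 6, 6, 6, 6, 6, 3, 3, 3, 3, 6, 6, 6, 6, 6, 6, 6, 6, 6, 3, 6, 3, 3, 3, 6, 6, 6, 6, 6, 6, 6, 6, 6, 6, 6, 6, 6, 6, 6, 3, 3, 3, 3, 3, 3, 3, 6, 3, 6, 6, 3, 3, 3, 3, 6, 3, 3, 6, 3, 3]

noncomputable def typ (c : Fin 109) : Fin 7 := Fin.ofNat 7 (g1 typN c.1)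

set_option maxHeartbeats 0 in
noncomputable def pathN : List (List (List (List ℕ))) :=
  [[[], [[]], [[2, 1]], [], [[2, 0]], [[2, 0, 2, 1, 1]], [], [[2, 1, 1, 0]], [[2, 1, 1, 0, 2]], [], [[2, 0, 2, 0]], [[2, 1, 1, 1, 2]], [], [[2, 0, 2, 1, 1, 0]], [], [[2, 1, 0]], [], [[2, 0, 2, 1, 1, 1]], [], [[2, 1, 1]], [], [[2, 1, 1, 1]], [], [[2, 0, 2, 1]], [], [[2]], [], [[2, 0, 2, 2]], [], [[2, 0, 2]], [], [[2, 1, 1, 2]]], [[], [], [], [[]], [], [], [], [], [], [[1, 0]], [[2, 0]], [], [], [[1, 2, 0]], [[0]], [[0, 2, 0]], [], [], [[1]], [[0, 2, 1]], [], [[1, 2, 1]], [[1, 1]], [[2, 1]], [], [], [[2, 2]], [[0, 2]], [], [[2]], [[0, 2, 2]], [[1, 2]]], [[], [[0, 2, 0], [2, 1, 0]], [[1, 2, 1, 1], [2, 2, 0, 2, 1]], [[1, 1, 0]], [[]], [[2, 2, 1]], [[1, 0], [2, 0], []], [[2, 0, 2, 0], [2, 0], []], [[2, 1, 1, 1, 2], [2, 0], []], [[2, 0], []], [[1, 2, 1, 0], []], [[0, 2], [2, 0, 2, 2], [2, 0], []], [[2, 0, 2, 1, 1, 0], [2, 1, 0]], [[1, 2, 0], [2, 0, 2, 0], [2, 0], []], [[0], [2, 0, 2, 1, 1, 0], [2, 1, 0]], [[2, 1, 0]], [[1], [2, 0, 2, 2, 1], [2, 2, 1]], [[2, 2, 1, 1], [2, 0, 2, 2, 1], [2, 2, 1]], [[2, 0, 2, 2, 1], [2, 2, 1]], [[0, 2, 1], [2, 2, 1]], [[2, 1, 1, 2, 1], [2, 2, 0, 2, 1]], [[1, 2, 1], [2, 2, 1, 1], [2, 0, 2, 2, 1], [2, 2, 1]], [[1, 1], [2, 1, 1, 2, 1], [2, 2, 0, 2, 1]], [[2, 2, 0, 2, 1]], [[2, 2], [2, 0, 2, 2], [2, 0], []], [[2], [0, 2, 2], [2, 1, 1, 0, 2, 2], [2, 1, 1, 1, 2], [2, 0], []], [[0, 2, 0, 2], [2, 2], [2, 0, 2, 2], [2, 0], []], [[2, 0, 2, 2], [2, 0], []], [[0, 2, 2], [2, 1, 1, 0, 2, 2], [2, 1, 1, 1, 2], [2, 0], []], [[2, 1, 1, 2], [2, 1, 1, 0, 2, 2], [2, 1, 1, 1, 2], [2, 0], []], [[2, 1, 1, 0, 2, 2], [2, 1, 1, 1, 2], [2, 0], []], [[1, 2], [2, 1, 1, 1, 2], [2, 0], []]], [[], [], [], [[1, 1, 0]], [[2, 0], [1, 2, 0], [2, 1, 1, 0]], [[0, 2, 1], [2, 1, 1], [1, 2, 1, 1]], [[]], [[2, 1, 1, 0]], [], [[1, 0], []], [[2, 1, 0], [0, 2, 0]], [[0, 2], [2, 0, 2, 2], [1, 2]], [[2, 2, 0], [1, 1, 0]], [[1, 2, 0], [2, 1, 1, 0]], [[0], [2, 2, 0], [1, 1, 0]], [[0, 2, 0]], [[2, 2, 1]], [[2, 1]], [[1], [2, 2, 1]], [[2, 1, 1], [1, 2, 1, 1]], [[2, 0, 2, 1, 1], [1, 1, 0]], [[1, 2, 1], [2, 1]], [[1, 1], [2, 0, 2, 1, 1], [1, 1, 0]], [[1, 2, 1, 1]], [[2, 2], []], [[2]], [[0, 2, 0, 2], [2, 2], []], [[2, 0, 2, 2], [1, 2]], [[2, 0, 2], [1, 0], []], [[1, 1, 0, 2], [2]], [[0, 2, 2], [2, 0, 2], [1, 0], []], [[1, 2]]], [[], [], [], [[1, 1, 0]], [], [], [[2, 0, 2, 2, 0]], [[]], [], [[1, 0], [2, 0, 2, 2, 0]], [[1, 2, 1, 0]], [], [[2, 0]], [[1, 2, 0], []], [[0], [2, 0]], [[0, 2, 0]], [[2, 1]], [[2, 2, 1]], [[1], [2, 1]], [[0, 2, 1]], [[2, 0, 2, 2, 1]], [[1, 2, 1], [2, 2, 1]], [[1, 1], [2, 0, 2, 2, 1]], [[1, 2, 1, 1]], [[2, 2]], [[2], [2, 0, 2, 2, 0]], [[0, 2, 0, 2], [2, 2]], [[0, 2]], [[2, 0, 2]], [[1, 1, 0, 2], [2], [2, 0, 2, 2, 0]], [[0, 2, 2], [2, 0, 2]], [[1, 2]]], [[], [], [], [[2, 0, 2, 0, 1, 1, 0]], [[2, 1, 0], [2, 0, 2, 0, 0, 2, 0]], [[2, 2, 0, 2, 1], [2, 0, 2, 0, 1, 2, 1, 1]], [[2, 1, 1, 2, 0], [2, 0, 2, 0, 1, 1, 0]], [[2, 1, 1, 0], [2, 0, 2, 0, 0, 2, 0]], [], [[]], [[2, 2, 0, 2, 0]], [[2, 0, 2, 0, 2], [2, 0, 2, 0, 1, 2]], [[2, 0, 2, 1, 1, 0]], [[2, 0, 2, 2, 0]], [[2, 2, 0], [2, 0, 2, 0, 1, 1, 0]], [[2, 0, 2, 0, 0, 2, 0]], [[2, 0, 2, 0, 1], [2, 2, 1]], [[2, 0, 2, 2, 1, 1], [2, 0, 2, 0, 1, 2, 1, 1]], [[2, 2, 1]], [[2, 1, 1]], [[2, 1, 1, 2, 1]], [[2, 1]], [[2, 0, 2, 1, 1], [2, 0, 2, 0, 1, 1, 0]], [[2, 0, 2, 0, 1, 2, 1, 1]], [[2, 2], []], [[2], [2, 0, 2, 0, 1, 2]], [[2, 1, 1, 0, 2], [2, 1, 1, 2, 0], [2, 0, 2, 0, 1, 1, 0]], [[2, 0, 2, 2]], [[2, 0, 2], [2, 1, 1, 2, 0], [2, 0, 2, 0, 1, 1, 0]], [[2, 1, 1, 0, 2, 2]], [[2, 1, 1, 1, 2], []], [[2, 0, 2, 0, 1, 2]]], [[], [[2, 0, 2, 0, 0, 2, 0], [2, 1, 0], [2, 0, 2, 0, 1, 1, 0]], [[2, 0, 2, 0, 1, 2, 1, 1], [2, 0, 2, 1, 1], [2, 0, 2, 0, 1, 1, 0]], [[2, 0, 2, 0, 1, 1, 0]], [[2, 0, 2, 0, 1, 2, 1, 0], []], [[2, 0, 2, 0, 0, 2, 1], [2, 1, 1]], [[2, 0], [2, 0, 2, 0, 1, 2, 1, 0], []], [[2, 1, 1, 0], [2, 0, 2, 0, 0], [2, 0, 2, 2, 0], [2, 0, 2, 0, 0, 2, 0], [2, 1, 0], [2, 0, 2, 0, 1, 1, 0]], [[2, 0, 2, 0, 1, 2], [2, 0, 2, 0, 2], [2, 0, 2, 0, 1, 0], [2, 0], [2, 0, 2, 0, 1, 2, 1, 0], []], [[2, 0, 2, 0, 1, 0], [2, 0], [2, 0, 2, 0, 1, 2, 1, 0], []], [[]], [[2, 0, 2, 0, 0, 2], [2, 0, 2, 2], [2, 0], [2, 0, 2, 0, 1, 2, 1, 0], []], [[2, 0, 2, 2, 0], [2, 0, 2, 0, 0, 2, 0], [2, 1, 0], [2, 0, 2, 0, 1, 1, 0]], [[2, 0, 2, 0], [2, 0, 2, 0, 1, 0], [2, 0], [2, 0, 2, 0, 1, 2, 1, 0], []], [[2, 0, 2, 0, 0], [2, 0, 2, 2, 0], [2, 0, 2, 0, 0, 2, 0], [2, 1, 0], [2, 0, 2, 0, 1, 1, 0]], [[2, 1, 0], [2, 0, 2, 0, 1, 1, 0]], [[2, 0, 2, 2, 1], [2, 0, 2, 0, 0, 2, 1], [2, 1, 1]], [[2, 0, 2, 1], [2, 0, 2, 0, 1, 1], [2, 1], [2, 0, 2, 0, 1, 2, 1, 1], [2, 0, 2, 1, 1], [2, 0, 2, 0, 1, 1, 0]], [[2, 0, 2, 0, 1], [2, 0, 2, 2, 1], [2, 0, 2, 0, 0, 2, 1], [2, 1, 1]], [[2, 1, 1]], [[2, 1], [2, 0, 2, 0, 1, 2, 1, 1], [2, 0, 2, 1, 1], [2, 0, 2, 0, 1, 1, 0]], [[2, 1, 1, 1], [2, 0, 2, 0, 1], [2, 0, 2, 2, 1], [2, 0, 2, 0, 0, 2, 1], [2, 1, 1]], [[2, 0, 2, 0, 1, 1], [2, 1], [2, 0, 2, 0, 1, 2, 1, 1], [2, 0, 2, 1, 1], [2, 0, 2, 0, 1, 1, 0]], [[2, 0, 2, 1, 1], [2, 0, 2, 0, 1, 1, 0]], [[2, 2], [2, 0, 2, 0, 0, 2], [2, 0, 2, 2], [2, 0], [2, 0, 2, 0, 1, 2, 1, 0], []], [[2], [2, 0, 2, 0, 0, 2, 2], [2, 0, 2], [2, 0, 2, 0, 1, 2], [2, 0, 2, 0, 2], [2, 0, 2, 0, 1, 0], [2, 0], [2, 0, 2, 0, 1, 2, 1, 0], []], [[2, 0, 2, 0, 0, 2, 0, 2], [2, 2], [2, 0, 2, 0, 0, 2], [2, 0, 2, 2], [2, 0], [2, 0, 2, 0, 1, 2, 1, 0], []], [[2, 0, 2, 2], [2, 0], [2, 0, 2, 0, 1, 2, 1, 0], []], [[2, 0, 2], [2, 0, 2, 0, 1, 2], [2, 0, 2, 0, 2], [2, 0, 2, 0, 1, 0], [2, 0], [2, 0, 2, 0, 1, 2, 1, 0], []], [[2, 1, 0, 2], [2, 0, 2, 0, 0, 2, 0, 2], [2, 2], [2, 0, 2, 0, 0, 2], [2, 0, 2, 2], [2, 0], [2, 0, 2, 0, 1, 2, 1, 0], []], [[2, 0, 2, 0, 0, 2, 2], [2, 0, 2], [2, 0, 2, 0, 1, 2], [2, 0, 2, 0, 2], [2, 0, 2, 0, 1, 0], [2, 0], [2, 0, 2, 0, 1, 2, 1, 0], []], [[2, 0, 2, 0, 2], [2, 0, 2, 0, 1, 0], [2, 0], [2, 0, 2, 0, 1, 2, 1, 0], []]], [[], [], [], [[1, 1, 0]], [], [], [[1, 0], [2, 0, 2, 0]], [[1, 2, 0], []], [], [[2, 0, 2, 0]], [[1, 2, 1, 0]], [], [[0], [2, 0]], [[]], [[2, 0]], [[0, 2, 0]], [[1], [2, 1]], [[1, 2, 1], [2, 2, 1]], [[2, 1]], [[0, 2, 1]], [[1, 1], [2, 0, 2, 1]], [[2, 2, 1]], [[2, 0, 2, 1]], [[1, 2, 1, 1]], [[2, 2], [1, 2]], [[2], [2, 0, 2, 0]], [[2, 1, 0, 2]], [[0, 2]], [[0, 2, 2], [2, 1, 1, 2]], [[1, 1, 0, 2], [2], [2, 0, 2, 0]], [[2, 1, 1, 2]], [[1, 2]]], [[], [], [], [[1, 1, 0]], [[2, 0]], [[2, 1]], [[1, 0], [2, 2, 0], [1, 1, 0]], [[1, 2, 0], [2, 1, 0], [0, 2, 0]], [], [[2, 2, 0], [1, 1, 0]], [[1, 2, 1, 0], [2, 0]], [[2, 1, 1, 2, 2]], [[0], []], [[2, 1, 0], [0, 2, 0]], [[]], [[0, 2, 0]], [[1], [2, 2, 1, 1], [1, 1, 0]], [[1, 2, 1], [2, 1, 1, 1], [1, 2, 1, 1]], [[2, 2, 1, 1], [1, 1, 0]], [[0, 2, 1], [2, 1]], [[1, 1], [2, 2, 1]], [[2, 1, 1, 1], [1, 2, 1, 1]], [[2, 2, 1]], [[1, 2, 1, 1]], [[0, 2, 0, 2], [2, 1, 0, 2], [2, 2, 0], [1, 1, 0]], [[2], [0, 2], [2, 1, 1, 2, 2]], [[2, 1, 0, 2], [2, 2, 0], [1, 1, 0]], [[0, 2], [2, 1, 1, 2, 2]], [[2, 2], [0, 2, 0, 2], [2, 1, 0, 2], [2, 2, 0], [1, 1, 0]], [[2, 2, 0, 2], [1, 2]], [[2, 1, 1, 2], [1, 0], [2, 2, 0], [1, 1, 0]], [[1, 2]]], [[], [[2, 0, 2, 1, 0]], [[2, 1]], [[0, 2, 1, 0, 1, 1, 0]], [[2, 0], [0, 2, 1, 0, 1, 1, 0]], [[2, 0, 2, 1, 1], [0, 2, 1, 0, 1, 1, 0]], [[1, 0], [0, 2, 1, 0, 0, 2, 0], [2, 0, 2, 1, 0]], [[1, 1, 0], [0, 2, 1, 0, 1, 1, 0]], [[1, 0, 2], [0, 2, 1, 0, 0, 2, 0, 2], [2], []], [[0, 2, 0], [2, 0, 2, 1, 0]], [[2, 0, 2, 0], [0, 2, 0], [2, 0, 2, 1, 0]], [[2, 1, 1, 1, 2], [0, 2, 0], [2, 0, 2, 1, 0]], [[2, 0, 2, 1, 1, 0], [0, 2, 1, 0]], [[0, 2, 1, 0]], [[0], [2, 0], [0, 2, 1, 0, 1, 1, 0]], [[0, 2, 1, 0, 0, 2, 0], [2, 0, 2, 1, 0]], [[0, 2, 1, 0, 1], [1], [2, 1]], [[0, 2, 1, 1], [0, 2, 1, 0, 1, 1, 0]], [[1], [2, 1]], [[1, 1], [2, 1, 1, 1], [1, 1, 1]], [[2, 1, 1, 1], [1, 1, 1]], [[1, 1, 1]], [[0, 2, 1], [2, 0, 2, 1, 1], [0, 2, 1, 0, 1, 1, 0]], [[0, 2, 1, 0, 1, 2, 1, 1], [2, 1]], [[2], []], [[]], [[0, 2, 1, 0, 0, 2, 0, 2], [2], []], [[0, 2], [2, 0, 2], [0, 2, 1, 0, 1, 1, 0, 2], []], [[2, 0, 2], [0, 2, 1, 0, 1, 1, 0, 2], []], [[0, 2, 1, 0, 1, 1, 0, 2], []], [[1, 1, 2], [2, 1, 1, 1, 2], [0, 2, 0], [2, 0, 2, 1, 0]], [[1, 2], [2], []]], [[], [[0, 2, 0]], [[1, 1, 1]], [[2, 0, 2, 0, 1, 1, 0]], [[1, 1, 0], [2, 0, 2, 0, 1, 1, 0]], [[0, 2, 1], [2, 0, 2, 0, 1, 1, 0]], [[2, 0], [2, 0, 2, 0, 1, 1, 0]], [[1, 0], [2, 0], [2, 0, 2, 0, 1, 1, 0]], [[1, 0, 2], [2, 0], [2, 0, 2, 0, 1, 1, 0]], [[2, 2, 0, 2, 0]], [[0, 2, 2, 0], [2, 2, 0, 2, 0]], [[], [0, 2, 0]], [[2, 0, 2, 2, 0]], [[0, 2, 1, 0], [2, 0, 2, 2, 0]], [[2, 1, 0], [2, 0, 2, 0, 1, 1, 0]], [[2, 0, 2, 0, 0, 2, 0], [0, 2, 0]], [[2, 0, 2, 0, 1], [2, 1, 1]], [[0, 2, 1, 1], [2, 0, 2, 0, 1], [2, 1, 1]], [[2, 1, 1]], [[1], [2, 1, 1]], [[2, 1]], [[1, 1], [2, 1]], [[2, 2, 0, 2, 1], [2, 0, 2, 0, 1, 1, 0]], [[2, 0, 2, 0, 1, 2, 1, 1], [1, 1, 1]], [[2, 1, 1, 2, 2], [2, 2, 0, 2, 0]], [[2, 2], [], [0, 2, 0]], [[2, 0, 2, 2], [2, 0], [2, 0, 2, 0, 1, 1, 0]], [[2, 0, 2, 0, 0, 2], [], [0, 2, 0]], [[2, 1, 1, 0, 2, 2], [2, 0], [2, 0, 2, 0, 1, 1, 0]], [[0, 2, 2], [2, 1, 1, 0, 2, 2], [2, 0], [2, 0, 2, 0, 1, 1, 0]], [[2, 0, 2, 0, 2], [2, 2, 0, 2, 0]], [[1, 2], [2, 0, 2, 0, 2], [2, 2, 0, 2, 0]]], [[], [[], [1, 1, 1]], [[2, 2, 1], [1, 1, 1]], [[0, 1, 1, 0]], [[2, 2, 0], [1, 1, 0], [0, 1, 1, 0]], [[0, 2, 1], [0, 1, 2, 1], [2, 1]], [[1, 0]], [[2, 0, 2, 2, 0]], [[2], [0, 2, 0, 2], [1, 0]], [[0, 1, 0], [1, 0]], [[2, 1, 0], [0], [0, 1, 0], [1, 0]], [[1, 1, 2], [2, 0, 2], [0, 1, 0], [1, 0]], [[1, 1, 0], [0, 1, 1, 0]], [[2, 0], [0, 1, 1, 0]], [[0], [0, 1, 0], [1, 0]], [[0, 0, 2, 0], [], [1, 1, 1]], [[1, 1, 1]], [[2, 1]], [[0, 1], [1, 1, 1]], [[0, 0, 2, 1], [0, 2, 1], [0, 1, 2, 1], [2, 1]], [[1, 1], [0, 1, 1, 0]], [[0, 1, 2, 1], [2, 1]], [[1], [0, 1], [1, 1, 1]], [[2, 1, 1], [0, 1], [1, 1, 1]], [[0, 2, 0, 2], [1, 0]], [[2, 2], [1, 0]], [[0, 0, 2, 0, 2], [0, 2, 0, 2], [1, 0]], [[0, 2], [0, 1, 2], [2], [0, 2, 0, 2], [1, 0]], [[0, 2, 2], [0, 1, 0], [1, 0]], [[2, 0, 2], [0, 1, 0], [1, 0]], [[0, 0, 2, 2], [0, 2, 2], [0, 1, 0], [1, 0]], [[0, 1, 2], [2], [0, 2, 0, 2], [1, 0]]], [[], [[], [1, 1, 1]], [[2, 2, 1], [1, 1, 1]], [[0, 1, 1, 0]], [[2, 2, 0], [1, 1, 0], [0, 1, 1, 0]], [[1, 1], [2, 1, 1, 1], [0, 1, 1, 0]], [[2, 1, 1, 0]], [[1, 2, 0]], [[2, 2], [1, 0, 2, 2], [2, 1, 1, 0]], [[0, 1, 0], [2, 1, 1, 0]], [[0], [0, 0], [2, 0], [0, 1, 1, 0]], [[0, 2, 2], [2, 2, 0, 2], [0, 1, 0], [2, 1, 1, 0]], [[2, 0], [0, 1, 1, 0]], [[1, 1, 0], [0, 1, 1, 0]], [[0, 0], [2, 0], [0, 1, 1, 0]], [[0, 0, 2, 0], [], [1, 1, 1]], [[2, 1]], [[1, 1, 1]], [[0, 1], [2, 1]], [[0, 0, 2, 1], [1, 1], [2, 1, 1, 1], [0, 1, 1, 0]], [[2, 1, 1, 1], [0, 1, 1, 0]], [[1, 2, 1], [0, 1, 1, 0]], [[0, 1, 1], [2, 1, 1, 1], [0, 1, 1, 0]], [[1], [0, 1], [2, 1]], [[2], [2, 1, 1, 0]], [[1, 0, 2, 2], [2, 1, 1, 0]], [[0, 0, 2, 0, 2], [2], [2, 1, 1, 0]], [[0, 2], [0, 0, 2, 2], [2, 2, 0, 2], [0, 1, 0], [2, 1, 1, 0]], [[2, 2, 0, 2], [0, 1, 0], [2, 1, 1, 0]], [[1, 2, 2], [0, 1, 0], [2, 1, 1, 0]], [[0, 0, 2, 2], [2, 2, 0, 2], [0, 1, 0], [2, 1, 1, 0]], [[1, 2], [0, 0, 2, 0, 2], [2], [2, 1, 1, 0]]], [[], [[], [1, 1, 1]], [[2, 1, 1], [1, 1, 1]], [[0, 2, 0, 1, 1, 0]], [[2, 1, 0], [1, 1, 0], [0, 2, 0, 1, 1, 0]], [[0, 2, 1], [2, 0, 2, 2, 1], [0, 2, 0, 1, 1, 0]], [[1, 0], [0, 2, 0, 1, 1, 0]], [[2, 0], [0, 2, 0, 1, 1, 0]], [[1, 0, 2], [2, 0, 2], [1, 0], [0, 2, 0, 1, 1, 0]], [[0, 2, 2, 1, 0]], [[0, 2, 1, 0], [2, 0, 2, 2, 0]], [[1, 1, 2], [2, 2], [0, 2, 2, 1, 0]], [[1, 0, 2, 2, 0]], [[2, 0, 2, 2, 0]], [[1, 1, 0], [0, 2, 0, 1, 1, 0]], [[1, 2, 0], [2, 0], [0, 2, 0, 1, 1, 0]], [[0, 2, 0, 1], [1, 1, 1]], [[2, 0, 2, 2, 1], [0, 2, 0, 1, 1, 0]], [[1, 1, 1]], [[1, 2, 1], [2, 1]], [[1, 1]], [[2, 1]], [[0, 2, 0, 1, 1], [1, 1]], [[0, 2, 1, 1], [2, 0, 2, 2, 1], [0, 2, 0, 1, 1, 0]], [[0, 2, 0, 2], [0, 2, 2, 1, 0]], [[2, 2], [0, 2, 2, 1, 0]], [[1, 0, 2, 2], [1, 0], [0, 2, 0, 1, 1, 0]], [[1, 1, 0, 2], [2, 0, 2], [1, 0], [0, 2, 0, 1, 1, 0]], [[0, 2, 2], [1, 0], [0, 2, 0, 1, 1, 0]], [[2, 0, 2], [1, 0], [0, 2, 0, 1, 1, 0]], [[1, 2, 2], [0, 2, 2, 1, 0]], [[2], [0, 2, 0, 2], [0, 2, 2, 1, 0]]], [[], [[], [1, 1, 1]], [[1], [2, 1]], [[0, 2, 1, 0, 1, 1, 0]], [[0], [2, 0], [0, 2, 1, 0, 1, 1, 0]], [[0, 2, 1], [2, 0, 2, 2, 1], [0, 2, 1, 0, 1, 1, 0]], [[2, 1, 1, 0], [0, 2, 1, 0, 1, 1, 0]], [[1, 1, 0], [0, 2, 1, 0, 1, 1, 0]], [[1, 0, 2], [2, 1, 1, 0, 2, 2], [2, 1, 1, 0], [0, 2, 1, 0, 1, 1, 0]], [[2, 0, 2, 2, 0]], [[0, 2, 1, 1, 0], [2, 0, 2, 2, 1, 0]], [[1, 1, 2], [2, 1, 1, 2, 2], [2, 0, 2, 2, 0]], [[2, 0, 2, 2, 1, 0]], [[0, 2, 1, 0]], [[2, 0], [0, 2, 1, 0, 1, 1, 0]], [[1, 0], [2, 1, 1, 0], [0, 2, 1, 0, 1, 1, 0]], [[0, 2, 1, 0, 1], [2, 1]], [[0, 2, 1, 1], [0, 2, 1, 0, 1, 1, 0]], [[2, 1]], [[1, 1], [2, 1, 1, 1]], [[2, 1, 1, 1]], [[1, 1, 1]], [[2, 0, 2, 2, 1], [0, 2, 1, 0, 1, 1, 0]], [[0, 2, 1, 1, 1], [0, 2, 1, 0, 1], [2, 1]], [[2], [2, 0, 2, 2, 0]], [[1, 2, 2], [2, 0, 2, 2, 0]], [[2, 1, 1, 0, 2, 2], [2, 1, 1, 0], [0, 2, 1, 0, 1, 1, 0]], [[0, 2], [2, 2, 0, 2], [2, 1, 1, 0], [0, 2, 1, 0, 1, 1, 0]], [[2, 2, 0, 2], [2, 1, 1, 0], [0, 2, 1, 0, 1, 1, 0]], [[1, 0, 2, 2], [2, 1, 1, 0], [0, 2, 1, 0, 1, 1, 0]], [[2, 1, 1, 2, 2], [2, 0, 2, 2, 0]], [[1, 2], [2], [2, 0, 2, 2, 0]]], [[], [[2, 0, 2, 1, 0]], [[2, 1]], [[0, 2, 1, 0, 1, 1, 0]], [[2, 0], [0, 2, 1, 0, 1, 1, 0]], [[2, 0, 2, 1, 1], [0, 2, 1, 0, 1, 1, 0]], [[1, 1, 0], [0, 2, 1, 0, 1, 1, 0]], [[1, 2, 0], [2, 0], [0, 2, 1, 0, 1, 1, 0]], [[2, 1, 1, 0, 2], [1, 1, 0], [0, 2, 1, 0, 1, 1, 0]], [[0, 2, 2, 0]], [[0, 2, 0], [2, 0, 2, 1, 0]], [[2, 1, 1, 1, 2], [0, 2, 2, 0]], [[0, 2, 2, 1, 0]], [[0, 2, 1, 0], [2, 0, 2, 1, 0]], [[0], [0, 2, 1, 0, 1, 1, 0]], [[0, 2, 1, 0, 0, 2, 0], [2, 0, 2, 1, 0]], [[0, 2, 1, 0, 1], [1]], [[0, 2, 1, 1], [2, 0, 2, 1, 1], [0, 2, 1, 0, 1, 1, 0]], [[1]], [[2, 1, 1], [1]], [[1, 1, 1]], [[1, 2, 1], [2, 1]], [[0, 2, 2, 1], [0, 2, 1, 0, 1, 1, 0]], [[0, 2, 1, 0, 1, 2, 1, 1], [2, 1]], [[], [2, 0, 2, 1, 0]], [[2], [], [2, 0, 2, 1, 0]], [[1, 1, 0, 2, 2], [1, 1, 0], [0, 2, 1, 0, 1, 1, 0]], [[0, 2, 1, 0, 0, 2], [2, 1, 1, 1, 2], [0, 2, 2, 0]], [[1, 0, 2, 2], [1, 1, 0], [0, 2, 1, 0, 1, 1, 0]], [[0, 2], [0, 2, 1, 0, 0, 2], [2, 1, 1, 1, 2], [0, 2, 2, 0]], [[1, 1, 2, 2], [0, 2, 2, 0]], [[1, 1, 2], [2, 1, 1, 1, 2], [0, 2, 2, 0]]], [[], [], [], [[1, 0, 1, 1, 0]], [[1, 1, 0]], [[1, 1, 1]], [[2, 1, 1, 0]], [[2, 0, 2, 1, 0]], [[]], [[2, 1, 0], [0, 2, 0]], [[1, 0], [2, 0, 2, 1, 0]], [[1, 2, 2], []], [[2, 0], [1, 0, 1, 1, 0]], [[0], [1, 0, 0, 2, 0]], [[0, 2, 0]], [[1, 0, 0, 2, 0]], [[2, 1]], [[2, 2, 1]], [[0, 2, 1], [1, 0, 1, 1, 0]], [[1], [2, 2, 1]], [[1, 2, 1], [2, 1]], [[1, 1], [1, 0, 1, 2, 1, 1]], [[1, 2, 1, 1]], [[1, 0, 1, 2, 1, 1]], [[2], [2, 1, 1, 0]], [[2, 2], []], [[0, 2], [2, 1, 0], [0, 2, 0]], [[0, 2, 0, 2], [2, 2], []], [[1, 1, 0, 2], [2], [2, 1, 1, 0]], [[0, 2, 2], [1, 0, 1, 2], []], [[1, 2], [2, 1, 1, 0]], [[1, 0, 1, 2], []]], [[], [[0, 2, 0]], [[1, 1, 1]], [[2, 0, 2, 0, 1, 1, 0]], [[1, 1, 0], [2, 0, 2, 0, 1, 1, 0]], [[0, 2, 1], [2, 0, 2, 0, 1, 1, 0]], [[1, 0], [2, 0], [2, 0, 2, 0, 1, 1, 0]], [[2, 0], [2, 0, 2, 0, 1, 1, 0]], [[1, 0, 2], [1, 0], [2, 0], [2, 0, 2, 0, 1, 1, 0]], [[], [1, 1, 1]], [[0, 2, 2, 0], [], [1, 1, 1]], [[1, 1, 2], [], [1, 1, 1]], [[0, 2, 1, 0], [2, 0, 2, 2, 0]], [[2, 0, 2, 2, 0]], [[0], [2, 0, 2, 0, 0, 2, 0], [0, 2, 0]], [[2, 0, 2, 0, 0, 2, 0], [0, 2, 0]], [[0, 2, 1, 1], [2, 0, 2, 2, 1], [2, 0, 2, 0, 1, 1, 0]], [[2, 0, 2, 2, 1], [2, 0, 2, 0, 1, 1, 0]], [[2, 1, 1], [1, 1, 1]], [[1], [2, 1, 1], [1, 1, 1]], [[1, 1], [2, 1]], [[2, 1]], [[0, 2, 2, 1], [2, 0, 2, 0, 1, 2, 1, 1], [1, 1, 1]], [[2, 0, 2, 0, 1, 2, 1, 1], [1, 1, 1]], [[0, 2, 0, 2], [2, 2], [], [1, 1, 1]], [[2, 2], [], [1, 1, 1]], [[0, 2], [2, 0, 2, 0, 0, 2], [1, 1, 2], [], [1, 1, 1]], [[2, 0, 2, 0, 0, 2], [1, 1, 2], [], [1, 1, 1]], [[0, 2, 2], [2, 0, 2], [1, 0], [2, 0], [2, 0, 2, 0, 1, 1, 0]], [[2, 0, 2], [1, 0], [2, 0], [2, 0, 2, 0, 1, 1, 0]], [[2, 0, 2, 0, 2], [1, 1, 2], [], [1, 1, 1]], [[2], [0, 2, 0, 2], [2, 2], [], [1, 1, 1]]], [[], [[0, 2, 0]], [[1, 1, 1]], [[2, 0, 2, 0, 1, 1, 0]], [[1, 1, 0], [2, 0, 2, 0, 1, 1, 0]], [[0, 2, 1], [2, 0, 2, 0, 1, 1, 0]], [[2, 0], [2, 0, 2, 0, 1, 1, 0]], [[1, 0], [2, 0], [2, 0, 2, 0, 1, 1, 0]], [[1, 0, 2], [2, 0], [2, 0, 2, 0, 1, 1, 0]], [[2, 2, 0, 2, 0]], [[], [1, 1, 1]], [[1, 1, 2], [2, 2, 0, 2, 0]], [[2, 0, 2, 2, 0]], [[0, 2, 1, 0], [2, 0, 2, 2, 0]], [[2, 1, 0], [2, 0, 2, 0, 1, 1, 0]], [[2, 0, 2, 0, 0, 2, 0], [0, 2, 0]], [[2, 0, 2, 0, 1], [2, 1, 1]], [[0, 2, 1, 1], [2, 0, 2, 0, 1], [2, 1, 1]], [[2, 1, 1]], [[1], [2, 1, 1]], [[2, 1]], [[1, 1], [2, 1]], [[2, 2, 0, 2, 1], [2, 0, 2, 0, 1, 1, 0]], [[2, 0, 2, 0, 1, 2, 1, 1], [1, 1, 1]], [[2, 1, 1, 2, 2], [2, 2, 0, 2, 0]], [[2, 2], [1, 1, 2], [2, 2, 0, 2, 0]], [[2, 0, 2, 2], [2, 0], [2, 0, 2, 0, 1, 1, 0]], [[2, 0, 2, 0, 0, 2], [1, 1, 2], [2, 2, 0, 2, 0]], [[2, 1, 1, 0, 2, 2], [2, 0], [2, 0, 2, 0, 1, 1, 0]], [[0, 2, 2], [2, 1, 1, 0, 2, 2], [2, 0], [2, 0, 2, 0, 1, 1, 0]], [[2, 0, 2, 0, 2], [2, 2, 0, 2, 0]], [[1, 2], [2, 0, 2, 0, 2], [2, 2, 0, 2, 0]]], [[], [], [], [[2, 0, 2, 0, 1, 1, 0]], [[2, 2, 0], [2, 0, 2, 0, 0, 2, 0]], [[2, 0, 2, 1, 1], [2, 0, 2, 0, 1, 2, 1, 1]], [[2, 0], [2, 0, 2, 0, 1, 1, 0]], [[2, 2, 1, 0], [2, 0, 2, 0, 0, 2, 0]], [[2, 1, 1, 0, 2], [2, 0, 2, 0, 0, 2], []], [[2, 2, 0, 2, 0]], [[2, 0, 2, 1, 0]], [[]], [[2, 0, 2, 2, 0]], [[2, 0, 2, 1, 1, 0]], [[2, 1, 0], [2, 0, 2, 0, 1, 1, 0]], [[2, 0, 2, 0, 0, 2, 0]], [[2, 0, 2, 0, 1], [2, 1, 1]], [[2, 0, 2, 1], [2, 0, 2, 0, 1, 2, 1, 1]], [[2, 1, 1]], [[2, 2, 1]], [[2, 1]], [[2, 1, 1, 2, 1]], [[2, 2, 0, 2, 1], [2, 0, 2, 0, 1, 1, 0]], [[2, 0, 2, 0, 1, 2, 1, 1]], [[2, 1, 1, 2, 2], [2, 2, 0, 2, 0]], [[2, 2], []], [[2, 0, 2, 2], [2, 0], [2, 0, 2, 0, 1, 1, 0]], [[2, 0, 2, 0, 0, 2], []], [[2, 1, 1, 0, 2, 2], [2, 0], [2, 0, 2, 0, 1, 1, 0]], [[2, 1, 0, 2], [2, 0, 2, 0, 0, 2], []], [[2, 0, 2, 0, 2], [2, 2, 0, 2, 0]], [[2, 1, 1, 1, 2], []]], [[], [], [], [[0, 2, 1, 0, 1, 1, 0]], [[0], [0, 2, 1, 0, 0, 2, 0]], [[0, 2, 2, 1], [0, 2, 1, 0, 1, 2, 1, 1]], [[1, 2, 0], [0, 2, 1, 0, 1, 1, 0]], [[1, 0], [0, 2, 1, 0, 0, 2, 0]], [[1, 0, 2, 2], [0, 2, 1, 0, 1, 1, 0, 2], []], [[0, 2, 0]], [[0, 2, 2, 0]], [[1, 2, 2], []], [[0, 2, 1, 0]], [[0, 2, 2, 1, 0]], [[1, 2, 1, 0], [0, 2, 1, 0, 1, 1, 0]], [[0, 2, 1, 0, 0, 2, 0]], [[0, 2, 1, 1], [0, 2, 1, 0, 1, 1, 0]], [[1, 0, 2, 2, 1], [0, 2, 1, 0, 1, 2, 1, 1]], [[1, 2, 1, 1]], [[1]], [[1, 2, 1]], [[1, 1, 1]], [[0, 2, 1], [0, 2, 1, 0, 1, 1, 0]], [[0, 2, 1, 0, 1, 2, 1, 1]], [[1, 1, 1, 2], [0, 2, 0]], [[]], [[1, 0, 2], [1, 2, 0], [0, 2, 1, 0, 1, 1, 0]], [[0, 2, 2], [0, 2, 1, 0, 1, 1, 0, 2], []], [[1, 1, 0, 2], [1, 2, 0], [0, 2, 1, 0, 1, 1, 0]], [[0, 2, 1, 0, 1, 1, 0, 2], []], [[1, 1, 2], [0, 2, 0]], [[0, 2, 0, 2], []]], [[], [], [], [[0, 2, 0]], [[2, 2, 0]], [[2, 2, 1]], [[0, 1, 0], [2, 0], [0, 2, 0]], [[1, 0], [2, 2, 1, 0], [0]], [[2, 1, 1, 0, 2], [0, 0, 2], []], [[2, 0], [0, 2, 0]], [[1, 1, 0], [2, 2, 0]], [[0, 0, 2], []], [[0, 0], [2, 1, 0]], [[2, 2, 1, 0], [0]], [[2, 1, 0]], [[0]], [[0, 1], [2, 1, 1], [0, 2, 0]], [[1, 1], [2, 0, 2, 1], [1, 1, 1]], [[2, 1, 1], [0, 2, 0]], [[1], [2, 2, 1]], [[0, 1, 1], [2, 1]], [[2, 0, 2, 1], [1, 1, 1]], [[2, 1]], [[1, 1, 1]], [[0, 2], [2, 0, 2, 2], [2, 0], [0, 2, 0]], [[2, 2], []], [[2, 0, 2, 2], [2, 0], [0, 2, 0]], [[]], [[2], [0, 2], [2, 0, 2, 2], [2, 0], [0, 2, 0]], [[0, 2, 2], [2, 2], []], [[2, 0, 2, 0, 2], [0, 1, 0], [2, 0], [0, 2, 0]], [[0, 1, 2], [2, 1, 1, 0, 2], [0, 0, 2], []]], [[], [], [], [[2, 0]], [[1, 1, 0], [0, 1, 2, 0], [1, 0]], [[1, 1], [0, 1, 2, 1], [1, 1, 1]], [[0, 2, 0]], [[1, 0]], [[0, 2, 0, 2], [2, 2], []], [[0, 1, 0], [0, 2, 0]], [[0], [0, 0, 2, 0]], [[0, 2, 2], []], [[0, 2, 1, 0], [2, 0]], [[0, 1, 2, 0], [1, 0]], [[0, 0], [0, 2, 1, 0], [2, 0]], [[0, 0, 2, 0]], [[0, 2, 1, 1]], [[1, 1, 1]], [[0, 1], [0, 2, 1, 1]], [[1], [2, 2, 1]], [[0, 2, 1], [2, 0]], [[0, 1, 2, 1], [1, 1, 1]], [[0, 1, 1], [0, 2, 1], [2, 0]], [[2, 2, 1]], [[1, 0, 2], [0, 2, 0]], [[2, 2], []], [[2], [1, 0, 2], [0, 2, 0]], [[0, 0, 2], [0, 2, 2], []], [[1, 1, 2], [0, 1, 0], [0, 2, 0]], [[]], [[0, 2], [2], [1, 0, 2], [0, 2, 0]], [[0, 1, 2], [0, 2, 0, 2], [2, 2], []]], [[], [], [], [[0, 2, 0, 1, 1, 0]], [[1, 1, 0], [0, 2, 0, 0, 2, 0]], [[2, 0, 2, 1], [0, 2, 0, 1, 2, 1, 1]], [[1, 2, 1, 0], [0, 2, 0, 1, 1, 0]], [[0], [0, 2, 0, 0, 2, 0]], [[0, 2, 0, 1, 2], []], [[0, 2, 1, 1, 0]], [[2, 0, 2, 0]], [[1, 2, 2], []], [[0, 2, 0]], [[1, 0, 2, 2, 0]], [[2, 0], [0, 2, 0, 1, 1, 0]], [[0, 2, 0, 0, 2, 0]], [[0, 2, 1], [0, 2, 0, 1, 1, 0]], [[0, 2, 2, 1], [0, 2, 0, 1, 2, 1, 1]], [[2, 1]], [[1, 1, 1]], [[1, 2, 1, 1]], [[1, 1]], [[0, 2, 0, 1, 1], [1, 2, 1, 1]], [[0, 2, 0, 1, 2, 1, 1]], [[2], [0, 2, 1, 1, 0]], [[2, 2], []], [[0, 2], [1, 2, 1, 0], [0, 2, 0, 1, 1, 0]], [[1, 0, 2, 2], [0, 2, 0, 1, 2], []], [[1, 0, 2], [1, 2, 1, 0], [0, 2, 0, 1, 1, 0]], [[0, 2, 2], [0, 2, 0, 1, 2], []], [[1, 2], [0, 2, 1, 1, 0]], [[]]], [[], [[1, 1, 0]], [[0, 2, 1, 1, 1]], [[2, 0, 1, 1, 0]], [[0, 2, 1, 1, 0], [2, 0, 1, 1, 0]], [[1, 1, 1], [2, 0, 1, 1, 0]], [[1, 2], [], [2, 0, 1, 1, 0]], [[2, 0, 1, 2, 0], [2, 2, 0]], [[], [2, 0, 1, 1, 0]], [[2, 1, 0], [1, 1, 0]], [[1, 0], [2, 1, 0], [1, 1, 0]], [[0, 2], [2, 1, 0], [1, 1, 0]], [[0], [2, 2, 0]], [[2, 2, 0]], [[0, 2, 0], [2, 0, 0, 2, 0], [1, 1, 0]], [[2, 0, 0, 2, 0], [1, 1, 0]], [[1], [2, 2, 1], [2, 0, 1, 1, 0]], [[2, 2, 1], [2, 0, 1, 1, 0]], [[2, 2, 0, 2, 1], [0, 2, 1, 1, 1]], [[0, 2, 1], [2, 2, 0, 2, 1], [0, 2, 1, 1, 1]], [[0, 2, 1, 1], [2, 0, 2, 1, 1]], [[2, 0, 2, 1, 1]], [[1, 1], [2, 0, 1, 2, 1, 1], [0, 2, 1, 1, 1]], [[2, 0, 1, 2, 1, 1], [0, 2, 1, 1, 1]], [[1, 1, 0, 2], [2, 2, 0, 2], [2, 1, 0], [1, 1, 0]], [[2, 2, 0, 2], [2, 1, 0], [1, 1, 0]], [[2, 2], [], [2, 0, 1, 1, 0]], [[1, 1, 2], [2, 2], [], [2, 0, 1, 1, 0]], [[1, 1, 1, 2], [2], [1, 2], [], [2, 0, 1, 1, 0]], [[2], [1, 2], [], [2, 0, 1, 1, 0]], [[0, 2, 2], [2, 0, 1, 2], [], [2, 0, 1, 1, 0]], [[2, 0, 1, 2], [], [2, 0, 1, 1, 0]]], [[], [[1, 1, 0]], [[0, 2, 1, 1, 1]], [[2, 0, 1, 1, 0]], [[0, 2, 1, 1, 0], [2, 0, 1, 1, 0]], [[1, 1, 1], [2, 0, 1, 1, 0]], [[2, 0, 1, 0], [2, 1, 0]], [[0, 2, 1, 0], [2, 0, 1, 0], [2, 1, 0]], [[], [0, 2, 1, 1, 0], [2, 0, 1, 1, 0]], [[2, 1, 0]], [[1, 0], [2, 1, 0]], [[0, 2], [2, 1, 0]], [[2, 1, 1, 0]], [[0], [2, 1, 1, 0]], [[2, 0, 0], [2, 1, 1, 0]], [[2, 0, 0, 2, 0], [1, 1, 0]], [[2, 0, 1], [2, 2, 0, 2, 1]], [[1], [2, 0, 1], [2, 2, 0, 2, 1]], [[2, 2, 0, 2, 1]], [[0, 2, 1], [2, 2, 0, 2, 1]], [[2, 0, 2, 2, 1, 1]], [[0, 2, 1, 1], [2, 0, 2, 2, 1, 1]], [[2, 1, 1], [2, 0, 1, 1, 0]], [[2, 0, 1, 2, 1, 1], [0, 2, 1, 1, 1]], [[2, 2, 0, 2], [2, 1, 0]], [[1, 1, 0, 2], [2, 2, 0, 2], [2, 1, 0]], [[2, 0, 2, 0, 2], [2, 0, 1, 0], [2, 1, 0]], [[2, 0, 0, 2], [0, 2], [2, 1, 0]], [[2], [2, 0, 1, 0], [2, 1, 0]], [[1, 1, 1, 2], [2], [2, 0, 1, 0], [2, 1, 0]], [[2, 0, 2, 2], [2, 1, 0]], [[0, 2, 2], [2, 0, 2, 2], [2, 1, 0]]], [[], [[1, 0], [2, 1, 0]], [[0, 2, 1, 1, 1], [2, 2, 0, 2, 1]], [[0, 1, 1, 0]], [[], [1, 1, 1], [0, 1, 1, 0]], [[1, 1], [0, 1, 1], [2, 0, 2, 2, 1, 1]], [[0, 1, 0], [2, 1, 0]], [[0, 1, 2, 0], [1, 1, 0]], [[1, 2], [0, 0, 2, 0, 2], [2, 2, 0, 2], [2, 1, 0]], [[2, 1, 0]], [[0], [2, 1, 1, 0]], [[0, 2], [2, 0, 2, 2], [2, 1, 0]], [[2, 1, 1, 0]], [[1, 1, 0]], [[0, 0], [2, 1, 1, 0]], [[0, 2, 0], [0, 1, 0], [2, 1, 0]], [[0, 1], [2, 2, 0, 2, 1]], [[1, 1, 1], [0, 1, 1, 0]], [[2, 2, 0, 2, 1]], [[0, 2, 1], [2, 0, 2, 2, 1, 1]], [[2, 0, 2, 2, 1, 1]], [[0, 2, 1, 1]], [[0, 1, 1], [2, 0, 2, 2, 1, 1]], [[1], [0, 1], [2, 2, 0, 2, 1]], [[2, 2, 0, 2], [2, 1, 0]], [[1, 0, 2, 2], [2, 1, 0]], [[0, 0, 2, 0, 2], [2, 2, 0, 2], [2, 1, 0]], [[0, 0, 2], [0, 2], [2, 0, 2, 2], [2, 1, 0]], [[2], [0, 1, 0], [2, 1, 0]], [[1, 2, 2], [0, 1, 0], [2, 1, 0]], [[2, 0, 2, 2], [2, 1, 0]], [[1, 0, 2], [2, 2, 0, 2], [2, 1, 0]]], [[], [[2, 2, 0], [1, 1, 0]], [[1, 2, 1], [2, 2, 1, 1]], [[1, 0, 1, 1, 0]], [[], [1, 1, 1], [1, 0, 1, 1, 0]], [[2, 2, 1], [1, 1, 1], [1, 0, 1, 1, 0]], [[1, 1, 0]], [[2, 1, 0]], [[1, 2], [2, 1, 0, 2], [1, 1, 0]], [[1, 0, 1, 0], [1, 1, 0]], [[0, 2, 0], [2, 0], [1, 0, 1, 0], [1, 1, 0]], [[2], [1, 0, 2, 2], [1, 0, 1, 0], [1, 1, 0]], [[0], [1, 0, 1, 1, 0]], [[2, 2, 1, 0], [1, 0, 1, 1, 0]], [[1, 0], [1, 0, 1, 0], [1, 1, 0]], [[2, 0], [1, 0, 1, 0], [1, 1, 0]], [[1]], [[2, 2, 1, 1]], [[1, 0, 1], [1]], [[2, 1], [1, 1], [1, 0, 1], [1]], [[1, 1, 1], [1, 0, 1, 1, 0]], [[2, 1, 1], [1, 0, 1, 1, 0]], [[1, 1], [1, 0, 1], [1]], [[2, 0, 2, 2, 1], [1, 0, 1], [1]], [[1, 2, 2], [1, 1, 0]], [[2, 1, 0, 2], [1, 1, 0]], [[1, 0, 0, 2, 0, 2], [1, 2, 2], [1, 1, 0]], [[2, 2], [0, 2, 2], [1, 0, 0, 2, 0, 2], [1, 2, 2], [1, 1, 0]], [[1, 0, 2, 2], [1, 0, 1, 0], [1, 1, 0]], [[2, 0, 2, 2], [1, 0, 1, 0], [1, 1, 0]], [[0, 2, 2], [1, 0, 0, 2, 0, 2], [1, 2, 2], [1, 1, 0]], [[2, 0, 2], [1, 0, 0, 2, 0, 2], [1, 2, 2], [1, 1, 0]]], [[], [[2, 2, 0], [1, 1, 0]], [[1], [2, 1, 1, 1]], [[1, 0, 1, 1, 0]], [[], [1, 1, 1], [1, 0, 1, 1, 0]], [[2, 2, 1], [1, 1, 1], [1, 0, 1, 1, 0]], [[2, 1, 0]], [[1, 1, 0]], [[1, 2], [2, 2, 0, 2], [2, 1, 0]], [[1, 0, 1, 0], [2, 1, 0]], [[1, 2, 1, 0], [2, 0], [1, 0, 1, 0], [2, 1, 0]], [[0, 2], [2], [1, 0, 1, 0], [2, 1, 0]], [[2, 1, 1, 0], [1, 0, 1, 1, 0]], [[1, 2, 0], [1, 0, 1, 1, 0]], [[2, 0], [1, 0, 1, 0], [2, 1, 0]], [[1, 0], [1, 0, 1, 0], [2, 1, 0]], [[2, 1, 1, 1]], [[1, 2, 1]], [[1, 0, 1], [2, 1, 1, 1]], [[1, 1], [2, 1], [1, 0, 1], [2, 1, 1, 1]], [[2, 1, 1], [1, 0, 1, 1, 0]], [[1, 1, 1], [1, 0, 1, 1, 0]], [[2, 1], [1, 0, 1], [2, 1, 1, 1]], [[1, 2, 1, 1], [1, 0, 1], [2, 1, 1, 1]], [[2, 2, 0, 2], [2, 1, 0]], [[1, 2, 2], [2, 1, 0]], [[1, 0, 0, 2, 0, 2], [2, 2, 0, 2], [2, 1, 0]], [[2, 2], [1, 0, 2], [1, 0, 0, 2, 0, 2], [2, 2, 0, 2], [2, 1, 0]], [[2], [1, 0, 1, 0], [2, 1, 0]], [[1, 0, 2, 2], [1, 0, 1, 0], [2, 1, 0]], [[1, 0, 0, 2, 2], [2], [1, 0, 1, 0], [2, 1, 0]], [[1, 0, 2], [1, 0, 0, 2, 0, 2], [2, 2, 0, 2], [2, 1, 0]]], [[], [[2, 0], [1, 1, 0]], [[0, 2, 1, 1, 1], [2, 0, 2, 1]], [[0, 1, 1, 0]], [[], [0, 1, 1], [0, 2, 2, 1]], [[2, 1], [0, 1, 1], [0, 2, 2, 1]], [[0, 1, 0], [1, 1, 0]], [[0, 1, 2, 0], [2, 1, 0]], [[1, 2], [2, 1, 1, 2], [0, 1, 0], [1, 1, 0]], [[1, 1, 0]], [[1, 2, 0], [2, 1, 0]], [[0, 2], [2, 0, 2, 2], [1, 1, 0]], [[0]], [[2, 1, 0]], [[0, 0], [0]], [[0, 0, 2, 0], [2, 0], [1, 1, 0]], [[1], [0, 1, 1, 0]], [[2, 1, 1], [0, 1, 1, 0]], [[0, 2, 2, 1, 1]], [[0, 2, 1, 1], [2, 0, 2, 1]], [[0, 2, 2, 1]], [[2, 0, 2, 1]], [[0, 1, 1], [0, 2, 2, 1]], [[1, 2, 1], [2, 1, 1], [0, 1, 1, 0]], [[1, 1, 0, 2, 2], [1, 1, 0]], [[2, 0, 2, 2], [1, 1, 0]], [[1, 2, 2], [0, 1, 0], [1, 1, 0]], [[2], [0, 0, 2, 2], [1, 0, 2, 2], [1, 1, 0]], [[0, 0, 2, 2], [1, 0, 2, 2], [1, 1, 0]], [[2, 1, 1, 2], [0, 1, 0], [1, 1, 0]], [[1, 0, 2, 2], [1, 1, 0]], [[2, 0, 2], [1, 1, 0, 2, 2], [1, 1, 0]]], [[], [[2, 2, 0], [0], [1, 0, 0], [2, 1, 0]], [[1], [1, 0, 1], [2, 1, 1], [1, 0, 1, 1, 0]], [[1, 0, 1, 1, 0]], [[0], [1, 0, 0], [2, 1, 0]], [[0, 2, 2, 1], [1, 0, 1, 1], [2, 1]], [[1, 0, 1, 0], [2, 0], [1, 0, 1, 1, 0]], [[1, 1, 0]], [[1, 2], [1, 0, 0, 2, 0, 2], [2, 0, 2, 2], [2, 0], [1, 0, 1, 1, 0]], [[2, 0], [1, 0, 1, 1, 0]], [[1, 2, 1, 0], [2, 1, 0]], [[0, 2], [2], [1, 0, 0, 2, 0, 2], [2, 0, 2, 2], [2, 0], [1, 0, 1, 1, 0]], [[1, 0, 0], [2, 1, 0]], [[1, 2, 0], [1, 0, 1, 1, 0]], [[2, 1, 0]], [[1, 0], [2, 0], [1, 0, 1, 1, 0]], [[1, 0, 1], [2, 1, 1], [1, 0, 1, 1, 0]], [[1, 2, 1]], [[2, 1, 1], [1, 0, 1, 1, 0]], [[1, 1], [2, 1]], [[1, 0, 1, 1], [2, 1]], [[1, 1, 1], [1, 0, 1, 1, 0]], [[2, 1]], [[1, 2, 1, 1], [2, 1, 1], [1, 0, 1, 1, 0]], [[1, 0, 0, 2, 0, 2], [2, 0, 2, 2], [2, 0], [1, 0, 1, 1, 0]], [[], [0], [1, 0, 0], [2, 1, 0]], [[2, 0, 2, 2], [2, 0], [1, 0, 1, 1, 0]], [[2, 2], [], [0], [1, 0, 0], [2, 1, 0]], [[2], [1, 0, 0, 2, 0, 2], [2, 0, 2, 2], [2, 0], [1, 0, 1, 1, 0]], [[1, 0, 2, 2], [2, 0], [1, 0, 1, 1, 0]], [[2, 0, 2, 0, 2], [1, 0, 1, 0], [2, 0], [1, 0, 1, 1, 0]], [[1, 0, 2], [2, 0, 2, 2], [2, 0], [1, 0, 1, 1, 0]]], [[], [[2, 1, 0]], [[2, 0, 2, 1, 1]], [[0, 1, 1, 0]], [[2, 0, 2, 1, 0], [0, 1, 1, 0]], [[2, 1, 1], [0, 1, 1, 0]], [[0, 1, 0], [1, 1, 0]], [[0, 1, 2, 0], [1, 1, 2, 0], [2, 1, 0]], [[2, 0, 2, 0, 2], [0, 1, 0], [1, 1, 0]], [[1, 1, 0]], [[2, 0], [1, 1, 0]], [[2, 0, 2, 2], [1, 1, 0]], [[0]], [[1, 1, 2, 0], [2, 1, 0]], [[0, 0], [0]], [[0, 0, 2, 0], [2, 1, 0]], [[1], [0, 1, 1, 0]], [[1, 2, 1], [0, 1, 2, 1, 1], [2, 0, 2, 1, 1]], [[0, 2, 2, 1, 1]], [[0, 2, 1], [2, 0, 2, 1, 1]], [[0, 2, 2, 1]], [[2, 0, 2, 1], [0, 2, 2, 1]], [[0, 1, 1], [0, 2, 2, 1]], [[0, 1, 2, 1, 1], [2, 0, 2, 1, 1]], [[1, 1, 0, 2, 2], [1, 1, 0]], [[0, 2], [2, 0, 2, 2], [1, 1, 0]], [[], [2, 0, 2, 1, 0], [0, 1, 1, 0]], [[0, 0, 2], [2, 0, 2, 2], [1, 1, 0]], [[0, 0, 2, 2], [1, 0, 2, 2], [1, 1, 0]], [[2], [0, 0, 2, 2], [1, 0, 2, 2], [1, 1, 0]], [[1, 0, 2, 2], [1, 1, 0]], [[1, 0, 2], [2, 0, 2, 2], [1, 1, 0]]], [[], [[2, 0], [1, 0]], [[0, 2, 1, 1], [2, 0, 2, 1]], [[0, 1, 1, 0]], [[0, 2, 1, 0], [0, 1, 2, 0], [2, 1, 0]], [[2, 1], [1, 1], [0, 1, 1, 0]], [[0, 1, 0], [1, 0]], [[0, 1, 2, 0], [2, 1, 0]], [[0, 1, 2], [1, 0, 2], [2, 0, 2, 2], [1, 0]], [[1, 0]], [[1, 2, 1, 0], [2, 1, 0]], [[1, 1, 0, 2], [2, 0, 2, 2], [1, 0]], [[1, 1, 0]], [[2, 1, 0]], [[0, 0], [1, 1, 0]], [[0, 2, 0], [0, 1, 2, 0], [2, 1, 0]], [[0, 1], [1, 0, 2, 2, 1]], [[2, 1, 1], [0, 1, 1, 0]], [[1, 0, 2, 2, 1]], [[0, 2, 1], [2, 0, 2, 1]], [[0, 2, 2, 1, 1]], [[2, 0, 2, 1]], [[1, 1], [0, 1, 1, 0]], [[1, 2, 1, 1], [2, 1, 1], [0, 1, 1, 0]], [[1, 0, 2, 2], [1, 0]], [[2, 0, 2, 2], [1, 0]], [[0, 2, 0, 2], [0, 1, 0], [1, 0]], [[2], [1, 2, 2], [0, 1, 0], [1, 0]], [[1, 2, 2], [0, 1, 0], [1, 0]], [[2, 1, 1, 2], [0, 1, 0], [1, 0]], [[0, 2, 2], [1, 0]], [[1, 0, 2], [2, 0, 2, 2], [1, 0]]], [[], [[1, 0], [2, 0]], [[2, 0, 2, 1], [0, 2, 1, 1]], [[0, 1, 1, 0]], [[2, 0, 2, 0], [0, 1, 2, 0], [1, 1, 0]], [[1, 1], [2, 1], [0, 1, 1, 0]], [[0, 1, 0], [2, 0]], [[0, 1, 2, 0], [1, 1, 0]], [[1, 2], [0, 0, 2, 0, 2], [2, 0, 2, 2], [2, 0]], [[2, 0]], [[0], [2, 1, 0]], [[0, 2], [2, 1, 1, 0, 2, 2], [2, 0]], [[2, 1, 0]], [[1, 1, 0]], [[0, 0], [2, 1, 0]], [[0, 2, 0], [0, 1, 0], [2, 0]], [[0, 1], [2, 0, 2, 2, 1]], [[1, 1, 1], [0, 1, 1, 0]], [[2, 0, 2, 2, 1]], [[0, 2, 1], [2, 2, 0, 2, 1]], [[2, 2, 0, 2, 1]], [[0, 2, 1, 1]], [[2, 1], [0, 1, 1, 0]], [[1], [0, 1], [2, 0, 2, 2, 1]], [[2, 0, 2, 2], [2, 0]], [[1, 0, 2, 2], [2, 0]], [[0, 0, 2, 0, 2], [2, 0, 2, 2], [2, 0]], [[2, 2], [1, 2, 2], [0, 1, 0], [2, 0]], [[0, 0, 2, 2], [2, 1, 1, 0, 2, 2], [2, 0]], [[1, 2, 2], [0, 1, 0], [2, 0]], [[2, 1, 1, 0, 2, 2], [2, 0]], [[1, 0, 2], [2, 0, 2, 2], [2, 0]]], [[], [[2, 2, 0], [0], [1, 0, 0], [1, 1, 0]], [[1, 1, 2, 1], [2, 2, 1], [1, 0, 1, 1], [1, 1]], [[1, 0, 1, 1, 0]], [[2, 1, 1, 0], [1, 0, 0], [1, 1, 0]], [[2, 2, 1], [1, 0, 1, 1], [1, 1]], [[0], [1, 0, 0], [1, 1, 0]], [[2, 1, 0]], [[1, 0, 1, 2], [1, 0, 2], [2, 0, 2, 2], [1, 0], [1, 0, 1, 1, 0]], [[1, 0], [1, 0, 1, 1, 0]], [[0, 2, 1, 0], [2, 1, 0]], [[2], [1, 1, 2, 2], [1, 0, 0, 2, 0, 2], [0, 2, 0, 2], [1, 0], [1, 0, 1, 1, 0]], [[1, 0, 0], [1, 1, 0]], [[2, 2, 1, 0], [1, 0, 1, 1, 0]], [[1, 1, 0]], [[2, 0], [1, 0], [1, 0, 1, 1, 0]], [[1], [1, 0, 1, 1], [1, 1]], [[2, 2, 1, 1]], [[1, 1, 1], [1, 0, 1, 1, 0]], [[2, 1], [1, 1]], [[1, 0, 1, 1], [1, 1]], [[2, 1, 1], [1, 0, 1, 1, 0]], [[1, 1]], [[0, 2, 1, 1], [2, 1, 1], [1, 0, 1, 1, 0]], [[1, 0, 0, 2, 0, 2], [0, 2, 0, 2], [1, 0], [1, 0, 1, 1, 0]], [[2, 1, 0, 2], [0], [1, 0, 0], [1, 1, 0]], [[0, 2, 0, 2], [1, 0], [1, 0, 1, 1, 0]], [[2, 2], [], [2, 1, 1, 0], [1, 0, 0], [1, 1, 0]], [[1, 1, 2, 2], [1, 0, 0, 2, 0, 2], [0, 2, 0, 2], [1, 0], [1, 0, 1, 1, 0]], [[2, 0, 2, 2], [1, 0], [1, 0, 1, 1, 0]], [[], [2, 1, 1, 0], [1, 0, 0], [1, 1, 0]], [[1, 0, 2], [2, 0, 2, 2], [1, 0], [1, 0, 1, 1, 0]]], [[], [[1, 1, 0]], [[0, 2, 1, 1, 1]], [[2, 0, 1, 1, 0]], [[0, 2, 1, 1, 0], [2, 0, 1, 1, 0]], [[1, 1, 1], [2, 0, 1, 1, 0]], [[2, 0, 1, 0], [2, 1, 0]], [[], [1, 1, 1], [2, 0, 1, 1, 0]], [[1, 2], [2, 0, 1, 0], [2, 1, 0]], [[2, 1, 0]], [[1, 0], [2, 1, 0]], [[0, 2], [2, 1, 0]], [[2, 1, 1, 0]], [[0], [2, 1, 1, 0]], [[2, 0, 0], [2, 1, 1, 0]], [[2, 0, 0, 2, 0], [1, 1, 0]], [[2, 0, 1], [2, 2, 0, 2, 1]], [[1], [2, 0, 1], [2, 2, 0, 2, 1]], [[2, 2, 0, 2, 1]], [[0, 2, 1], [2, 2, 0, 2, 1]], [[2, 0, 2, 2, 1, 1]], [[0, 2, 1, 1], [2, 0, 2, 2, 1, 1]], [[2, 1, 1], [2, 0, 1, 1, 0]], [[2, 0, 1, 2, 1, 1], [0, 2, 1, 1, 1]], [[2, 2, 0, 2], [2, 1, 0]], [[1, 1, 0, 2], [2, 2, 0, 2], [2, 1, 0]], [[2, 0, 2, 0, 2], [2, 0, 1, 0], [2, 1, 0]], [[2, 0, 0, 2], [0, 2], [2, 1, 0]], [[2], [2, 0, 1, 0], [2, 1, 0]], [[1, 1, 1, 2], [2], [2, 0, 1, 0], [2, 1, 0]], [[2, 0, 2, 2], [2, 1, 0]], [[0, 2, 2], [2, 0, 2, 2], [2, 1, 0]]], [[], [], [], [[2, 0, 1, 1, 0]], [[2, 0, 1, 2, 1, 0], [2, 1, 1, 2, 0]], [[2, 0, 0, 2, 1], [2, 0, 2, 1, 1, 1]], [[2, 0, 1, 0], [2, 1, 0]], [[2, 0, 2, 0], [2, 0, 0, 2, 0]], [[], [2, 0, 0, 2, 1], [2, 0, 2, 1, 1, 1]], [[2, 1, 0]], [[2, 1, 1, 2, 0]], [[2, 0, 2], [2, 0, 1, 2], [], [2, 0, 0, 2, 1], [2, 0, 2, 1, 1, 1]], [[2, 1, 1, 0]], [[2, 2, 0]], [[2, 0, 0], [2, 1, 1, 0]], [[2, 0, 0, 2, 0]], [[2, 0, 1], [2, 2, 0, 2, 1]], [[2, 2, 1, 1], [2, 0, 1, 2, 1, 1]], [[2, 2, 0, 2, 1]], [[2, 0, 2, 1, 1, 1]], [[2, 0, 2, 2, 1, 1]], [[2, 0, 2, 1, 1]], [[2, 1, 1], [2, 0, 1, 1, 0]], [[2, 0, 1, 2, 1, 1]], [[2, 2, 0, 2], [2, 1, 0]], [[2, 1, 0, 2], [2, 0, 1, 2], [], [2, 0, 0, 2, 1], [2, 0, 2, 1, 1, 1]], [[2, 0, 2, 0, 2], [2, 0, 1, 0], [2, 1, 0]], [[2, 2], [], [2, 0, 0, 2, 1], [2, 0, 2, 1, 1, 1]], [[2], [2, 0, 1, 0], [2, 1, 0]], [[2, 1, 1, 1, 2], [], [2, 0, 0, 2, 1], [2, 0, 2, 1, 1, 1]], [[2, 0, 2, 2], [2, 1, 0]], [[2, 0, 1, 2], [], [2, 0, 0, 2, 1], [2, 0, 2, 1, 1, 1]]], [[], [], [], [[2, 1, 0]], [[1, 1, 0]], [[1, 1, 1]], [[2, 0], [1, 2, 1, 0], [2, 1, 0]], [[1, 0], [2, 0, 2, 1, 0], [1, 1, 0]], [[1, 2, 2], [], [1, 1, 1]], [[1, 2, 1, 0], [2, 1, 0]], [[2, 0, 2, 1, 0], [1, 1, 0]], [[], [1, 1, 1]], [[1, 0, 0], [0, 2, 0]], [[0], [2, 2, 0]], [[0, 2, 0]], [[2, 2, 0]], [[1, 0, 1], [0, 2, 1], [2, 1, 0]], [[1], [2, 2, 1], [1, 1, 1]], [[0, 2, 1], [2, 1, 0]], [[2, 2, 1], [1, 1, 1]], [[2, 1], [1, 2, 1, 1]], [[1, 1], [2, 0, 2, 1, 1]], [[1, 2, 1, 1]], [[2, 0, 2, 1, 1]], [[2, 2, 0, 2], [0, 2], [1, 2, 1, 0], [2, 1, 0]], [[0, 2, 0, 2], [2, 2], [], [1, 1, 1]], [[0, 2], [1, 2, 1, 0], [2, 1, 0]], [[2, 2], [], [1, 1, 1]], [[2], [1, 2], [2, 0], [1, 2, 1, 0], [2, 1, 0]], [[0, 2, 2], [2, 0, 2], [1, 2, 2], [], [1, 1, 1]], [[1, 2], [2, 0], [1, 2, 1, 0], [2, 1, 0]], [[2, 0, 2], [1, 2, 2], [], [1, 1, 1]]], [[], [[1, 1, 0]], [[0, 2, 1, 1, 1]], [[2, 0, 1, 1, 0]], [[0, 2, 1, 1, 0], [2, 0, 1, 1, 0]], [[1, 1, 1], [2, 0, 1, 1, 0]], [[2, 2, 0], [1, 1, 0]], [[2, 1, 0]], [[1, 2], [2, 2, 0], [1, 1, 0]], [[2, 0], [2, 0, 0, 2, 0], [1, 1, 0]], [[2, 0, 1, 2, 1, 0], [0, 2, 1, 1, 0], [2, 0, 1, 1, 0]], [[0, 2], [2, 0], [2, 0, 0, 2, 0], [1, 1, 0]], [[], [1, 1, 1], [2, 0, 1, 1, 0]], [[2, 2, 1, 0], [2, 0, 1, 1, 0]], [[0, 2, 0], [2, 0, 0, 2, 0], [1, 1, 0]], [[2, 0, 0, 2, 0], [1, 1, 0]], [[1], [2, 2, 1, 1]], [[2, 2, 1, 1]], [[2, 0, 1], [1], [2, 2, 1, 1]], [[2, 0, 0, 2, 1], [1, 1, 1], [2, 0, 1, 1, 0]], [[2, 2, 1], [1, 1, 1], [2, 0, 1, 1, 0]], [[2, 1, 1], [2, 0, 1, 1, 0]], [[1, 1], [2, 0, 1, 2, 1, 1], [0, 2, 1, 1, 1]], [[2, 0, 1, 2, 1, 1], [0, 2, 1, 1, 1]], [[1, 1, 0, 2], [2, 1, 0, 2], [2, 2, 0], [1, 1, 0]], [[2, 1, 0, 2], [2, 2, 0], [1, 1, 0]], [[2, 0, 2], [2, 0, 1, 2], [1, 2], [2, 2, 0], [1, 1, 0]], [[2, 0, 0, 2], [0, 2], [2, 0], [2, 0, 0, 2, 0], [1, 1, 0]], [[2], [0, 2], [2, 0], [2, 0, 0, 2, 0], [1, 1, 0]], [[2, 0, 2, 2], [2, 0], [2, 0, 0, 2, 0], [1, 1, 0]], [[0, 2, 2], [2, 0, 1, 2], [1, 2], [2, 2, 0], [1, 1, 0]], [[2, 0, 1, 2], [1, 2], [2, 2, 0], [1, 1, 0]]], [[], [[1, 1, 0]], [[0, 2, 1, 1, 1]], [[2, 0, 1, 1, 0]], [[0, 2, 1, 1, 0], [2, 0, 1, 1, 0]], [[1, 1, 1], [2, 0, 1, 1, 0]], [[2, 1, 0]], [[2, 2, 0], [1, 1, 0]], [[1, 2], [2, 1, 0]], [[2, 0, 1, 0], [2, 1, 0]], [[1, 0], [2, 0, 1, 0], [2, 1, 0]], [[0, 2], [2, 0, 1, 0], [2, 1, 0]], [[2, 1, 1, 0], [2, 0, 1, 1, 0]], [[], [1, 1, 1], [2, 0, 1, 1, 0]], [[2, 0], [2, 0, 1, 0], [2, 1, 0]], [[2, 0, 0, 2, 0], [1, 1, 0]], [[2, 1, 1, 1]], [[1], [2, 1, 1, 1]], [[2, 0, 1], [2, 1, 1, 1]], [[0, 2, 1], [2, 0, 1], [2, 1, 1, 1]], [[2, 1, 1], [2, 0, 1, 1, 0]], [[2, 2, 1], [1, 1, 1], [2, 0, 1, 1, 0]], [[1, 1], [2, 0, 1, 2, 1, 1], [0, 2, 1, 1, 1]], [[2, 0, 1, 2, 1, 1], [0, 2, 1, 1, 1]], [[2, 2, 0, 2], [2, 1, 0]], [[1, 1, 0, 2], [2, 2, 0, 2], [2, 1, 0]], [[2, 0, 0, 2, 0, 2], [2, 2, 0, 2], [2, 1, 0]], [[2, 2], [2, 0, 1, 2], [1, 2], [2, 1, 0]], [[2], [2, 0, 1, 0], [2, 1, 0]], [[1, 1, 1, 2], [2], [2, 0, 1, 0], [2, 1, 0]], [[0, 2, 2], [2, 0, 1, 2], [1, 2], [2, 1, 0]], [[2, 0, 1, 2], [1, 2], [2, 1, 0]]], [[], [[1, 1, 0]], [[0, 2, 1, 1, 1]], [[2, 1, 0, 1, 1, 0]], [[0, 2, 1, 1, 0], [2, 1, 0, 1, 1, 0]], [[1, 1, 1], [2, 1, 0, 1, 1, 0]], [[0, 2, 1, 0], [2, 0, 2, 0], [2, 1, 0, 1, 1, 0]], [[2, 0, 2, 0], [2, 1, 0, 1, 1, 0]], [[1, 2], [0, 2, 1, 0], [2, 0, 2, 0], [2, 1, 0, 1, 1, 0]], [[2, 0], [1, 1, 0]], [[1, 0], [2, 0], [1, 1, 0]], [[0, 2], [2, 0], [1, 1, 0]], [[0], [2, 1, 0]], [[2, 1, 0]], [[], [1, 1, 1], [2, 1, 0, 1, 1, 0]], [[2, 1, 0, 0, 2, 0], [1, 1, 0]], [[1], [2, 1, 1], [2, 1, 0, 1, 1, 0]], [[2, 1, 1], [2, 1, 0, 1, 1, 0]], [[2, 0, 2, 1, 1], [0, 2, 1, 1, 1]], [[0, 2, 1], [2, 0, 2, 1, 1], [0, 2, 1, 1, 1]], [[0, 2, 1, 1], [2, 0, 2, 1]], [[2, 0, 2, 1]], [[1, 1], [2, 1, 0, 1, 2, 1, 1], [0, 2, 1, 1, 1]], [[2, 1, 0, 1, 2, 1, 1], [0, 2, 1, 1, 1]], [[1, 1, 0, 2], [2, 0, 2, 2], [2, 0], [1, 1, 0]], [[2, 0, 2, 2], [2, 0], [1, 1, 0]], [[1, 1, 2], [2, 1, 0, 0, 2], [0, 2], [2, 0], [1, 1, 0]], [[2, 1, 0, 0, 2], [0, 2], [2, 0], [1, 1, 0]], [[2], [2, 1, 0, 0, 2], [0, 2], [2, 0], [1, 1, 0]], [[2, 1, 1, 2], [0, 2, 1, 0], [2, 0, 2, 0], [2, 1, 0, 1, 1, 0]], [[2, 1, 1, 0, 2], [0, 2], [2, 0], [1, 1, 0]], [[0, 2, 2], [2, 1, 1, 0, 2], [0, 2], [2, 0], [1, 1, 0]]], [[], [[1, 1, 0]], [[0, 2, 1, 1, 1]], [[2, 1, 0, 1, 1, 0]], [[0, 2, 1, 1, 0], [2, 1, 0, 1, 1, 0]], [[1, 1, 1], [2, 1, 0, 1, 1, 0]], [[2, 1, 0, 1, 0], [2, 0]], [[0, 2, 1, 0], [2, 1, 0, 1, 0], [2, 0]], [[1, 2], [2, 1, 0, 1, 0], [2, 0]], [[2, 0]], [[1, 0], [2, 0]], [[0, 2], [2, 0]], [[2, 1, 0]], [[0], [2, 1, 0]], [[2, 1, 0, 0], [2, 1, 0]], [[2, 1, 0, 0, 2, 0], [1, 1, 0]], [[2, 1, 1], [2, 1, 0, 1, 1, 0]], [[1], [2, 1, 1], [2, 1, 0, 1, 1, 0]], [[2, 0, 2, 2, 1]], [[0, 2, 1], [2, 0, 2, 2, 1]], [[2, 2, 0, 2, 1]], [[0, 2, 1, 1], [2, 2, 0, 2, 1]], [[2, 1], [2, 1, 0, 1, 1, 0]], [[2, 1, 0, 1, 2, 1, 1], [0, 2, 1, 1, 1]], [[2, 0, 2, 2], [2, 0]], [[1, 1, 0, 2], [2, 0, 2, 2], [2, 0]], [[2, 1, 1, 2, 2], [2, 1, 0, 1, 0], [2, 0]], [[2, 1, 0, 0, 2], [0, 2], [2, 0]], [[2, 0, 2, 0, 2], [2, 1, 0, 1, 0], [2, 0]], [[2, 2], [2, 1, 0, 0, 2], [0, 2], [2, 0]], [[2, 1, 1, 0, 2, 2], [2, 0]], [[0, 2, 2], [2, 1, 1, 0, 2, 2], [2, 0]]], [[], [], [], [[1, 0, 1, 1, 0]], [[2, 2, 0]], [[2, 2, 1]], [[0, 2, 1, 0]], [[1, 1, 0]], [[1, 2, 2], [], [2, 2, 1]], [[2, 0], [1, 0, 1, 1, 0]], [[1, 0], [1, 0, 0, 2, 0]], [[1, 0, 0, 2], [2, 2], [], [2, 2, 1]], [[1, 0, 0], [2, 1, 0]], [[0], [2, 2, 0]], [[2, 1, 0]], [[1, 0, 0, 2, 0]], [[1, 2, 1]], [[1]], [[0, 2, 1], [2, 1]], [[1, 1], [1, 0, 1, 2, 1, 1]], [[0, 2, 1, 1], [1, 0, 1, 1, 0]], [[1, 1, 1], [2, 2, 1]], [[2, 1]], [[1, 0, 1, 2, 1, 1]], [[1, 2], [0, 2, 1, 0]], [[], [2, 2, 1]], [[1, 0, 2], [2, 0, 2, 0, 2], [0, 2, 1, 0]], [[2, 2], [], [2, 2, 1]], [[2], [1, 2], [0, 2, 1, 0]], [[1, 0, 1, 1, 0, 2], [], [2, 2, 1]], [[2, 0, 2, 0, 2], [0, 2, 1, 0]], [[0, 2, 2], [2, 2], [], [2, 2, 1]]], [[], [[2, 1, 0]], [[2, 0, 2, 1, 1]], [[0, 1, 1, 0]], [[2, 0, 2, 1, 0], [0, 1, 1, 0]], [[2, 1, 1], [0, 1, 1, 0]], [[0, 1, 0], [1, 1, 0], [2, 1, 0]], [[0, 1, 2, 0], [0]], [[1, 1, 2], [], [2, 1, 1], [0, 1, 1, 0]], [[1, 1, 0], [2, 1, 0]], [[1, 0], [2, 1, 1, 0], [0]], [[2, 0, 2, 2], [1, 1, 0], [2, 1, 0]], [[2, 1, 1, 0], [0]], [[0]], [[0, 0], [2, 1, 1, 0], [0]], [[0, 0, 2, 0], [2, 1, 0]], [[0, 1], [0, 2, 1], [2, 0, 2, 1, 1]], [[1], [0, 1, 1, 0]], [[0, 2, 1], [2, 0, 2, 1, 1]], [[0, 0, 2, 1], [2, 1, 1], [0, 1, 1, 0]], [[2, 0, 2, 1], [0, 2, 2, 1]], [[0, 2, 2, 1]], [[2, 1], [0, 1, 2, 1, 1], [2, 0, 2, 1, 1]], [[0, 1, 2, 1, 1], [2, 0, 2, 1, 1]], [[2, 1, 0, 2], [0, 2], [1, 1, 0], [2, 1, 0]], [[0, 2], [1, 1, 0], [2, 1, 0]], [[], [2, 1, 1], [0, 1, 1, 0]], [[2, 2], [], [2, 1, 1], [0, 1, 1, 0]], [[2], [1, 2], [0, 1, 0], [1, 1, 0], [2, 1, 0]], [[1, 2], [0, 1, 0], [1, 1, 0], [2, 1, 0]], [[1, 0, 2], [2, 0, 2, 2], [1, 1, 0], [2, 1, 0]], [[0, 1, 2], [1, 1, 2], [], [2, 1, 1], [0, 1, 1, 0]]], [[], [], [], [[0, 1, 1, 0]], [[0, 1, 2, 1, 0], [1, 1, 0]], [[1, 1, 1], [0, 1, 2, 1, 1]], [[0, 1, 0], [1, 2, 1, 0]], [[0, 1, 2, 0], [0]], [[1, 2, 2], [], [1, 1, 1], [0, 1, 2, 1, 1]], [[1, 2, 1, 0]], [[1, 1, 0]], [[0, 0, 2], [], [1, 1, 1], [0, 1, 2, 1, 1]], [[1, 1, 2, 0]], [[0]], [[0, 0], [1, 1, 2, 0]], [[0, 0, 2, 0]], [[0, 1], [0, 2, 1]], [[1, 1], [0, 1, 2, 1, 1]], [[0, 2, 1]], [[0, 2, 2, 1, 1]], [[0, 2, 1, 1, 1]], [[0, 2, 2, 1]], [[0, 1, 1], [0, 2, 1, 1, 1]], [[0, 1, 2, 1, 1]], [[0, 2], [1, 2, 1, 0]], [[0, 1, 1, 0, 2], [0, 2, 0, 2], [], [1, 1, 1], [0, 1, 2, 1, 1]], [[1, 1, 2], [0, 1, 0], [1, 2, 1, 0]], [[], [1, 1, 1], [0, 1, 2, 1, 1]], [[1, 2], [0, 1, 0], [1, 2, 1, 0]], [[0, 2, 0, 2], [], [1, 1, 1], [0, 1, 2, 1, 1]], [[1, 0, 2], [1, 2, 1, 0]], [[0, 1, 2], [1, 2, 2], [], [1, 1, 1], [0, 1, 2, 1, 1]]], [[], [], [], [[0, 1, 1, 0]], [[0, 1, 2, 1, 0], [1, 0]], [[1, 1], [0, 1, 2, 1, 1]], [[0, 1, 0], [2, 0]], [[0, 1, 2, 0], [1, 1, 0]], [[1, 2, 2], [], [1, 1], [0, 1, 2, 1, 1]], [[2, 0]], [[1, 0]], [[0, 0, 2], [2, 2], [], [1, 1], [0, 1, 2, 1, 1]], [[1, 2, 0]], [[1, 1, 0]], [[0, 0], [1, 2, 0]], [[0, 0, 2, 0]], [[0, 1], [0, 2, 1, 1, 1]], [[1], [0, 1, 2, 1, 1]], [[0, 2, 1, 1, 1]], [[1, 0, 2, 2, 1]], [[0, 2, 1, 1]], [[2, 0, 2, 1]], [[2, 1], [0, 1, 1, 0]], [[0, 1, 2, 1, 1]], [[1, 1, 0, 2], [2, 0]], [[0, 1, 1, 0, 2], [], [1, 1], [0, 1, 2, 1, 1]], [[1, 2], [0, 1, 0], [2, 0]], [[2, 2], [], [1, 1], [0, 1, 2, 1, 1]], [[0, 0, 2, 2], [0, 2], [2, 0]], [[], [1, 1], [0, 1, 2, 1, 1]], [[0, 2], [2, 0]], [[0, 1, 2], [1, 2, 2], [], [1, 1], [0, 1, 2, 1, 1]]], [[], [], [], [[1, 1, 2, 0]], [[1, 0], [2, 1, 1, 2, 0], [1, 1, 0]], [[1, 1, 1], [2, 1, 1, 2, 1], [1, 1]], [[2, 1, 0]], [[2, 2, 0]], [[0, 2, 2], [], [1, 1, 1], [2, 1, 1, 2, 1], [1, 1]], [[0, 2], [2, 1, 0]], [[2, 1, 1, 2, 0], [1, 1, 0]], [[0, 2, 0, 2], [2, 2], [], [1, 1, 1], [2, 1, 1, 2, 1], [1, 1]], [[2, 1, 1, 0], [1, 1, 2, 0]], [[0], [2, 2, 0]], [[2, 0], [0, 2], [2, 1, 0]], [[1, 1, 0]], [[2, 1, 1, 1]], [[2, 2, 1, 1]], [[0, 2, 1], [2, 1, 1, 1]], [[2, 1, 1, 2, 1], [1, 1]], [[2, 1, 1], [1, 1, 2, 0]], [[1], [2, 2, 1, 1]], [[2, 1], [0, 2, 1], [2, 1, 1, 1]], [[1, 1]], [[2, 2, 0, 2], [2, 1, 0]], [[2, 1, 0, 2], [0, 2, 2], [], [1, 1, 1], [2, 1, 1, 2, 1], [1, 1]], [[1, 1, 2], [2, 2, 0, 2], [2, 1, 0]], [[2, 2], [], [1, 1, 1], [2, 1, 1, 2, 1], [1, 1]], [[2], [0, 2], [2, 1, 0]], [[1, 1, 2, 2], [2, 1, 0, 2], [0, 2, 2], [], [1, 1, 1], [2, 1, 1, 2, 1], [1, 1]], [[1, 0, 2], [2], [0, 2], [2, 1, 0]], [[], [1, 1, 1], [2, 1, 1, 2, 1], [1, 1]]], [[], [[2, 1, 1, 0]], [[2, 0, 2, 1, 1, 1]], [[0, 1, 1, 0]], [[2, 0, 2, 1, 1, 0], [0, 1, 1, 0]], [[2, 1, 1, 1], [0, 1, 1, 0]], [[], [1, 1, 1], [0, 1, 1, 0]], [[0, 1, 2, 0], [1, 1, 0]], [[2], [], [1, 1, 1], [0, 1, 1, 0]], [[1, 0], [2, 1, 1, 0]], [[0], [2, 0], [1, 1, 0]], [[2, 0, 2], [1, 0], [2, 1, 1, 0]], [[2, 0], [1, 1, 0]], [[1, 1, 0]], [[0, 0], [2, 0], [1, 1, 0]], [[0, 0, 2, 0], [2, 1, 1, 0]], [[1], [0, 1, 2, 1, 1], [2, 0, 2, 1, 1, 1]], [[1, 1, 1], [0, 1, 1, 0]], [[0, 2, 1, 1, 1], [2, 0, 2, 1, 1, 1]], [[0, 2, 1], [2, 0, 2, 1, 1], [0, 2, 1, 1]], [[2, 0, 2, 1, 1], [0, 2, 1, 1]], [[0, 2, 1, 1]], [[1, 1], [2, 1, 1, 1], [0, 1, 1, 0]], [[0, 1, 2, 1, 1], [2, 0, 2, 1, 1, 1]], [[2, 1, 1, 0, 2], [1, 0, 2, 2], [1, 0], [2, 1, 1, 0]], [[1, 0, 2, 2], [1, 0], [2, 1, 1, 0]], [[1, 2], [2], [], [1, 1, 1], [0, 1, 1, 0]], [[0, 0, 2], [2, 0, 2], [1, 0], [2, 1, 1, 0]], [[1, 1, 2], [0, 0, 2], [2, 0, 2], [1, 0], [2, 1, 1, 0]], [[1, 2, 2], [], [1, 1, 1], [0, 1, 1, 0]], [[0, 2], [2, 0, 2], [1, 0], [2, 1, 1, 0]], [[0, 1, 2], [2], [], [1, 1, 1], [0, 1, 1, 0]]], [[], [[2, 1, 1, 0]], [[2, 0, 2, 1, 1, 1]], [[0, 1, 1, 0]], [[2, 0, 2, 1, 1, 0], [0, 1, 1, 0]], [[2, 1, 1, 1], [0, 1, 1, 0]], [[0, 1, 0], [1, 0]], [[], [0, 1], [1, 0, 2, 2, 1]], [[2], [0, 1, 0], [1, 0]], [[1, 0]], [[2, 1, 0], [1, 0]], [[2, 0, 2], [1, 0]], [[1, 1, 0]], [[2, 0], [1, 1, 0]], [[0, 0], [1, 1, 0]], [[0, 0, 2, 0], [2, 1, 1, 0]], [[0, 1], [1, 0, 2, 2, 1]], [[2, 1], [0, 1], [1, 0, 2, 2, 1]], [[1, 0, 2, 2, 1]], [[2, 0, 2, 1], [1, 0, 2, 2, 1]], [[0, 2, 2, 1, 1]], [[0, 2, 1, 1], [2, 0, 2, 1, 1, 1]], [[1, 1], [0, 1, 1, 0]], [[0, 1, 2, 1, 1], [2, 0, 2, 1, 1, 1]], [[1, 0, 2, 2], [1, 0]], [[1, 1, 0, 2], [2, 0, 2], [1, 0]], [[0, 2, 0, 2], [0, 1, 0], [1, 0]], [[0, 0, 2], [2, 0, 2], [1, 0]], [[1, 2, 2], [0, 1, 0], [1, 0]], [[1, 1, 2], [0, 0, 2], [2, 0, 2], [1, 0]], [[0, 2, 2], [1, 0]], [[0, 2], [2, 0, 2], [1, 0]]], [[], [[0, 2, 1, 0], [2, 1, 1, 0]], [[2, 1], [1]], [[1, 0, 1, 1, 0]], [[2, 0], [0], [1, 0, 1, 1, 0]], [[0, 2, 1, 1], [2, 1, 1, 1], [1, 0, 1, 1, 0]], [[1, 1, 0]], [[2, 1, 1, 0]], [[1, 2], [2], [1, 1, 0]], [[1, 0, 1, 0], [1, 1, 0]], [[0, 2, 0], [2, 1, 0], [1, 0, 1, 0], [1, 1, 0]], [[0, 2], [2, 2, 0, 2], [1, 0, 1, 0], [1, 1, 0]], [[0], [1, 0, 1, 1, 0]], [[2, 2, 0], [1, 0, 1, 1, 0]], [[1, 0], [1, 0, 1, 0], [1, 1, 0]], [[2, 1, 0], [1, 0, 1, 0], [1, 1, 0]], [[1]], [[2, 2, 1]], [[1, 0, 1], [1]], [[0, 2, 1], [2, 2, 1, 1], [1, 0, 1], [1]], [[1, 1, 1], [1, 0, 1, 1, 0]], [[2, 1, 1, 1], [1, 0, 1, 1, 0]], [[1, 1], [1, 0, 1], [1]], [[2, 2, 1, 1], [1, 0, 1], [1]], [[], [2, 1, 1, 0]], [[2], [1, 1, 0]], [[1, 0, 0, 2, 0, 2], [], [2, 1, 1, 0]], [[1, 0, 2], [1, 0, 1, 2], [1, 2], [2], [1, 1, 0]], [[1, 0, 2, 2], [1, 0, 1, 0], [1, 1, 0]], [[2, 2, 0, 2], [1, 0, 1, 0], [1, 1, 0]], [[0, 2, 2], [1, 0, 0, 2, 0, 2], [], [2, 1, 1, 0]], [[1, 0, 1, 2], [1, 2], [2], [1, 1, 0]]], [[], [[0, 2, 2, 0], [2, 1, 1, 0]], [[1], [2, 1]], [[1, 0, 1, 1, 0]], [[0], [2, 0], [1, 0, 1, 1, 0]], [[0, 2, 2, 1], [2, 1, 1, 1], [1, 0, 1, 1, 0]], [[2, 1, 1, 0]], [[1, 1, 0]], [[1, 2], [2], [2, 1, 1, 0]], [[1, 0, 1, 0], [2, 1, 1, 0]], [[1, 2, 1, 0], [1, 0, 0], [2, 0], [1, 0, 1, 1, 0]], [[0, 2], [2, 2, 0, 2], [1, 0, 1, 0], [2, 1, 1, 0]], [[2, 0], [1, 0, 1, 1, 0]], [[1, 2, 0], [1, 0, 1, 1, 0]], [[1, 0, 0], [2, 0], [1, 0, 1, 1, 0]], [[1, 0], [1, 0, 1, 0], [2, 1, 1, 0]], [[2, 1]], [[1, 2, 1]], [[1, 0, 1], [2, 1]], [[1, 1], [2, 1, 1], [1, 0, 1], [2, 1]], [[2, 1, 1, 1], [1, 0, 1, 1, 0]], [[1, 1, 1], [1, 0, 1, 1, 0]], [[2, 1, 1], [1, 0, 1], [2, 1]], [[1, 2, 1, 1], [1, 0, 1], [2, 1]], [[2], [2, 1, 1, 0]], [[], [1, 1, 0]], [[1, 0, 0, 2, 0, 2], [2], [2, 1, 1, 0]], [[0, 2, 2], [2, 0, 2, 2], [1, 0, 0, 2, 0, 2], [2], [2, 1, 1, 0]], [[2, 2, 0, 2], [1, 0, 1, 0], [2, 1, 1, 0]], [[1, 0, 2, 2], [1, 0, 1, 0], [2, 1, 1, 0]], [[2, 0, 2, 2], [1, 0, 0, 2, 0, 2], [2], [2, 1, 1, 0]], [[1, 0, 2], [1, 0, 0, 2, 0, 2], [2], [2, 1, 1, 0]]], [[], [[2, 1, 0], [1, 1, 0]], [[0, 2, 1, 1, 1], [2, 0, 2, 1, 1]], [[0, 1, 1, 0]], [[0, 1, 2, 1, 0], [2, 0], [0]], [[2, 1, 1], [0, 1, 1], [0, 2, 2, 1]], [[0, 1, 0], [1, 1, 0]], [[0, 1, 2, 0], [2, 2, 0]], [[1, 2], [2], [0, 1, 0], [1, 1, 0]], [[1, 1, 0]], [[2, 0], [0]], [[0, 2], [2, 2, 0, 2], [1, 1, 0]], [[0]], [[2, 2, 0]], [[0, 0], [0]], [[0, 0, 2, 0], [2, 1, 0], [1, 1, 0]], [[1], [0, 1, 1, 0]], [[2, 2, 1], [0, 1, 1, 0]], [[0, 2, 2, 1, 1]], [[0, 2, 1, 1], [2, 0, 2, 1, 1]], [[0, 2, 2, 1]], [[2, 0, 2, 1, 1]], [[0, 1, 1], [0, 2, 2, 1]], [[2, 1], [1], [0, 1, 1, 0]], [[1, 1, 0, 2, 2], [1, 1, 0]], [[2, 2, 0, 2], [1, 1, 0]], [[], [0, 1, 2, 0], [2, 2, 0]], [[0, 0, 2], [0, 2], [2, 2, 0, 2], [1, 1, 0]], [[0, 0, 2, 2], [1, 0, 2, 2], [1, 1, 0]], [[2], [0, 1, 0], [1, 1, 0]], [[1, 0, 2, 2], [1, 1, 0]], [[1, 1, 0, 2], [2, 2, 0, 2], [1, 1, 0]]], [[], [[1, 0], [2, 1, 1, 0]], [[0, 2, 1, 1, 1], [2, 0, 2, 2, 1, 1]], [[0, 1, 1, 0]], [[0, 1, 2, 1, 0], [0], [2, 0]], [[1, 1], [0, 1, 1], [2, 0, 2, 2, 1]], [[0, 1, 0], [2, 1, 1, 0]], [[0, 1, 2, 0], [1, 1, 0]], [[1, 2], [2], [0, 1, 0], [2, 1, 1, 0]], [[2, 1, 1, 0]], [[0], [2, 0]], [[0, 2], [2, 2, 0, 2], [2, 1, 1, 0]], [[2, 0]], [[1, 1, 0]], [[0, 0], [2, 0]], [[0, 2, 0], [0, 1, 0], [2, 1, 1, 0]], [[0, 1], [2, 0, 2, 2, 1, 1]], [[1, 1, 1], [0, 1, 1, 0]], [[2, 0, 2, 2, 1, 1]], [[0, 2, 1], [2, 0, 2, 2, 1]], [[2, 0, 2, 2, 1]], [[0, 2, 1, 1]], [[0, 1, 1], [2, 0, 2, 2, 1]], [[1], [0, 1], [2, 0, 2, 2, 1, 1]], [[2, 1, 1, 0, 2, 2], [2, 1, 1, 0]], [[1, 0, 2, 2], [2, 1, 1, 0]], [[2], [0, 1, 0], [2, 1, 1, 0]], [[0, 0, 2], [0, 2], [2, 2, 0, 2], [2, 1, 1, 0]], [[0, 0, 2, 2], [2, 2, 0, 2], [2, 1, 1, 0]], [[], [0, 1, 2, 0], [1, 1, 0]], [[2, 2, 0, 2], [2, 1, 1, 0]], [[1, 0, 2], [2, 1, 1, 0, 2, 2], [2, 1, 1, 0]]], [[], [[1, 1, 0]], [[0, 2, 1, 1, 1]], [[2, 1, 1, 0]], [[0, 2, 1, 1, 0], [2, 1, 1, 0]], [[1, 1, 1], [2, 1, 1, 0]], [[2], [1, 0], [2, 2, 1, 0], [0, 2, 1, 1, 0], [2, 1, 1, 0]], [[2, 2, 0], [0], [2, 0], [0, 2, 0], [2, 0, 2, 0], [1, 1, 0]], [[], [0], [2, 0], [0, 2, 0], [2, 0, 2, 0], [1, 1, 0]], [[1, 0], [2, 2, 1, 0], [0, 2, 1, 1, 0], [2, 1, 1, 0]], [[2, 2, 1, 0], [0, 2, 1, 1, 0], [2, 1, 1, 0]], [[0, 2], [1, 0], [2, 2, 1, 0], [0, 2, 1, 1, 0], [2, 1, 1, 0]], [[2, 0], [0, 2, 0], [2, 0, 2, 0], [1, 1, 0]], [[0], [2, 0], [0, 2, 0], [2, 0, 2, 0], [1, 1, 0]], [[0, 2, 0], [2, 0, 2, 0], [1, 1, 0]], [[2, 0, 2, 0], [1, 1, 0]], [[2, 1], [0, 2, 1], [2, 0, 2, 1], [1, 1, 1], [2, 1, 1, 0]], [[1], [2, 1], [0, 2, 1], [2, 0, 2, 1], [1, 1, 1], [2, 1, 1, 0]], [[0, 2, 1], [2, 0, 2, 1], [1, 1, 1], [2, 1, 1, 0]], [[2, 0, 2, 1], [1, 1, 1], [2, 1, 1, 0]], [[2, 1, 1], [1, 1], [2, 2, 1, 1], [0, 2, 1, 1, 1]], [[0, 2, 1, 1], [2, 1, 1], [1, 1], [2, 2, 1, 1], [0, 2, 1, 1, 1]], [[1, 1], [2, 2, 1, 1], [0, 2, 1, 1, 1]], [[2, 2, 1, 1], [0, 2, 1, 1, 1]], [[2, 0, 2, 0, 2], [1, 1, 2], [2, 0, 2], [0, 2], [1, 0], [2, 2, 1, 0], [0, 2, 1, 1, 0], [2, 1, 1, 0]], [[1, 1, 0, 2], [2, 0, 2, 0, 2], [1, 1, 2], [2, 0, 2], [0, 2], [1, 0], [2, 2, 1, 0], [0, 2, 1, 1, 0], [2, 1, 1, 0]], [[1, 1, 2], [2, 0, 2], [0, 2], [1, 0], [2, 2, 1, 0], [0, 2, 1, 1, 0], [2, 1, 1, 0]], [[2, 0, 2], [0, 2], [1, 0], [2, 2, 1, 0], [0, 2, 1, 1, 0], [2, 1, 1, 0]], [[2, 0, 2, 2], [0, 2, 2], [2, 2], [], [0], [2, 0], [0, 2, 0], [2, 0, 2, 0], [1, 1, 0]], [[1, 1, 1, 2], [2, 0, 2, 2], [0, 2, 2], [2, 2], [], [0], [2, 0], [0, 2, 0], [2, 0, 2, 0], [1, 1, 0]], [[0, 2, 2], [2, 2], [], [0], [2, 0], [0, 2, 0], [2, 0, 2, 0], [1, 1, 0]], [[2, 2], [], [0], [2, 0], [0, 2, 0], [2, 0, 2, 0], [1, 1, 0]]], [[], [[1, 1, 0]], [[0, 2, 1, 1, 1]], [[2, 0, 1, 1, 0]], [[0, 2, 1, 1, 0], [2, 0, 1, 1, 0]], [[1, 1, 1], [2, 0, 1, 1, 0]], [[2, 0, 1, 0], [2, 1, 1, 0]], [[0, 2, 1, 0], [2, 0, 1, 0], [2, 1, 1, 0]], [[], [2, 0, 0, 2, 0], [1, 1, 0]], [[2, 1, 1, 0]], [[1, 0], [2, 1, 1, 0]], [[0, 2], [2, 1, 1, 0]], [[2, 0]], [[0], [2, 0]], [[2, 0, 0], [2, 0]], [[2, 0, 0, 2, 0], [1, 1, 0]], [[2, 1], [2, 0, 1, 1, 0]], [[1], [2, 1], [2, 0, 1, 1, 0]], [[2, 0, 2, 2, 1, 1]], [[0, 2, 1], [2, 0, 2, 2, 1, 1]], [[2, 0, 2, 2, 1]], [[0, 2, 1, 1], [2, 0, 2, 2, 1]], [[2, 0, 1, 1], [2, 0, 2, 2, 1]], [[2, 0, 1, 2, 1, 1], [0, 2, 1, 1, 1]], [[2, 1, 1, 0, 2, 2], [2, 1, 1, 0]], [[2, 0, 2], [0, 2], [2, 1, 1, 0]], [[2], [2, 0, 1, 0], [2, 1, 1, 0]], [[2, 0, 0, 2], [0, 2], [2, 1, 1, 0]], [[2, 0, 0, 2, 2], [2, 2, 0, 2], [2, 1, 1, 0]], [[2, 2], [], [2, 0, 0, 2, 0], [1, 1, 0]], [[2, 2, 0, 2], [2, 1, 1, 0]], [[0, 2, 2], [2, 2, 0, 2], [2, 1, 1, 0]]], [[], [], [], [[0, 1, 1, 0]], [[0, 1, 2, 1, 0], [1, 0]], [[1, 1], [0, 1, 2, 1, 1]], [[0, 1, 0], [1, 1, 2, 0]], [[0, 1, 2, 0], [1, 1, 0]], [[], [1], [0, 1, 2, 1, 1]], [[1, 1, 2, 0]], [[1, 0]], [[0, 0, 2], [0, 2, 0, 2], [], [1], [0, 1, 2, 1, 1]], [[1, 2, 0]], [[1, 1, 0]], [[0, 0], [1, 2, 0]], [[0, 0, 2, 0]], [[0, 1], [0, 2, 1, 1, 1]], [[1], [0, 1, 2, 1, 1]], [[0, 2, 1, 1, 1]], [[1, 0, 2, 2, 1]], [[0, 2, 1, 1]], [[0, 2, 2, 1, 1]], [[0, 1, 1], [0, 2, 1, 1]], [[0, 1, 2, 1, 1]], [[1, 1, 0, 2], [1, 1, 2, 0]], [[0, 1, 1, 0, 2], [1, 2, 2], [], [1], [0, 1, 2, 1, 1]], [[1, 2], [0, 1, 0], [1, 1, 2, 0]], [[0, 2, 0, 2], [], [1], [0, 1, 2, 1, 1]], [[0, 0, 2, 2], [0, 2], [1, 1, 2, 0]], [[1, 2, 2], [], [1], [0, 1, 2, 1, 1]], [[0, 2], [1, 1, 2, 0]], [[0, 1, 2], [], [1], [0, 1, 2, 1, 1]]], [[], [], [], [[1, 1, 2, 0]], [[2, 1, 1, 2, 0]], [[2, 1, 1, 2, 1]], [[0, 2], [2, 1, 0], [1, 1, 2, 0]], [[0], [2, 2, 0], [1, 1, 0]], [[], [1, 1, 1], [2, 1, 1, 2, 1]], [[2, 1, 0], [1, 1, 2, 0]], [[1, 0], [2, 1, 1, 2, 0]], [[2, 2], [], [1, 1, 1], [2, 1, 1, 2, 1]], [[0, 2, 0], [2, 1, 1, 0]], [[2, 2, 0], [1, 1, 0]], [[2, 1, 1, 0]], [[1, 1, 0]], [[2, 1], [0, 2, 1, 1], [2, 1, 1]], [[1], [2, 2, 1, 1], [1, 1]], [[2, 1, 1, 1], [1, 1, 2, 0]], [[1, 1, 1], [2, 1, 1, 2, 1]], [[0, 2, 1, 1], [2, 1, 1]], [[2, 2, 1, 1], [1, 1]], [[2, 1, 1]], [[1, 1]], [[1, 1, 2], [2, 2, 0, 2], [2, 1, 0], [1, 1, 2, 0]], [[1, 1, 2, 2], [2, 1, 0, 2], [0, 2, 2], [], [1, 1, 1], [2, 1, 1, 2, 1]], [[2, 2, 0, 2], [2, 1, 0], [1, 1, 2, 0]], [[0, 2, 0, 2], [2, 2], [], [1, 1, 1], [2, 1, 1, 2, 1]], [[1, 0, 2], [2], [0, 2], [2, 1, 0], [1, 1, 2, 0]], [[2, 1, 0, 2], [0, 2, 2], [], [1, 1, 1], [2, 1, 1, 2, 1]], [[2], [0, 2], [2, 1, 0], [1, 1, 2, 0]], [[0, 2, 2], [], [1, 1, 1], [2, 1, 1, 2, 1]]], [[], [], [], [[2, 1, 1, 0]], [[0], [2, 2, 0], [1, 1, 0]], [[1, 1, 1], [2, 2, 1], [1]], [[0, 2, 1, 0]], [[1, 1, 0]], [[], [2, 2, 1], [1]], [[2], [0, 2, 1, 0]], [[1, 0], [2, 0, 2, 0]], [[2, 0, 2], [0, 2, 2], [2, 2], [], [2, 2, 1], [1]], [[1, 2, 0], [2, 1, 1, 0]], [[2, 2, 0], [1, 1, 0]], [[2, 0], [1, 2, 0], [2, 1, 1, 0]], [[2, 0, 2, 0]], [[1, 2, 1]], [[1]], [[2, 1], [1, 2, 1]], [[1, 1], [2, 2, 1, 1]], [[0, 2, 1, 1], [2, 1, 1, 0]], [[2, 2, 1], [1]], [[0, 2, 1], [2, 1], [1, 2, 1]], [[2, 2, 1, 1]], [[1, 2], [0, 2, 1, 0]], [[1, 2, 2], [], [2, 2, 1], [1]], [[2, 0, 2, 0, 2], [1, 2], [0, 2, 1, 0]], [[0, 2, 2], [2, 2], [], [2, 2, 1], [1]], [[0, 2], [2], [0, 2, 1, 0]], [[2, 1, 1, 0, 2], [1, 2, 2], [], [2, 2, 1], [1]], [[1, 0, 2], [2, 0, 2, 0, 2], [1, 2], [0, 2, 1, 0]], [[2, 2], [], [2, 2, 1], [1]]], [[], [], [], [[0, 1, 1, 0]], [[2, 0, 2, 0], [0, 0, 2, 0]], [[1, 1, 1], [0, 1, 2, 1, 1]], [[0, 1, 0], [1, 2, 1, 0]], [[0, 1, 2, 0], [0]], [[], [0, 1, 2, 1, 1]], [[1, 2, 1, 0]], [[1, 1, 0]], [[0, 0, 2], [1, 2, 2], [], [0, 1, 2, 1, 1]], [[2, 0]], [[0]], [[0, 0], [2, 0]], [[0, 0, 2, 0]], [[0, 1], [0, 2, 1]], [[1, 1], [0, 1, 2, 1, 1]], [[0, 2, 1]], [[2, 0, 2, 1]], [[0, 2, 1, 1, 1]], [[0, 2, 2, 1]], [[0, 1, 1], [0, 2, 1, 1, 1]], [[0, 1, 2, 1, 1]], [[0, 2], [1, 2, 1, 0]], [[0, 2, 2], [0, 1, 2], [], [0, 1, 2, 1, 1]], [[2], [0, 1, 0], [1, 2, 1, 0]], [[1, 2, 2], [], [0, 1, 2, 1, 1]], [[1, 2], [0, 1, 0], [1, 2, 1, 0]], [[2, 2], [], [0, 1, 2, 1, 1]], [[1, 0, 2], [1, 2, 1, 0]], [[0, 1, 2], [], [0, 1, 2, 1, 1]]], [[], [[1, 0], [2, 0], [0, 0], [2, 1, 1, 0]], [[1, 2, 1, 1], [0, 1], [2, 1, 1, 1], [0, 1, 1, 0]], [[0, 1, 1, 0]], [[1, 2, 1, 0], [0, 0], [2, 1, 1, 0]], [[1, 1], [0, 1, 1], [2, 1, 1]], [[2, 0], [0, 0], [2, 1, 1, 0]], [[1, 2, 0]], [[0, 1, 2], [1, 2], [2, 2, 0, 2], [2, 1, 0], [0, 1, 1, 0]], [[2, 1, 0], [0, 1, 1, 0]], [[], [1, 1, 1]], [[2, 2], [0, 1, 2], [1, 2], [2, 2, 0, 2], [2, 1, 0], [0, 1, 1, 0]], [[0, 0], [2, 1, 1, 0]], [[1, 1, 0], [0, 1, 1, 0]], [[2, 1, 1, 0]], [[2, 2, 0], [1, 1, 0], [0, 1, 1, 0]], [[0, 1], [2, 1, 1, 1], [0, 1, 1, 0]], [[1, 1, 1]], [[2, 1, 1, 1], [0, 1, 1, 0]], [[2, 2, 1], [1, 1, 1]], [[0, 1, 1], [2, 1, 1]], [[1, 2, 1], [0, 1, 1, 0]], [[2, 1, 1]], [[1], [2, 1, 1, 1], [0, 1, 1, 0]], [[0, 0, 2, 0, 2], [2, 2, 0, 2], [2, 1, 0], [0, 1, 1, 0]], [[1, 0, 2, 2], [2, 0], [0, 0], [2, 1, 1, 0]], [[2, 2, 0, 2], [2, 1, 0], [0, 1, 1, 0]], [[0, 2], [2], [2, 0], [0, 0], [2, 1, 1, 0]], [[0, 0, 2, 2], [2], [2, 0], [0, 0], [2, 1, 1, 0]], [[1, 2, 2], [2, 1, 0], [0, 1, 1, 0]], [[2], [2, 0], [0, 0], [2, 1, 1, 0]], [[1, 2], [2, 2, 0, 2], [2, 1, 0], [0, 1, 1, 0]]], [[], [[2, 2, 0, 2, 0]], [[2, 1, 1]], [[0, 2, 0, 1, 1, 0]], [[2, 1, 0], [0, 2, 0, 1, 1, 0]], [[2, 2, 0, 2, 1], [0, 2, 0, 1, 1, 0]], [[1, 0], [0, 2, 0, 1, 1, 0]], [[2, 0], [1, 0], [0, 2, 0, 1, 1, 0]], [[2, 0, 2], [1, 0], [0, 2, 0, 1, 1, 0]], [[0, 2, 2, 1, 0]], [[], [1, 1, 1]], [[2, 2], [0, 2, 2, 1, 0]], [[1, 0, 2, 2, 0]], [[0, 2, 0], [2, 2, 0, 2, 0]], [[1, 1, 0], [0, 2, 0, 1, 1, 0]], [[0, 2, 0, 0, 2, 0], [2, 2, 0, 2, 0]], [[0, 2, 0, 1], [1, 1, 1]], [[0, 2, 1], [2, 2, 0, 2, 1], [0, 2, 0, 1, 1, 0]], [[1, 1, 1]], [[2, 2, 1], [1, 1, 1]], [[1, 1]], [[2, 1], [1, 1]], [[0, 2, 0, 1, 1], [1, 1]], [[0, 2, 0, 1, 2, 1, 1], [2, 1, 1]], [[0, 2, 0, 2], [0, 2, 2, 1, 0]], [[1, 1, 2], [2, 2], [0, 2, 2, 1, 0]], [[1, 0, 2, 2], [1, 0], [0, 2, 0, 1, 1, 0]], [[0, 2, 0, 0, 2], [2, 2], [0, 2, 2, 1, 0]], [[0, 2, 2], [1, 0], [0, 2, 0, 1, 1, 0]], [[1, 0, 2], [2, 0, 2], [1, 0], [0, 2, 0, 1, 1, 0]], [[1, 2, 2], [0, 2, 2, 1, 0]], [[2], [1, 2, 2], [0, 2, 2, 1, 0]]], [[], [[0, 2, 1, 0], [2, 0, 2, 0]], [[1, 2, 1], [2, 1, 1]], [[0, 2, 1, 0, 1, 1, 0]], [[1, 2, 0], [2, 1, 0], [0, 2, 1, 0, 1, 1, 0]], [[0, 2, 1, 1], [2, 0, 2, 1], [0, 2, 1, 0, 1, 1, 0]], [[1, 1, 0], [0, 2, 1, 0, 1, 1, 0]], [[2, 1, 0], [0, 2, 1, 0, 1, 1, 0]], [[2, 0, 2], [1, 1, 0, 2, 2], [1, 1, 0], [0, 2, 1, 0, 1, 1, 0]], [[0, 2, 2, 0]], [[], [1, 1, 1]], [[2], [1, 1, 2, 2], [0, 2, 2, 0]], [[0, 2, 2, 1, 0]], [[2, 0, 2, 0]], [[0], [0, 2, 1, 0, 1, 1, 0]], [[2, 0], [1, 1, 0], [0, 2, 1, 0, 1, 1, 0]], [[0, 2, 1, 0, 1], [1]], [[2, 0, 2, 1], [0, 2, 1, 0, 1, 1, 0]], [[1]], [[2, 1], [1, 1, 1]], [[1, 1, 1]], [[2, 1, 1]], [[0, 2, 2, 1], [0, 2, 1, 0, 1, 1, 0]], [[0, 2, 1, 1, 1], [2, 0, 2, 1], [0, 2, 1, 0, 1, 1, 0]], [[1, 2, 2], [0, 2, 2, 0]], [[2, 1, 1, 2], [0, 2, 2, 0]], [[1, 1, 0, 2, 2], [1, 1, 0], [0, 2, 1, 0, 1, 1, 0]], [[0, 2], [2, 0, 2, 2], [1, 1, 0], [0, 2, 1, 0, 1, 1, 0]], [[1, 0, 2, 2], [1, 1, 0], [0, 2, 1, 0, 1, 1, 0]], [[2, 0, 2, 2], [1, 1, 0], [0, 2, 1, 0, 1, 1, 0]], [[1, 1, 2, 2], [0, 2, 2, 0]], [[1, 2], [2, 1, 1, 2], [0, 2, 2, 0]]], [[], [[0, 2, 0], [2, 0, 2, 2, 1, 0]], [[1], [2, 1, 1, 1]], [[0, 2, 1, 0, 1, 1, 0]], [[0], [2, 1, 1, 0], [0, 2, 1, 0, 1, 1, 0]], [[0, 2, 1], [0, 2, 1, 0, 1, 1], [2, 1, 1]], [[2, 1, 0], [0, 2, 1, 0, 1, 1, 0]], [[1, 1, 0], [0, 2, 1, 0, 1, 1, 0]], [[1, 0, 2], [2, 2, 0, 2], [2, 1, 0], [0, 2, 1, 0, 1, 1, 0]], [[2, 0, 2, 2, 1, 0]], [[], [1, 1, 1]], [[1, 1, 2], [2], [2, 0, 2, 2, 1, 0]], [[2, 2, 0, 2, 0]], [[0, 2, 1, 0]], [[2, 1, 1, 0], [0, 2, 1, 0, 1, 1, 0]], [[1, 0], [2, 1, 0], [0, 2, 1, 0, 1, 1, 0]], [[0, 2, 1, 0, 1], [2, 1, 1, 1]], [[0, 2, 1, 1], [0, 2, 1, 0, 1, 1, 0]], [[2, 1, 1, 1]], [[1, 1], [2, 1, 1]], [[2, 1, 1]], [[1, 1, 1]], [[0, 2, 1, 0, 1, 1], [2, 1, 1]], [[0, 2, 1, 1, 1], [0, 2, 1, 0, 1], [2, 1, 1, 1]], [[2, 0, 2, 0, 2], [2, 0, 2, 2, 1, 0]], [[1, 2, 2], [2, 0, 2, 2, 1, 0]], [[2, 2, 0, 2], [2, 1, 0], [0, 2, 1, 0, 1, 1, 0]], [[0, 2], [2, 0, 2, 2], [2, 1, 0], [0, 2, 1, 0, 1, 1, 0]], [[2, 0, 2, 2], [2, 1, 0], [0, 2, 1, 0, 1, 1, 0]], [[1, 0, 2, 2], [2, 1, 0], [0, 2, 1, 0, 1, 1, 0]], [[2], [2, 0, 2, 2, 1, 0]], [[1, 2], [2, 0, 2, 0, 2], [2, 0, 2, 2, 1, 0]]], [[], [[2, 0], [1, 0], [0, 0], [0]], [[0, 2, 1], [2, 1], [0, 1, 1], [1, 1, 1]], [[0, 1, 1, 0]], [[0, 1, 2, 1, 0], [], [1, 1, 1]], [[2, 1], [0, 1, 1], [1, 1, 1]], [[1, 0], [0, 0], [0]], [[2, 2, 1, 0]], [[0, 1, 2], [1, 2], [2, 1, 0, 2], [1, 1, 0], [0, 1, 1, 0]], [[1, 1, 0], [0, 1, 1, 0]], [[], [1, 1, 1]], [[2, 2], [0, 2, 2], [0, 0, 2, 0, 2], [1, 2, 2], [1, 1, 0], [0, 1, 1, 0]], [[0, 0], [0]], [[2, 1, 0], [0, 1, 1, 0]], [[0]], [[2, 2, 0], [1, 1, 0], [0, 1, 1, 0]], [[0, 1], [1], [0, 1, 1, 0]], [[2, 1, 1]], [[1], [0, 1, 1, 0]], [[2, 2, 1], [1, 1, 1]], [[0, 1, 1], [1, 1, 1]], [[0, 1, 2, 1], [2, 1, 1]], [[1, 1, 1]], [[1, 2, 1], [0, 1, 2, 1], [2, 1, 1]], [[0, 0, 2, 0, 2], [1, 2, 2], [1, 1, 0], [0, 1, 1, 0]], [[2, 0, 2, 2], [1, 0], [0, 0], [0]], [[1, 2, 2], [1, 1, 0], [0, 1, 1, 0]], [[2], [1, 0, 2, 2], [1, 0], [0, 0], [0]], [[0, 2, 2], [0, 0, 2, 0, 2], [1, 2, 2], [1, 1, 0], [0, 1, 1, 0]], [[2, 1, 0, 2], [1, 1, 0], [0, 1, 1, 0]], [[1, 0, 2, 2], [1, 0], [0, 0], [0]], [[1, 2], [2, 1, 0, 2], [1, 1, 0], [0, 1, 1, 0]]], [[], [[0, 2, 0], [2, 2, 0, 2, 0]], [[1], [2, 1, 1]], [[0, 2, 1, 0, 1, 1, 0]], [[0], [2, 1, 0], [0, 2, 1, 0, 1, 1, 0]], [[0, 2, 1], [2, 2, 0, 2, 1], [0, 2, 1, 0, 1, 1, 0]], [[2, 0], [0, 2, 1, 0, 1, 1, 0]], [[1, 1, 0], [0, 2, 1, 0, 1, 1, 0]], [[1, 0, 2], [2, 0, 2, 2], [2, 0], [0, 2, 1, 0, 1, 1, 0]], [[2, 2, 0, 2, 0]], [[2, 0, 2, 0], [0, 2, 1, 0]], [[2, 2], [1, 2, 2], [2, 2, 0, 2, 0]], [[2, 0, 2, 2, 0]], [[0, 2, 1, 0]], [[2, 1, 0], [0, 2, 1, 0, 1, 1, 0]], [[1, 0], [2, 0], [0, 2, 1, 0, 1, 1, 0]], [[0, 2, 1, 0, 1], [2, 1, 1]], [[0, 2, 1, 1], [0, 2, 1, 0, 1, 1, 0]], [[2, 1, 1]], [[1, 1], [2, 1]], [[2, 1]], [[1, 1, 1]], [[2, 2, 0, 2, 1], [0, 2, 1, 0, 1, 1, 0]], [[2, 0, 2, 1], [0, 2, 1, 1], [0, 2, 1, 0, 1, 1, 0]], [[2, 1, 1, 2, 2], [2, 2, 0, 2, 0]], [[1, 2, 2], [2, 2, 0, 2, 0]], [[2, 0, 2, 2], [2, 0], [0, 2, 1, 0, 1, 1, 0]], [[0, 2], [2, 1, 1, 0, 2, 2], [2, 0], [0, 2, 1, 0, 1, 1, 0]], [[2, 1, 1, 0, 2, 2], [2, 0], [0, 2, 1, 0, 1, 1, 0]], [[1, 0, 2, 2], [2, 0], [0, 2, 1, 0, 1, 1, 0]], [[2, 0, 2, 0, 2], [2, 2, 0, 2, 0]], [[1, 2], [2, 1, 1, 2, 2], [2, 2, 0, 2, 0]]], [[], [[2, 0], [1, 0]], [[0, 2, 1, 1], [2, 1, 1]], [[0, 1, 1, 0]], [[0, 2, 1, 0], [2, 1, 0], [0, 1, 1, 0]], [[2, 1], [1, 1], [0, 1, 1, 0]], [[1, 0]], [[2, 2, 1, 0]], [[1, 0, 2], [2, 0, 2, 2], [1, 0]], [[0, 1, 0], [1, 0]], [[], [0, 2, 2], [0, 1, 0], [1, 0]], [[2, 2], [0, 2, 2], [0, 1, 0], [1, 0]], [[1, 1, 0], [0, 1, 1, 0]], [[2, 1, 0], [0, 1, 1, 0]], [[0], [0, 1, 0], [1, 0]], [[2, 2, 0], [0, 1, 0], [1, 0]], [[1, 1, 1]], [[2, 1, 1]], [[0, 1], [1, 1, 1]], [[2, 2, 1], [1], [0, 1], [1, 1, 1]], [[1, 1], [0, 1, 1, 0]], [[0, 1, 2, 1], [2, 1, 1]], [[1], [0, 1], [1, 1, 1]], [[2, 1, 1, 1], [0, 1], [1, 1, 1]], [[0, 2, 0, 2], [1, 0]], [[2, 0, 2, 2], [1, 0]], [[0, 0, 2, 0, 2], [0, 2, 0, 2], [1, 0]], [[2], [0, 0, 2, 2], [0, 2, 2], [0, 1, 0], [1, 0]], [[0, 2, 2], [0, 1, 0], [1, 0]], [[2, 1, 0, 2], [0, 1, 0], [1, 0]], [[0, 0, 2, 2], [0, 2, 2], [0, 1, 0], [1, 0]], [[0, 1, 2], [1, 0, 2], [2, 0, 2, 2], [1, 0]]], [[], [[1, 0], [2, 0]], [[1, 2, 1, 1], [2, 1, 1]], [[0, 1, 1, 0]], [[1, 2, 1, 0], [2, 1, 0], [0, 1, 1, 0]], [[1, 1], [2, 1], [0, 1, 1, 0]], [[2, 0]], [[1, 2, 0]], [[1, 0, 2], [2, 0, 2, 2], [2, 0]], [[0, 1, 0], [2, 0]], [[], [1, 2, 2], [0, 1, 0], [2, 0]], [[2, 2], [1, 2, 2], [0, 1, 0], [2, 0]], [[2, 1, 0], [0, 1, 1, 0]], [[1, 1, 0], [0, 1, 1, 0]], [[0, 0], [2, 1, 0], [0, 1, 1, 0]], [[0, 0, 2, 0], [1, 0], [2, 0]], [[2, 1, 1]], [[1, 1, 1]], [[0, 1], [2, 1, 1]], [[2, 2, 1], [1], [0, 1], [2, 1, 1]], [[2, 1], [0, 1, 1, 0]], [[1, 2, 1], [0, 1, 1, 0]], [[0, 1, 1], [2, 1], [0, 1, 1, 0]], [[1], [0, 1], [2, 1, 1]], [[2, 0, 2, 2], [2, 0]], [[1, 0, 2, 2], [2, 0]], [[0, 0, 2, 0, 2], [2, 0, 2, 2], [2, 0]], [[0, 2], [2], [0, 0, 2, 0, 2], [2, 0, 2, 2], [2, 0]], [[2, 0, 2, 0, 2], [0, 1, 0], [2, 0]], [[1, 2, 2], [0, 1, 0], [2, 0]], [[2], [0, 0, 2, 0, 2], [2, 0, 2, 2], [2, 0]], [[1, 2], [0, 0, 2, 0, 2], [2, 0, 2, 2], [2, 0]]], [[], [[0, 2, 0], [2, 0, 2, 0]], [[1, 2, 1, 1], [2, 1, 1]], [[0, 2, 0, 1, 1, 0]], [[1, 2, 1, 0], [2, 1, 0], [0, 2, 0, 1, 1, 0]], [[0, 2, 1], [2, 0, 2, 1], [0, 2, 0, 1, 1, 0]], [[1, 0], [0, 2, 0, 1, 1, 0]], [[2, 1, 0], [0, 2, 0, 1, 1, 0]], [[1, 0, 2], [2, 0, 2, 2], [1, 0], [0, 2, 0, 1, 1, 0]], [[0, 2, 2, 1, 0]], [[0, 2, 1, 0], [2, 0, 2, 0]], [[2], [1, 2, 2], [0, 2, 2, 1, 0]], [[1, 0, 2, 2, 0]], [[2, 0, 2, 0]], [[1, 1, 0], [0, 2, 0, 1, 1, 0]], [[2, 0], [1, 0], [0, 2, 0, 1, 1, 0]], [[0, 2, 0, 1], [1, 1, 1]], [[2, 0, 2, 1], [0, 2, 0, 1, 1, 0]], [[1, 1, 1]], [[2, 1], [1, 1]], [[1, 1]], [[2, 1, 1]], [[0, 2, 0, 1, 1], [1, 1]], [[0, 2, 1, 1], [2, 0, 2, 1], [0, 2, 0, 1, 1, 0]], [[0, 2, 0, 2], [0, 2, 2, 1, 0]], [[2, 1, 1, 2], [0, 2, 2, 1, 0]], [[1, 0, 2, 2], [1, 0], [0, 2, 0, 1, 1, 0]], [[1, 1, 0, 2], [2, 0, 2, 2], [1, 0], [0, 2, 0, 1, 1, 0]], [[0, 2, 2], [1, 0], [0, 2, 0, 1, 1, 0]], [[2, 0, 2, 2], [1, 0], [0, 2, 0, 1, 1, 0]], [[1, 2, 2], [0, 2, 2, 1, 0]], [[1, 1, 1, 2], [2, 1, 1, 2], [0, 2, 2, 1, 0]]], [[], [], [], [[0, 1, 1, 0]], [[2, 1, 1, 2, 0]], [[2, 1, 1, 2, 1]], [[0, 2, 0]], [[1, 0]], [[2, 2], [], [1, 1, 1]], [[0, 1, 0], [0, 2, 0]], [[0], [0, 0, 2, 0]], [[], [1, 1, 1]], [[0, 0], [2, 1, 1, 0]], [[1, 1, 0], [2, 1, 1, 2, 0]], [[2, 1, 1, 0]], [[0, 0, 2, 0]], [[0, 2, 1, 1]], [[1, 1, 1]], [[0, 1], [0, 2, 1, 1]], [[1], [0, 1, 2, 1, 1]], [[2, 1], [0, 2, 1, 1]], [[1, 1], [2, 1, 1, 2, 1]], [[2, 1, 1]], [[0, 1, 2, 1, 1]], [[1, 0, 2], [0, 2, 0]], [[0, 2, 0, 2], [2, 2], [], [1, 1, 1]], [[0, 2], [2], [0, 2, 0]], [[0, 0, 2], [], [1, 1, 1]], [[1, 1, 2], [0, 1, 0], [0, 2, 0]], [[0, 2, 2], [], [1, 1, 1]], [[2], [0, 2, 0]], [[0, 1, 2], [2, 2], [], [1, 1, 1]]], [[], [[2, 2, 0, 2, 0]], [[2, 1, 1]], [[0, 2, 0, 1, 1, 0]], [[2, 1, 0], [0, 2, 0, 1, 1, 0]], [[2, 2, 0, 2, 1], [0, 2, 0, 1, 1, 0]], [[0], [0, 2, 0, 0, 2, 0], [2, 2, 0, 2, 0]], [[1, 0], [0, 2, 0, 1, 1, 0]], [[2, 0, 2], [0], [0, 2, 0, 0, 2, 0], [2, 2, 0, 2, 0]], [[0, 2, 1, 1, 0], [2, 2, 0, 2, 0]], [[0, 2, 1, 0], [2, 0, 2, 0], [0, 2, 0]], [[], [1, 1, 1], [2, 1, 1]], [[2, 0, 2, 0], [0, 2, 0]], [[0, 2, 0]], [[1, 1, 0], [2, 1, 0], [0, 2, 0, 1, 1, 0]], [[0, 2, 0, 0, 2, 0], [2, 2, 0, 2, 0]], [[0, 2, 0, 1], [1, 1, 1], [2, 1, 1]], [[0, 2, 1], [0, 2, 0, 1, 1, 0]], [[1, 1, 1], [2, 1, 1]], [[1], [2, 1], [1, 1]], [[2, 1], [1, 1]], [[1, 1]], [[0, 2, 0, 1, 1], [2, 1], [1, 1]], [[0, 2, 0, 1, 2, 1, 1], [2, 1, 1]], [[2, 1, 1, 2], [1, 1, 2], [0, 2, 1, 1, 0], [2, 2, 0, 2, 0]], [[1, 1, 2], [0, 2, 1, 1, 0], [2, 2, 0, 2, 0]], [[0, 2], [2, 0, 2], [0], [0, 2, 0, 0, 2, 0], [2, 2, 0, 2, 0]], [[0, 2, 0, 0, 2], [], [1, 1, 1], [2, 1, 1]], [[1, 1, 0, 2], [0, 2, 0, 0, 2], [], [1, 1, 1], [2, 1, 1]], [[0, 2, 2], [0], [0, 2, 0, 0, 2, 0], [2, 2, 0, 2, 0]], [[1, 2], [], [1, 1, 1], [2, 1, 1]], [[2], [1, 2], [], [1, 1, 1], [2, 1, 1]]], [[], [], [], [[0, 2, 0, 1, 1, 0]], [[1, 1, 0], [0, 2, 0, 0, 2, 0]], [[0, 2, 2, 1, 1], [0, 2, 0, 1, 2, 1, 1]], [[1, 2, 1, 0], [0, 2, 0, 1, 1, 0]], [[0], [0, 2, 0, 0, 2, 0]], [[1, 0, 2, 2], [0, 2, 0, 0, 2], [], [1, 1, 1]], [[0, 2, 1, 1, 0]], [[0, 2, 2, 1, 0]], [[], [1, 1, 1]], [[0, 2, 0]], [[1, 0, 2, 2, 0]], [[0, 2, 0, 0], [0, 2, 0]], [[0, 2, 0, 0, 2, 0]], [[0, 2, 1], [0, 2, 0, 1, 1, 0]], [[0, 2, 2, 1], [0, 2, 0, 1, 2, 1, 1]], [[1, 1, 2, 1]], [[1, 1, 1]], [[1, 2, 1, 1]], [[1, 1]], [[0, 2, 0, 1, 1], [1, 2, 1, 1]], [[0, 2, 0, 1, 2, 1, 1]], [[1, 1, 2], [0, 2, 1, 1, 0]], [[0, 2, 0, 2], [], [1, 1, 1]], [[0, 2], [1, 2, 1, 0], [0, 2, 0, 1, 1, 0]], [[0, 2, 0, 0, 2], [], [1, 1, 1]], [[1, 0, 2], [1, 2, 1, 0], [0, 2, 0, 1, 1, 0]], [[1, 1, 0, 2, 2], [0, 2, 0, 0, 2], [], [1, 1, 1]], [[1, 2], [0, 2, 1, 1, 0]], [[1, 2, 2], [], [1, 1, 1]]], [[], [], [], [[0, 2, 1, 0, 1, 1, 0]], [[0], [0, 2, 1, 0, 0, 2, 0]], [[0, 2, 2, 1], [0, 2, 1, 0, 1, 2, 1, 1]], [[1, 2, 0], [0, 2, 1, 0, 1, 1, 0]], [[1, 0], [0, 2, 1, 0, 0, 2, 0]], [[2, 0, 2], [0, 2, 1, 0, 0, 2], [], [1, 1, 1]], [[0, 2, 0]], [[0, 2, 2, 0]], [[], [1, 1, 1]], [[0, 2, 1, 0]], [[2, 0, 2, 0]], [[1, 2, 1, 0], [0, 2, 1, 0, 1, 1, 0]], [[0, 2, 1, 0, 0, 2, 0]], [[0, 2, 1, 1], [0, 2, 1, 0, 1, 1, 0]], [[1, 0, 2, 2, 1], [0, 2, 1, 0, 1, 2, 1, 1]], [[1, 2, 1, 1]], [[1]], [[1, 2, 1]], [[1, 1, 1]], [[0, 2, 1], [0, 2, 1, 0, 1, 1, 0]], [[0, 2, 1, 0, 1, 2, 1, 1]], [[1, 1, 1, 2], [0, 2, 0]], [[1, 2, 2], [], [1, 1, 1]], [[1, 0, 2], [1, 2, 0], [0, 2, 1, 0, 1, 1, 0]], [[0, 2, 1, 0, 0, 2], [], [1, 1, 1]], [[1, 1, 0, 2], [1, 2, 0], [0, 2, 1, 0, 1, 1, 0]], [[0, 2, 2], [0, 2, 1, 0, 0, 2], [], [1, 1, 1]], [[2], [0, 2, 0]], [[2, 2], [], [1, 1, 1]]], [[], [], [], [[0, 2, 0]], [[1, 1, 0], [2, 2, 0], [0]], [[1], [2, 2, 1], [1, 1, 1]], [[2, 0]], [[2, 2, 1, 0]], [[0, 1, 2], [2, 1, 1, 0, 2], [0, 0, 2], [], [1, 1, 1]], [[0, 1, 0], [2, 0]], [[2, 2, 0], [0]], [[], [1, 1, 1]], [[2, 1, 0], [0, 2, 0]], [[1, 0], [2, 2, 1, 0]], [[0, 0], [2, 1, 0], [0, 2, 0]], [[0]], [[2, 1, 1]], [[2, 0, 2, 1]], [[0, 1], [2, 1, 1]], [[2, 2, 1], [1, 1, 1]], [[2, 1], [0, 2, 0]], [[1, 1], [2, 0, 2, 1]], [[0, 1, 1], [2, 1], [0, 2, 0]], [[1, 1, 1]], [[2, 0, 2, 2], [2, 0]], [[0, 2, 2], [2, 2], [], [1, 1, 1]], [[0, 2], [2, 0, 2, 2], [2, 0]], [[0, 0, 2], [], [1, 1, 1]], [[2, 0, 2, 0, 2], [0, 1, 0], [2, 0]], [[2, 2], [], [1, 1, 1]], [[2], [0, 2], [2, 0, 2, 2], [2, 0]], [[2, 1, 1, 0, 2], [0, 0, 2], [], [1, 1, 1]]], [[], [[2, 0, 2, 0]], [[2, 1, 1, 1]], [[1, 0, 1, 1, 0]], [[2, 1, 1, 0], [1, 0, 1, 1, 0]], [[2, 0, 2, 1], [1, 0, 1, 1, 0]], [[2, 1, 0], [1, 1, 0]], [[1, 1, 0]], [[2, 1, 0, 2], [2, 1, 0], [1, 1, 0]], [[1, 0], [1, 0, 0, 2, 0], [2, 0, 2, 0]], [[1, 0, 1, 2, 1, 0], [2, 1, 1, 0], [1, 0, 1, 1, 0]], [[2], [1, 0], [1, 0, 0, 2, 0], [2, 0, 2, 0]], [[], [1, 1, 1], [1, 0, 1, 1, 0]], [[1, 2, 0], [1, 0, 1, 1, 0]], [[2, 0], [1, 0, 0, 2, 0], [2, 0, 2, 0]], [[1, 0, 0, 2, 0], [2, 0, 2, 0]], [[1], [2, 1, 1, 1]], [[1, 2, 1]], [[1, 0, 1], [1], [2, 1, 1, 1]], [[1, 0, 0, 2, 1], [2, 0, 2, 1], [1, 0, 1, 1, 0]], [[2, 1, 1], [1, 1, 1], [1, 0, 1, 1, 0]], [[1, 1, 1], [1, 0, 1, 1, 0]], [[2, 0, 2, 2, 1], [1, 0, 1, 2, 1, 1], [2, 1, 1, 1]], [[1, 0, 1, 2, 1, 1], [2, 1, 1, 1]], [[1, 2], [2, 1, 0, 2], [2, 1, 0], [1, 1, 0]], [[1, 2, 2], [2, 1, 0], [1, 1, 0]], [[1, 0, 2], [1, 0, 1, 2], [2, 1, 0, 2], [2, 1, 0], [1, 1, 0]], [[1, 0, 0, 2], [2], [1, 0], [1, 0, 0, 2, 0], [2, 0, 2, 0]], [[0, 2], [2], [1, 0], [1, 0, 0, 2, 0], [2, 0, 2, 0]], [[1, 0, 2, 2], [1, 0], [1, 0, 0, 2, 0], [2, 0, 2, 0]], [[2, 2], [1, 0, 1, 2], [2, 1, 0, 2], [2, 1, 0], [1, 1, 0]], [[1, 0, 1, 2], [2, 1, 0, 2], [2, 1, 0], [1, 1, 0]]], [[], [[2, 0, 2, 0]], [[2, 1, 1, 1]], [[1, 0, 1, 1, 0]], [[2, 1, 1, 0], [1, 0, 1, 1, 0]], [[2, 0, 2, 1], [1, 0, 1, 1, 0]], [[1, 1, 0]], [[2, 1, 0], [1, 1, 0]], [[2, 1, 0, 2], [1, 1, 0]], [[1, 0, 1, 0], [1, 1, 0]], [[0, 2, 0], [1, 0, 0, 2, 0], [2, 0, 2, 0]], [[2], [1, 0, 1, 0], [1, 1, 0]], [[0], [1, 0, 1, 1, 0]], [[], [1, 1, 1], [1, 0, 1, 1, 0]], [[1, 0], [1, 0, 1, 0], [1, 1, 0]], [[1, 0, 0, 2, 0], [2, 0, 2, 0]], [[1]], [[1, 2, 1], [2, 1, 1, 1]], [[1, 0, 1], [1]], [[2, 1], [1, 0, 1], [1]], [[1, 1, 1], [1, 0, 1, 1, 0]], [[2, 1, 1], [1, 1, 1], [1, 0, 1, 1, 0]], [[1, 1], [1, 0, 1], [1]], [[1, 0, 1, 2, 1, 1], [2, 1, 1, 1]], [[1, 2, 2], [1, 1, 0]], [[1, 2], [2, 1, 0, 2], [1, 1, 0]], [[1, 0, 0, 2, 0, 2], [1, 2, 2], [1, 1, 0]], [[1, 0, 2], [1, 0, 1, 2], [2, 1, 0, 2], [1, 1, 0]], [[1, 0, 2, 2], [1, 0, 1, 0], [1, 1, 0]], [[0, 2], [2], [1, 0, 1, 0], [1, 1, 0]], [[2, 2], [1, 0, 1, 2], [2, 1, 0, 2], [1, 1, 0]], [[1, 0, 1, 2], [2, 1, 0, 2], [1, 1, 0]]], [[], [[0, 2, 1, 0], [2, 2, 0], [1, 0, 1, 1, 0]], [[2, 1], [1, 0, 1], [1]], [[1, 0, 1, 1, 0]], [[1, 2, 0], [2, 0, 2, 1, 0]], [[0, 2, 1, 1], [2, 2, 1]], [[1, 1, 0]], [[2, 2, 0], [1, 0, 1, 1, 0]], [[1, 2], [2], [1, 0, 1, 0], [1, 1, 0]], [[1, 0, 1, 0], [1, 1, 0]], [[0, 2, 0], [2, 1, 0], [1, 1, 0]], [[0, 2], [2, 2, 0, 2], [1, 1, 0]], [[0], [1, 0, 1, 1, 0]], [[2, 0, 2, 1, 0]], [[1, 0], [1, 0, 1, 0], [1, 1, 0]], [[2, 1, 0], [1, 1, 0]], [[1]], [[1, 0, 1, 2, 1], [2, 2, 1]], [[1, 0, 1], [1]], [[0, 2, 1], [2, 2, 0, 2, 1], [1]], [[1, 1, 1], [1, 0, 1, 1, 0]], [[2, 2, 1]], [[1, 1], [1, 0, 1], [1]], [[2, 2, 0, 2, 1], [1]], [[], [2, 0, 2, 1, 0]], [[2], [1, 0, 1, 0], [1, 1, 0]], [[1, 0, 0, 2, 0, 2], [], [2, 0, 2, 1, 0]], [[1, 0, 2], [2, 2], [], [2, 0, 2, 1, 0]], [[1, 0, 2, 2], [1, 0, 1, 0], [1, 1, 0]], [[2, 2, 0, 2], [1, 1, 0]], [[0, 2, 2], [1, 0, 0, 2, 0, 2], [], [2, 0, 2, 1, 0]], [[2, 2], [], [2, 0, 2, 1, 0]]], [[], [[0, 2, 2, 0], [1, 0, 1, 0], [2, 0, 2, 2, 0]], [[1], [1, 0, 1], [2, 1]], [[1, 0, 1, 1, 0]], [[0], [2, 0, 2, 2, 1, 0]], [[0, 2, 2, 1], [2, 1, 1, 1]], [[1, 0, 1, 0], [2, 0, 2, 2, 0]], [[1, 1, 0]], [[1, 2], [2], [2, 0, 2, 2, 0]], [[2, 0, 2, 2, 0]], [[1, 2, 1, 0], [2, 0], [1, 0, 1, 1, 0]], [[0, 2], [2, 2, 0, 2], [1, 0, 1, 0], [2, 0, 2, 2, 0]], [[2, 0, 2, 2, 1, 0]], [[1, 2, 0], [1, 0, 1, 1, 0]], [[2, 0], [1, 0, 1, 1, 0]], [[1, 0], [2, 0, 2, 2, 0]], [[1, 0, 1], [2, 1]], [[1, 2, 1]], [[2, 1]], [[1, 1], [1, 0, 1, 1], [2, 1, 1, 1]], [[2, 1, 1, 1]], [[1, 1, 1], [1, 0, 1, 1, 0]], [[1, 0, 1, 1], [2, 1, 1, 1]], [[1, 2, 1, 1], [2, 1]], [[2], [2, 0, 2, 2, 0]], [[], [1, 2, 0], [1, 0, 1, 1, 0]], [[1, 0, 0, 2, 0, 2], [2], [2, 0, 2, 2, 0]], [[0, 2, 2], [2, 1, 1, 2, 2], [2, 0, 2, 2, 0]], [[2, 2, 0, 2], [1, 0, 1, 0], [2, 0, 2, 2, 0]], [[1, 0, 2, 2], [2, 0, 2, 2, 0]], [[2, 1, 1, 2, 2], [2, 0, 2, 2, 0]], [[2, 2], [], [1, 2, 0], [1, 0, 1, 1, 0]]], [[], [[2, 1, 0], [0, 1, 0], [1, 1, 0]], [[2, 2, 1, 1], [1], [0, 1, 1, 0]], [[0, 1, 1, 0]], [[2, 2, 1, 0], [0]], [[2, 1, 1], [0, 2, 2, 1]], [[0, 1, 0], [1, 1, 0]], [[2, 2, 0]], [[1, 2], [2], [1, 1, 0]], [[1, 1, 0]], [[2, 0], [0, 0], [0]], [[0, 2], [2, 2, 0, 2], [0, 1, 0], [1, 1, 0]], [[0]], [[0, 1, 2, 0], [2, 2, 0]], [[0, 0], [0]], [[0, 2, 1, 0], [2, 2, 0]], [[1], [0, 1, 1, 0]], [[2, 1, 1, 1]], [[0, 2, 2, 1, 1]], [[0, 0, 2, 1], [2, 1, 1], [0, 2, 2, 1]], [[0, 2, 2, 1]], [[2, 2, 1], [0, 1, 1, 0]], [[0, 1, 1], [0, 2, 2, 1]], [[2, 1], [0, 2, 2, 1, 1]], [[1, 1, 0, 2, 2], [1, 1, 0]], [[2, 2, 0, 2], [0, 1, 0], [1, 1, 0]], [[], [0, 1, 2, 0], [2, 2, 0]], [[2, 0, 2], [1, 0, 2, 2], [1, 1, 0]], [[0, 0, 2, 2], [1, 0, 2, 2], [1, 1, 0]], [[2], [1, 1, 0]], [[1, 0, 2, 2], [1, 1, 0]], [[2, 2], [], [0, 1, 2, 0], [2, 2, 0]]], [[], [[1, 0], [2, 1, 1, 0], [0, 1, 1, 0]], [[2, 0, 2, 1], [1, 1], [2, 1, 1, 1]], [[0, 1, 1, 0]], [[0, 2, 1, 1, 0], [2, 0]], [[1, 1], [2, 1, 1, 1]], [[0, 1, 0], [2, 1, 1, 0], [0, 1, 1, 0]], [[0, 1, 2, 0], [1, 1, 0]], [[1, 2], [2], [2, 1, 1, 0], [0, 1, 1, 0]], [[2, 1, 1, 0], [0, 1, 1, 0]], [[0], [0, 0], [2, 0]], [[0, 2], [2, 2, 0, 2], [0, 1, 0], [2, 1, 1, 0], [0, 1, 1, 0]], [[0, 0], [2, 0]], [[1, 1, 0]], [[2, 0]], [[2, 0, 2, 1, 0], [1, 1, 0]], [[1], [2, 2, 1], [0, 2, 1, 1]], [[1, 1, 1], [0, 1, 1, 0]], [[2, 1], [0, 1, 1, 0]], [[0, 2, 1], [0, 1, 1], [2, 1, 1, 1]], [[0, 1, 1], [2, 1, 1, 1]], [[0, 2, 1, 1]], [[2, 1, 1, 1]], [[2, 2, 1], [0, 2, 1, 1]], [[1, 0, 2], [2, 2], [], [1, 1, 0]], [[1, 0, 2, 2], [2, 1, 1, 0], [0, 1, 1, 0]], [[2], [2, 1, 1, 0], [0, 1, 1, 0]], [[2, 0, 2], [1, 0, 2, 2], [2, 1, 1, 0], [0, 1, 1, 0]], [[1, 1, 2], [2, 0, 2], [1, 0, 2, 2], [2, 1, 1, 0], [0, 1, 1, 0]], [[], [1, 1, 0]], [[2, 2, 0, 2], [0, 1, 0], [2, 1, 1, 0], [0, 1, 1, 0]], [[2, 2], [], [1, 1, 0]]], [[], [[2, 0, 2, 0]], [[2, 1, 1, 1]], [[1, 0, 1, 1, 0]], [[1, 1, 2, 0], [2, 0, 2, 0]], [[1, 1, 2, 1], [2, 1, 1, 1]], [[0], [1, 0, 0], [1, 1, 0]], [[2, 1, 0], [0], [1, 0, 0], [1, 1, 0]], [[0, 2], [2], [1, 0], [1, 0, 1, 1, 0]], [[1, 0], [1, 0, 1, 1, 0]], [[2, 0, 2, 2, 0], [1, 0], [1, 0, 1, 1, 0]], [[2], [1, 0], [1, 0, 1, 1, 0]], [[1, 0, 0], [1, 1, 0]], [[0, 2, 0], [2, 0], [1, 1, 0]], [[1, 1, 0]], [[2, 0], [1, 1, 0]], [[1], [1, 0, 1, 1], [1, 1]], [[0, 2, 1], [2, 1], [1, 1, 1], [1, 0, 1, 1, 0]], [[1, 1, 1], [1, 0, 1, 1, 0]], [[2, 1], [1, 1, 1], [1, 0, 1, 1, 0]], [[1, 0, 1, 1], [1, 1]], [[2, 1, 1], [1, 0, 1, 1], [1, 1]], [[1, 1]], [[2, 0, 2, 2, 1], [1, 1]], [[1, 0, 0, 2, 0, 2], [0, 2, 0, 2], [1, 0], [1, 0, 1, 1, 0]], [[1, 1, 2], [2, 0, 2], [0, 2, 0, 2], [1, 0], [1, 0, 1, 1, 0]], [[0, 2, 0, 2], [1, 0], [1, 0, 1, 1, 0]], [[2, 0, 2], [0, 2, 0, 2], [1, 0], [1, 0, 1, 1, 0]], [[1, 1, 2, 2], [1, 0, 0, 2, 0, 2], [0, 2, 0, 2], [1, 0], [1, 0, 1, 1, 0]], [[1, 0, 2], [2, 2], [], [0, 2, 0], [2, 0], [1, 1, 0]], [[], [0, 2, 0], [2, 0], [1, 1, 0]], [[2, 2], [], [0, 2, 0], [2, 0], [1, 1, 0]]], [[], [[2, 0]], [[2, 0, 2, 1]], [[0, 1, 1, 0]], [[2, 0, 2, 0], [0, 1, 1, 0]], [[2, 1], [0, 1, 1, 0]], [[0, 1, 0], [1, 0], [2, 0]], [[0, 1, 2, 0], [1, 1, 0]], [[2, 1, 1, 2], [0, 1, 0], [1, 0], [2, 0]], [[1, 0], [2, 0]], [[0], [2, 1, 0], [1, 1, 0]], [[2, 1, 0, 2], [1, 0], [2, 0]], [[2, 1, 0], [1, 1, 0]], [[1, 1, 0]], [[0, 0], [2, 1, 0], [1, 1, 0]], [[0, 0, 2, 0], [2, 0]], [[1], [0, 1, 2, 1, 1], [2, 0, 2, 1]], [[1, 1, 1], [0, 1, 1, 0]], [[0, 2, 1, 1, 1], [2, 0, 2, 1]], [[0, 2, 1], [2, 2, 0, 2, 1], [0, 2, 1, 1]], [[2, 2, 0, 2, 1], [0, 2, 1, 1]], [[0, 2, 1, 1]], [[1, 1], [2, 1], [0, 1, 1, 0]], [[0, 1, 2, 1, 1], [2, 0, 2, 1]], [[2, 0, 2], [1, 0, 2, 2], [1, 0], [2, 0]], [[1, 0, 2, 2], [1, 0], [2, 0]], [[2], [0, 0, 2], [2, 1, 0, 2], [1, 0], [2, 0]], [[0, 0, 2], [2, 1, 0, 2], [1, 0], [2, 0]], [[2, 2], [], [0, 0], [2, 1, 0], [1, 1, 0]], [[], [0, 0], [2, 1, 0], [1, 1, 0]], [[0, 2], [2, 1, 0, 2], [1, 0], [2, 0]], [[0, 1, 2], [2, 1, 1, 2], [0, 1, 0], [1, 0], [2, 0]]], [[], [[1, 2, 0], [2, 0]], [[0, 2, 1, 1], [2, 0, 2, 2, 1]], [[0, 1, 1, 0]], [[0, 2, 1, 0], [0, 1, 2, 0], [2, 0]], [[1, 2, 1], [2, 1], [0, 1, 1, 0]], [[0, 1, 0], [1, 0]], [[0, 1, 2, 0], [2, 0]], [[2], [0, 2, 0, 2], [0, 1, 0], [1, 0]], [[1, 0]], [[2, 1, 0], [1, 1, 0]], [[1, 1, 0, 2], [2, 0, 2], [1, 0]], [[1, 1, 0]], [[2, 0]], [[0, 0], [1, 1, 0]], [[], [0, 1], [1, 0, 2, 2, 1]], [[0, 1], [1, 0, 2, 2, 1]], [[2, 1], [0, 1, 1, 0]], [[1, 0, 2, 2, 1]], [[0, 2, 1], [2, 0, 2, 2, 1]], [[0, 2, 2, 1, 1]], [[2, 0, 2, 2, 1]], [[1, 1], [0, 1, 1, 0]], [[2, 1, 1], [0, 1], [1, 0, 2, 2, 1]], [[1, 0, 2, 2], [1, 0]], [[2, 0, 2], [1, 0]], [[0, 2, 0, 2], [0, 1, 0], [1, 0]], [[0, 0, 2], [1, 1, 0, 2], [2, 0, 2], [1, 0]], [[1, 2, 2], [0, 1, 0], [1, 0]], [[2, 2], [0, 1, 0], [1, 0]], [[0, 2, 2], [1, 0]], [[1, 0, 2], [2, 0, 2], [1, 0]]], [[], [[1, 0], [2, 1, 1, 0]], [[0, 2, 1, 1, 1], [2, 0, 2, 2, 1, 1]], [[0, 1, 1, 0]], [[0, 1, 2, 1, 0], [0], [2, 0]], [[1, 1], [0, 1, 1], [2, 0, 2, 2, 1]], [[0, 1, 0], [2, 1, 1, 0]], [[0, 1, 2, 0], [1, 1, 0]], [[1, 2], [2], [0, 1, 0], [2, 1, 1, 0]], [[2, 1, 1, 0]], [[0], [2, 0]], [[0, 2], [2, 2, 0, 2], [2, 1, 1, 0]], [[2, 0]], [[1, 1, 0]], [[0, 0], [2, 0]], [[], [1, 1, 1], [0, 1, 1, 0]], [[0, 1], [2, 0, 2, 2, 1, 1]], [[1, 1, 1], [0, 1, 1, 0]], [[2, 0, 2, 2, 1, 1]], [[0, 2, 1], [2, 0, 2, 2, 1]], [[2, 0, 2, 2, 1]], [[0, 2, 1, 1]], [[0, 1, 1], [2, 0, 2, 2, 1]], [[1], [0, 1], [2, 0, 2, 2, 1, 1]], [[2, 1, 1, 0, 2, 2], [2, 1, 1, 0]], [[1, 0, 2, 2], [2, 1, 1, 0]], [[2], [0, 1, 0], [2, 1, 1, 0]], [[0, 0, 2], [0, 2], [2, 2, 0, 2], [2, 1, 1, 0]], [[0, 0, 2, 2], [2, 2, 0, 2], [2, 1, 1, 0]], [[1, 2, 2], [0, 1, 0], [2, 1, 1, 0]], [[2, 2, 0, 2], [2, 1, 1, 0]], [[1, 0, 2], [2, 1, 1, 0, 2, 2], [2, 1, 1, 0]]], [[], [[1, 1, 2, 0], [2, 1, 0], [1, 0, 0], [1, 1, 0]], [[2, 1, 1], [1], [1, 0, 1, 1], [1, 1]], [[1, 0, 1, 1, 0]], [[2, 1, 0], [1, 0, 0], [1, 1, 0]], [[2, 2, 1, 1], [1, 0, 1, 1], [1, 1]], [[0], [1, 0, 0], [1, 1, 0]], [[2, 0]], [[1, 0, 1, 2], [2], [0, 2, 0, 2], [1, 0], [1, 0, 1, 1, 0]], [[1, 0], [1, 0, 1, 1, 0]], [[2, 2, 0], [1, 1, 0]], [[0, 2], [1, 0, 1, 2], [2], [0, 2, 0, 2], [1, 0], [1, 0, 1, 1, 0]], [[1, 0, 0], [1, 1, 0]], [[1, 0, 1, 2, 0], [2, 0]], [[1, 1, 0]], [[], [1, 1, 1], [1, 0, 1, 1, 0]], [[1], [1, 0, 1, 1], [1, 1]], [[2, 0, 2, 2, 1]], [[1, 1, 1], [1, 0, 1, 1, 0]], [[0, 2, 1], [2, 0, 2, 2, 1]], [[1, 0, 1, 1], [1, 1]], [[2, 1], [1, 0, 1, 1, 0]], [[1, 1]], [[2, 2, 1], [1, 1, 1], [1, 0, 1, 1, 0]], [[1, 0, 0, 2, 0, 2], [0, 2, 0, 2], [1, 0], [1, 0, 1, 1, 0]], [[2, 0, 2], [0], [1, 0, 0], [1, 1, 0]], [[0, 2, 0, 2], [1, 0], [1, 0, 1, 1, 0]], [[1, 1, 2], [2, 0, 2], [0], [1, 0, 0], [1, 1, 0]], [[1, 1, 2, 2], [1, 0, 0, 2, 0, 2], [0, 2, 0, 2], [1, 0], [1, 0, 1, 1, 0]], [[2, 2], [1, 0], [1, 0, 1, 1, 0]], [[0, 2, 2], [0], [1, 0, 0], [1, 1, 0]], [[2], [0, 2, 0, 2], [1, 0], [1, 0, 1, 1, 0]]], [[], [[0, 2, 2, 0], [2, 1, 0], [1, 0, 0], [2, 0]], [[1], [1, 0, 1], [2, 1], [1, 0, 1, 1, 0]], [[1, 0, 1, 1, 0]], [[0], [1, 0, 0], [2, 0]], [[0, 2, 2, 1], [1, 0, 1, 1], [2, 1, 1, 1]], [[2, 1, 0], [1, 0, 0], [2, 0]], [[1, 1, 0]], [[1, 2], [1, 0, 0, 2, 0, 2], [2], [2, 1, 1, 0], [1, 0, 1, 1, 0]], [[2, 1, 1, 0], [1, 0, 1, 1, 0]], [[2, 2, 0], [1, 1, 0]], [[0, 2], [2, 0, 2, 2], [1, 0, 0, 2, 0, 2], [2], [2, 1, 1, 0], [1, 0, 1, 1, 0]], [[1, 0, 0], [2, 0]], [[1, 2, 0], [1, 0, 1, 1, 0]], [[2, 0]], [[], [1, 1, 1], [1, 0, 1, 1, 0]], [[1, 0, 1], [2, 1], [1, 0, 1, 1, 0]], [[1, 2, 1]], [[2, 1], [1, 0, 1, 1, 0]], [[1, 1], [2, 1, 1, 1]], [[1, 0, 1, 1], [2, 1, 1, 1]], [[1, 1, 1], [1, 0, 1, 1, 0]], [[2, 1, 1, 1]], [[2, 2, 1], [1, 1, 1], [1, 0, 1, 1, 0]], [[1, 0, 0, 2, 0, 2], [2], [2, 1, 1, 0], [1, 0, 1, 1, 0]], [[1, 2, 2], [2, 1, 0], [1, 0, 0], [2, 0]], [[2], [2, 1, 1, 0], [1, 0, 1, 1, 0]], [[0, 2, 2], [2, 2, 0, 2], [2, 1, 0], [1, 0, 0], [2, 0]], [[2, 0, 2, 2], [1, 0, 0, 2, 0, 2], [2], [2, 1, 1, 0], [1, 0, 1, 1, 0]], [[1, 0, 2, 2], [2, 1, 1, 0], [1, 0, 1, 1, 0]], [[2, 2, 0, 2], [2, 1, 0], [1, 0, 0], [2, 0]], [[2, 2], [1, 0, 2, 2], [2, 1, 1, 0], [1, 0, 1, 1, 0]]], [[], [[2, 0]], [[2, 0, 2, 1]], [[0, 1, 1, 0]], [[2, 0, 2, 0], [0, 1, 1, 0]], [[2, 1], [0, 1, 1, 0]], [[0, 1, 0], [1, 1, 0]], [[0, 1, 2, 0], [2, 1, 0], [0]], [[2, 1, 1, 2], [0, 1, 0], [1, 1, 0]], [[1, 1, 0]], [[2, 2, 0], [1, 1, 0]], [[2, 1, 0, 2], [1, 1, 0]], [[0]], [[2, 1, 0], [0]], [[0, 0], [0]], [[0, 0, 2, 0], [2, 0]], [[1], [0, 1, 1, 0]], [[1, 2, 1], [0, 1, 2, 1, 1], [2, 0, 2, 1]], [[0, 2, 2, 1, 1]], [[0, 2, 1], [2, 0, 2, 1]], [[0, 2, 2, 1]], [[0, 2, 1, 1, 1], [2, 0, 2, 1]], [[0, 1, 1], [0, 2, 2, 1]], [[0, 1, 2, 1, 1], [2, 0, 2, 1]], [[1, 1, 0, 2, 2], [1, 1, 0]], [[0, 2], [2, 1, 0, 2], [1, 1, 0]], [[1, 2, 2], [0, 1, 0], [1, 1, 0]], [[0, 0, 2], [2, 1, 0, 2], [1, 1, 0]], [[0, 0, 2, 2], [1, 0, 2, 2], [1, 1, 0]], [[1, 2], [2, 1, 1, 2], [0, 1, 0], [1, 1, 0]], [[1, 0, 2, 2], [1, 1, 0]], [[1, 0, 2], [2, 1, 0, 2], [1, 1, 0]]], [[], [[2, 0]], [[2, 0, 2, 1]], [[0, 1, 1, 0]], [[2, 0, 2, 0], [0, 1, 1, 0]], [[2, 1], [0, 1, 1, 0]], [[0, 1, 0], [1, 0]], [[0, 2, 0], [0, 0, 2, 0], [2, 0]], [[2, 1, 1, 2], [0, 1, 0], [1, 0]], [[1, 0]], [[2, 2, 0], [1, 0]], [[2, 1, 0, 2], [1, 0]], [[1, 1, 0]], [[1, 2, 0], [2, 0]], [[0, 0], [1, 1, 0]], [[0, 0, 2, 0], [2, 0]], [[0, 1], [1, 0, 2, 2, 1]], [[1, 2, 1], [2, 1], [0, 1, 1, 0]], [[1, 0, 2, 2, 1]], [[0, 2, 1, 1, 1], [2, 0, 2, 1]], [[0, 2, 2, 1, 1]], [[0, 2, 1, 1], [2, 0, 2, 1]], [[1, 1], [0, 1, 1, 0]], [[0, 1, 2, 1, 1], [2, 0, 2, 1]], [[1, 0, 2, 2], [1, 0]], [[2, 0, 2], [1, 0, 2, 2], [1, 0]], [[0, 2, 0, 2], [0, 1, 0], [1, 0]], [[0, 0, 2], [2, 1, 0, 2], [1, 0]], [[], [0, 0, 2, 0], [2, 0]], [[2, 2], [], [0, 0, 2, 0], [2, 0]], [[0, 2, 2], [1, 0]], [[0, 2], [2, 1, 0, 2], [1, 0]]], [[], [[1, 0]], [[0, 2, 1, 1]], [[2, 0, 1, 1, 0]], [[0, 2, 1, 0], [2, 0, 1, 1, 0]], [[1, 1], [2, 0, 1, 1, 0]], [[0, 2, 0], [2, 0, 1, 2, 0], [2, 0]], [[2, 0, 1, 2, 0], [2, 0]], [[0, 2, 0, 2], [0, 2, 0], [2, 0, 1, 2, 0], [2, 0]], [[2, 1, 1, 0], [1, 0]], [[0], [2, 1, 1, 0], [1, 0]], [[0, 2, 2], [2, 1, 1, 0], [1, 0]], [[1, 1, 0], [2, 0]], [[2, 0]], [[2, 0, 0], [1, 1, 0], [2, 0]], [[2, 0, 0, 2, 0], [1, 0]], [[1, 1, 1], [2, 1], [2, 0, 1, 1, 0]], [[2, 1], [2, 0, 1, 1, 0]], [[2, 0, 2, 1], [0, 2, 1, 1]], [[0, 2, 2, 1], [2, 0, 2, 1], [0, 2, 1, 1]], [[0, 2, 1], [2, 0, 2, 2, 1]], [[2, 0, 2, 2, 1]], [[1], [2, 0, 1, 2, 1, 1], [0, 2, 1, 1]], [[2, 0, 1, 2, 1, 1], [0, 2, 1, 1]], [[1, 0, 2], [2, 0, 2], [2, 1, 1, 0], [1, 0]], [[2, 0, 2], [2, 1, 1, 0], [1, 0]], [[2], [0, 2, 0, 2], [0, 2, 0], [2, 0, 1, 2, 0], [2, 0]], [[2, 0, 0, 2], [0, 2, 2], [2, 1, 1, 0], [1, 0]], [[1, 1, 2], [], [1, 1, 1], [2, 1], [2, 0, 1, 1, 0]], [[], [1, 1, 1], [2, 1], [2, 0, 1, 1, 0]], [[2, 1, 0, 2], [0, 2, 2], [2, 1, 1, 0], [1, 0]], [[0, 2], [2, 1, 0, 2], [0, 2, 2], [2, 1, 1, 0], [1, 0]]], [[], [], [], [[1, 2, 0]], [[0], [2, 0, 2, 0], [1, 0]], [[1, 1], [2, 0, 2, 1], [1]], [[2, 1, 1, 0]], [[2, 0, 2, 1, 0]], [[2, 2], [], [2, 2, 1]], [[0, 1, 0], [2, 1, 1, 0]], [[2, 0, 2, 0], [1, 0]], [[2, 0, 2], [1, 2, 2], [], [2, 2, 1]], [[2, 0], [1, 2, 0]], [[1, 1, 0], [2, 0, 2, 1, 0]], [[0, 0], [2, 0], [1, 2, 0]], [[1, 0]], [[2, 1]], [[2, 2, 1]], [[0, 1], [2, 1]], [[2, 0, 2, 1], [1]], [[2, 1, 1, 1], [1, 2, 0]], [[1, 1, 1], [2, 2, 1]], [[0, 1, 1], [2, 1, 1, 1], [1, 2, 0]], [[1]], [[2], [2, 1, 1, 0]], [[], [2, 2, 1]], [[1, 2], [2], [2, 1, 1, 0]], [[0, 0, 2], [2, 0, 2], [1, 2, 2], [], [2, 2, 1]], [[2, 2, 0, 2], [0, 1, 0], [2, 1, 1, 0]], [[1, 2, 2], [], [2, 2, 1]], [[0, 2], [2, 2, 0, 2], [0, 1, 0], [2, 1, 1, 0]], [[0, 1, 2], [2, 2], [], [2, 2, 1]]], [[], [], [], [[1, 0, 1, 1, 0]], [[0, 2, 2, 0], [1, 0, 0, 2, 0]], [[1], [1, 0, 1, 2, 1, 1]], [[0, 2, 0], [1, 0, 1, 1, 0]], [[2, 0, 2, 0], [1, 0, 0, 2, 0]], [[2, 2], [], [1, 1, 1], [1, 0, 1, 2, 1, 1]], [[1, 2, 0]], [[0]], [[1, 0, 0, 2], [], [1, 1, 1], [1, 0, 1, 2, 1, 1]], [[1, 2, 1, 0]], [[1, 0]], [[1, 0, 0], [1, 2, 1, 0]], [[1, 0, 0, 2, 0]], [[1, 0, 1], [0, 2, 1, 1]], [[1, 1, 1], [1, 0, 1, 2, 1, 1]], [[0, 2, 1, 1]], [[0, 2, 2, 1]], [[0, 2, 1]], [[1, 0, 2, 2, 1]], [[1, 2, 1], [1, 0, 1, 1, 0]], [[1, 0, 1, 2, 1, 1]], [[1, 0, 2], [1, 2, 0]], [[0, 2, 2], [1, 0, 0, 2], [], [1, 1, 1], [1, 0, 1, 2, 1, 1]], [[1, 1, 1, 2], [0, 2, 0], [1, 0, 1, 1, 0]], [[], [1, 1, 1], [1, 0, 1, 2, 1, 1]], [[2], [0, 2, 0], [1, 0, 1, 1, 0]], [[1, 2, 2], [], [1, 1, 1], [1, 0, 1, 2, 1, 1]], [[1, 1, 0, 2], [1, 2, 0]], [[2, 0, 2], [1, 0, 0, 2], [], [1, 1, 1], [1, 0, 1, 2, 1, 1]]], [[], [], [], [[2, 0, 1, 1, 0]], [[2, 0, 2, 0], [2, 0, 0, 2, 0]], [[2, 2, 1, 1], [2, 0, 1, 2, 1, 1]], [[2, 0, 1, 0], [2, 1, 1, 0]], [[2, 0, 1, 2, 0], [2, 1, 1, 2, 0]], [[2, 2], [], [2, 2, 1], [2, 0, 1, 2, 1, 1]], [[2, 1, 1, 0]], [[2, 2, 1, 0]], [[2, 0, 2], [2, 0, 1, 1, 0, 2], [], [2, 2, 1], [2, 0, 1, 2, 1, 1]], [[2, 0]], [[2, 1, 1, 2, 0]], [[2, 0, 0], [2, 0]], [[2, 0, 0, 2, 0]], [[2, 1], [2, 0, 1, 1, 0]], [[2, 2, 1], [2, 0, 1, 2, 1, 1]], [[2, 0, 2, 2, 1, 1]], [[2, 0, 2, 1]], [[2, 0, 2, 2, 1]], [[2, 0, 2, 1, 1, 1]], [[2, 0, 1, 1], [2, 0, 2, 2, 1]], [[2, 0, 1, 2, 1, 1]], [[2, 1, 1, 0, 2, 2], [2, 1, 1, 0]], [[2, 0, 1, 1, 0, 2], [], [2, 2, 1], [2, 0, 1, 2, 1, 1]], [[2], [2, 0, 1, 0], [2, 1, 1, 0]], [[2, 1, 1, 1, 2], [], [2, 2, 1], [2, 0, 1, 2, 1, 1]], [[2, 0, 0, 2, 2], [2, 2, 0, 2], [2, 1, 1, 0]], [[], [2, 2, 1], [2, 0, 1, 2, 1, 1]], [[2, 2, 0, 2], [2, 1, 1, 0]], [[2, 0, 1, 2], [2, 2], [], [2, 2, 1], [2, 0, 1, 2, 1, 1]]], [[], [], [], [[0, 1, 1, 0]], [[1, 0]], [[1, 1]], [[2], [0, 2, 1, 0], [0, 1, 1, 0]], [[0], [2, 2, 1, 0], [1, 0]], [[2, 2], [], [1, 1, 1], [0, 0, 2, 1], [1, 1]], [[0, 2, 1, 0], [0, 1, 1, 0]], [[2, 2, 1, 0], [1, 0]], [[0, 2, 2], [2, 2], [], [1, 1, 1], [0, 0, 2, 1], [1, 1]], [[0, 0], [1, 2, 0]], [[1, 1, 0], [0, 0, 2, 0]], [[1, 2, 0]], [[0, 0, 2, 0]], [[0, 1], [1, 2, 1], [0, 1, 1, 0]], [[1, 1, 1], [0, 0, 2, 1], [1, 1]], [[1, 2, 1], [0, 1, 1, 0]], [[0, 0, 2, 1], [1, 1]], [[0, 1, 1], [0, 2, 1, 1]], [[1], [2, 2, 1, 1]], [[0, 2, 1, 1]], [[2, 2, 1, 1]], [[0, 0, 2, 0, 2], [1, 2], [0, 2, 1, 0], [0, 1, 1, 0]], [[0, 1, 1, 0, 2], [1, 2, 2], [], [1, 1, 1], [0, 0, 2, 1], [1, 1]], [[1, 2], [0, 2, 1, 0], [0, 1, 1, 0]], [[0, 0, 2], [0, 2, 2], [2, 2], [], [1, 1, 1], [0, 0, 2, 1], [1, 1]], [[1, 0, 2], [0, 0, 2, 0, 2], [1, 2], [0, 2, 1, 0], [0, 1, 1, 0]], [[1, 2, 2], [], [1, 1, 1], [0, 0, 2, 1], [1, 1]], [[0, 2], [2], [0, 2, 1, 0], [0, 1, 1, 0]], [[], [1, 1, 1], [0, 0, 2, 1], [1, 1]]], [[], [], [], [[0, 2, 0, 1, 1, 0]], [[1, 0], [0, 2, 0, 0, 2, 0]], [[1, 0, 2, 2, 1], [0, 2, 0, 1, 2, 1, 1]], [[2, 0], [0, 2, 0, 1, 1, 0]], [[1, 1, 0], [0, 2, 0, 0, 2, 0]], [[2, 0, 2], [0, 2, 0, 1, 1, 0, 2], [], [1, 1]], [[0, 2, 1, 0]], [[1, 0, 2, 2, 0]], [[2, 2], [], [1, 1]], [[0, 2, 1, 1, 0]], [[0, 2, 2, 0]], [[1, 2, 0], [0, 2, 0, 1, 1, 0]], [[0, 2, 0, 0, 2, 0]], [[0, 2, 0, 1], [1, 2, 1]], [[2, 0, 2, 1], [0, 2, 0, 1, 2, 1, 1]], [[1, 2, 1]], [[1, 1]], [[2, 1]], [[1]], [[0, 2, 1, 1], [0, 2, 0, 1, 1, 0]], [[0, 2, 0, 1, 2, 1, 1]], [[1, 2], [0, 2, 1, 0]], [[], [1, 1]], [[1, 1, 0, 2], [2, 0], [0, 2, 0, 1, 1, 0]], [[1, 0, 2, 2], [0, 2, 0, 1, 1, 0, 2], [], [1, 1]], [[0, 2], [2, 0], [0, 2, 0, 1, 1, 0]], [[0, 2, 0, 1, 1, 0, 2], [], [1, 1]], [[1, 1, 1, 2], [0, 2, 1, 0]], [[1, 2, 2], [], [1, 1]]], [[], [], [], [[2, 1, 0]], [[1, 0], [0, 1, 2, 0], [0]], [[1], [0, 1, 2, 1], [1, 1]], [[1, 2, 1, 0]], [[0]], [[0, 1, 2], [1, 2, 2], [], [1, 1, 1], [0, 1, 2, 1, 1]], [[2, 0], [1, 2, 1, 0]], [[1, 1, 0], [2, 2, 0]], [[2, 2], [], [1, 1, 1], [0, 1, 2, 1, 1]], [[0, 2, 0], [2, 1, 0]], [[0, 1, 2, 0], [0]], [[0, 0], [0, 2, 0], [2, 1, 0]], [[2, 2, 0]], [[0, 2, 1]], [[1, 1]], [[0, 1], [0, 2, 1]], [[1, 1, 1], [0, 1, 2, 1, 1]], [[1, 2, 1, 1], [2, 1, 0]], [[0, 1, 2, 1], [1, 1]], [[2, 1], [1, 2, 1, 1], [2, 1, 0]], [[0, 1, 2, 1, 1]], [[0, 2], [1, 2, 1, 0]], [[0, 2, 2], [0, 1, 2], [1, 2, 2], [], [1, 1, 1], [0, 1, 2, 1, 1]], [[2, 2, 0, 2], [0, 2], [1, 2, 1, 0]], [[], [1, 1, 1], [0, 1, 2, 1, 1]], [[1, 2], [2, 0], [1, 2, 1, 0]], [[0, 2, 0, 2], [2, 2], [], [1, 1, 1], [0, 1, 2, 1, 1]], [[2], [1, 2], [2, 0], [1, 2, 1, 0]], [[1, 2, 2], [], [1, 1, 1], [0, 1, 2, 1, 1]]], [[], [], [], [[0, 1, 1, 0]], [[1, 0]], [[1, 1]], [[2, 0]], [[2, 2, 1, 0]], [[0, 1, 2], [1, 2, 2], [], [1, 1, 1], [2, 0, 2, 1]], [[0, 1, 0], [2, 0]], [[0], [2, 2, 1, 0]], [[2, 2], [], [1, 1, 1], [2, 0, 2, 1]], [[0, 0], [1, 2, 0]], [[1, 1, 0], [0, 0, 2, 0]], [[1, 2, 0]], [[0, 0, 2, 0]], [[2, 1, 1]], [[2, 0, 2, 1]], [[0, 1], [2, 1, 1]], [[1, 1, 1], [2, 0, 2, 1]], [[2, 1], [0, 1, 1, 0]], [[1], [0, 1, 2, 1, 1]], [[0, 2, 1, 1]], [[0, 1, 2, 1, 1]], [[2, 0, 2, 2], [2, 0]], [[0, 1, 1, 0, 2], [], [1, 1, 1], [2, 0, 2, 1]], [[2], [0, 2], [2, 0]], [[0, 0, 2], [2, 2], [], [1, 1, 1], [2, 0, 2, 1]], [[1, 0, 2], [2, 0, 2, 2], [2, 0]], [[], [1, 1, 1], [2, 0, 2, 1]], [[0, 2], [2, 0]], [[1, 2, 2], [], [1, 1, 1], [2, 0, 2, 1]]], [[], [[0, 2, 1, 1, 0]], [[1, 1]], [[2, 0, 2, 0, 1, 1, 0]], [[1, 0], [2, 0, 2, 0, 1, 1, 0]], [[0, 2, 1, 1, 1], [2, 0, 2, 0, 1, 1, 0]], [[0], [2, 1, 0], [2, 0, 2, 0, 1, 1, 0]], [[2, 1, 0], [2, 0, 2, 0, 1, 1, 0]], [[0, 2], [0], [2, 1, 0], [2, 0, 2, 0, 1, 1, 0]], [[2, 0, 2, 1, 1, 0], [0, 2, 1, 1, 0]], [[0, 2, 1, 0], [2, 0, 2, 1, 1, 0], [0, 2, 1, 1, 0]], [[1, 2], [2, 0, 2, 1, 1, 0], [0, 2, 1, 1, 0]], [[0, 2, 0], [2, 0, 2, 0]], [[2, 0, 2, 0]], [[1, 1, 0], [2, 0, 2, 0, 0, 2, 0], [0, 2, 1, 1, 0]], [[2, 0, 2, 0, 0, 2, 0], [0, 2, 1, 1, 0]], [[0, 2, 1], [2, 0, 2, 1], [2, 0, 2, 0, 1, 1, 0]], [[2, 0, 2, 1], [2, 0, 2, 0, 1, 1, 0]], [[2, 1, 1, 1], [1, 1]], [[2, 1], [1], [2, 1, 1]], [[1], [2, 1, 1]], [[2, 1, 1]], [[0, 2, 1, 1], [2, 0, 2, 0, 1, 2, 1, 1], [1, 1]], [[2, 0, 2, 0, 1, 2, 1, 1], [1, 1]], [[1, 1, 2], [2, 1, 1, 2], [2, 0, 2, 1, 1, 0], [0, 2, 1, 1, 0]], [[2, 1, 1, 2], [2, 0, 2, 1, 1, 0], [0, 2, 1, 1, 0]], [[2, 0, 2], [0, 2], [0], [2, 1, 0], [2, 0, 2, 0, 1, 1, 0]], [[2, 0, 2, 0, 0, 2], [1, 2], [2, 0, 2, 1, 1, 0], [0, 2, 1, 1, 0]], [[1, 0, 2], [2, 0, 2, 2], [0], [2, 1, 0], [2, 0, 2, 0, 1, 1, 0]], [[2, 0, 2, 2], [0], [2, 1, 0], [2, 0, 2, 0, 1, 1, 0]], [[], [2, 1], [1], [2, 1, 1]], [[1, 2, 2], [], [2, 1], [1], [2, 1, 1]]], [[], [], [], [[2, 0, 2, 0, 1, 1, 0]], [[2, 1, 1, 2, 0], [2, 0, 2, 0, 0, 2, 0]], [[2, 0, 2, 1, 1, 1], [2, 0, 2, 0, 1, 2, 1, 1]], [[2, 1, 0], [2, 0, 2, 0, 1, 1, 0]], [[2, 2, 0], [2, 0, 2, 0, 0, 2, 0]], [[2, 0, 2, 0, 1, 2], [], [2, 1, 1, 2, 1]], [[2, 0, 2, 2, 1, 0]], [[2, 0, 2, 1, 1, 0]], [[2, 2], [], [2, 1, 1, 2, 1]], [[2, 2, 0, 2, 0]], [[2, 0, 2, 0]], [[2, 1, 1, 0], [2, 0, 2, 0, 1, 1, 0]], [[2, 0, 2, 0, 0, 2, 0]], [[2, 0, 2, 0, 1], [2, 1, 1, 1]], [[2, 0, 2, 1, 1], [2, 0, 2, 0, 1, 2, 1, 1]], [[2, 1, 1, 1]], [[2, 1, 1, 2, 1]], [[2, 1, 1]], [[2, 2, 1, 1]], [[2, 0, 2, 0, 1, 1], [2, 1, 1]], [[2, 0, 2, 0, 1, 2, 1, 1]], [[2, 0, 2, 0, 2], [2, 0, 2, 2, 1, 0]], [[2, 1, 1, 1, 2], [], [2, 1, 1, 2, 1]], [[2, 2, 0, 2], [2, 1, 0], [2, 0, 2, 0, 1, 1, 0]], [[2, 0, 2], [2, 0, 2, 0, 1, 2], [], [2, 1, 1, 2, 1]], [[2, 0, 2, 2], [2, 1, 0], [2, 0, 2, 0, 1, 1, 0]], [[2, 1, 0, 2], [2, 0, 2, 0, 1, 2], [], [2, 1, 1, 2, 1]], [[2], [2, 0, 2, 2, 1, 0]], [[], [2, 1, 1, 2, 1]]], [[], [[2, 0, 2, 0]], [[2, 1, 1, 1]], [[0, 2, 0, 1, 1, 0]], [[2, 1, 1, 0], [0, 2, 0, 1, 1, 0]], [[2, 0, 2, 1], [0, 2, 0, 1, 1, 0]], [[1, 1, 0], [0, 2, 0, 0, 2, 0], [2, 0, 2, 0]], [[0], [0, 2, 0, 1, 1, 0]], [[2, 1, 0, 2], [1, 1, 0], [0, 2, 0, 0, 2, 0], [2, 0, 2, 0]], [[0, 2, 1, 0], [2, 0, 2, 0]], [[0, 2, 0], [2, 0, 2, 1, 0], [0, 2, 2, 0]], [[2], [0, 2, 1, 0], [2, 0, 2, 0]], [[2, 0, 2, 1, 0], [0, 2, 2, 0]], [[0, 2, 2, 0]], [[1, 0], [2, 1, 1, 0], [0, 2, 0, 1, 1, 0]], [[0, 2, 0, 0, 2, 0], [2, 0, 2, 0]], [[0, 2, 1], [0, 2, 0, 1, 2, 1, 1], [2, 1, 1, 1]], [[0, 2, 2, 1], [0, 2, 0, 1, 1, 0]], [[1, 1], [2, 1, 1, 1]], [[2, 1], [1, 1], [2, 1, 1, 1]], [[2, 1, 1], [1]], [[1]], [[0, 2, 1, 1], [2, 0, 2, 1], [0, 2, 0, 1, 1, 0]], [[0, 2, 0, 1, 2, 1, 1], [2, 1, 1, 1]], [[1, 1, 2], [], [2, 1, 1], [1]], [[1, 2], [0, 2, 1, 0], [2, 0, 2, 0]], [[0, 2, 2], [2, 1, 0, 2], [1, 1, 0], [0, 2, 0, 0, 2, 0], [2, 0, 2, 0]], [[0, 2, 0, 0, 2], [2], [0, 2, 1, 0], [2, 0, 2, 0]], [[1, 0, 2], [0, 2, 0, 0, 2], [2], [0, 2, 1, 0], [2, 0, 2, 0]], [[0, 2], [1, 1, 0], [0, 2, 0, 0, 2, 0], [2, 0, 2, 0]], [[2, 2], [], [2, 1, 1], [1]], [[], [2, 1, 1], [1]]], [[], [[0, 2, 1, 0]], [[1]], [[2, 0, 2, 1, 0, 1, 1, 0]], [[0], [2, 0, 2, 1, 0, 1, 1, 0]], [[0, 2, 1, 1], [2, 0, 2, 1, 0, 1, 1, 0]], [[1, 1, 0], [2, 2, 0], [2, 0, 2, 1, 0, 1, 1, 0]], [[2, 2, 0], [2, 0, 2, 1, 0, 1, 1, 0]], [[1, 1, 0, 2], [1, 1, 0], [2, 2, 0], [2, 0, 2, 1, 0, 1, 1, 0]], [[2, 0, 2, 0], [0, 2, 1, 0]], [[0, 2, 0], [2, 0, 2, 0], [0, 2, 1, 0]], [[1, 1, 1, 2], [2, 0, 2, 0], [0, 2, 1, 0]], [[0, 2, 1, 1, 0], [2, 0, 2, 1, 0]], [[2, 0, 2, 1, 0]], [[1, 0], [2, 0, 2, 1, 0, 0, 2, 0], [0, 2, 1, 0]], [[2, 0, 2, 1, 0, 0, 2, 0], [0, 2, 1, 0]], [[0, 2, 1, 1, 1], [2, 0, 2, 1, 1], [2, 0, 2, 1, 0, 1, 1, 0]], [[2, 0, 2, 1, 1], [2, 0, 2, 1, 0, 1, 1, 0]], [[2, 1], [1]], [[1, 1], [2, 1], [1]], [[1, 1, 1], [2, 2, 1]], [[2, 2, 1]], [[0, 2, 1], [2, 0, 2, 1, 0, 1, 2, 1, 1], [1]], [[2, 0, 2, 1, 0, 1, 2, 1, 1], [1]], [[], [2, 2, 1]], [[2], [2, 0, 2, 0], [0, 2, 1, 0]], [[2, 0, 2, 1, 0, 0, 2, 0, 2], [], [2, 2, 1]], [[0, 2, 2], [2, 0, 2, 1, 0, 0, 2, 0, 2], [], [2, 2, 1]], [[0, 2], [2, 2, 0, 2], [1, 1, 0], [2, 2, 0], [2, 0, 2, 1, 0, 1, 1, 0]], [[2, 2, 0, 2], [1, 1, 0], [2, 2, 0], [2, 0, 2, 1, 0, 1, 1, 0]], [[1, 1, 2], [2, 2], [], [2, 2, 1]], [[2, 2], [], [2, 2, 1]]], [[], [], [], [[2, 0, 2, 1, 0, 1, 1, 0]], [[2, 2, 1, 0], [2, 0, 2, 1, 0, 0, 2, 0]], [[2, 0, 2, 1], [2, 0, 2, 1, 0, 1, 2, 1, 1]], [[2, 1, 1, 0], [2, 0, 2, 1, 0, 1, 1, 0]], [[2, 1, 1, 2, 0], [2, 0, 2, 1, 0, 0, 2, 0]], [[2, 1, 1, 0, 2], [2, 0, 2, 1, 0, 1, 1, 0, 2], [], [2, 2, 1]], [[2, 0, 2, 2, 0]], [[2, 0, 2, 0]], [[2, 1, 1, 1, 2], [], [2, 2, 1]], [[2, 0, 2, 2, 1, 0]], [[2, 0, 2, 1, 0]], [[2, 0], [2, 0, 2, 1, 0, 1, 1, 0]], [[2, 0, 2, 1, 0, 0, 2, 0]], [[2, 0, 2, 1, 0, 1], [2, 1]], [[2, 0, 2, 1, 1, 1], [2, 0, 2, 1, 0, 1, 2, 1, 1]], [[2, 1]], [[2, 2, 1, 1]], [[2, 1, 1, 1]], [[2, 2, 1]], [[2, 0, 2, 2, 1], [2, 0, 2, 1, 0, 1, 1, 0]], [[2, 0, 2, 1, 0, 1, 2, 1, 1]], [[2], [2, 0, 2, 2, 0]], [[], [2, 2, 1]], [[2, 1, 1, 0, 2, 2], [2, 1, 1, 0], [2, 0, 2, 1, 0, 1, 1, 0]], [[2, 0, 2], [2, 0, 2, 1, 0, 1, 1, 0, 2], [], [2, 2, 1]], [[2, 2, 0, 2], [2, 1, 1, 0], [2, 0, 2, 1, 0, 1, 1, 0]], [[2, 0, 2, 1, 0, 1, 1, 0, 2], [], [2, 2, 1]], [[2, 1, 1, 2, 2], [2, 0, 2, 2, 0]], [[2, 2], [], [2, 2, 1]]], [[], [], [], [[0, 1, 1, 0]], [[0]], [[1]], [[2, 1, 0]], [[2, 2, 0]], [[0, 1, 2], [2, 2], [], [1, 1, 1], [0, 1, 2, 1, 1]], [[2, 0], [0, 2, 1, 0]], [[1, 1, 0], [2, 2, 0]], [[0, 0, 2], [], [1, 1, 1], [0, 1, 2, 1, 1]], [[0, 0], [0, 2, 1, 0]], [[1, 0], [0, 0, 2, 0]], [[0, 2, 1, 0]], [[0, 0, 2, 0]], [[2, 1, 1, 1]], [[2, 2, 1, 1]], [[0, 1], [2, 1, 1, 1]], [[1, 1], [2, 2, 1, 1]], [[0, 1, 1], [0, 2, 1]], [[1, 1, 1], [0, 1, 2, 1, 1]], [[0, 2, 1]], [[0, 1, 2, 1, 1]], [[2, 2, 0, 2], [2, 1, 0]], [[0, 2, 2], [], [1, 1, 1], [0, 1, 2, 1, 1]], [[1, 0, 2], [2, 0], [0, 2, 1, 0]], [[], [1, 1, 1], [0, 1, 2, 1, 1]], [[2], [2, 0], [0, 2, 1, 0]], [[0, 2, 0, 2], [2, 2], [], [1, 1, 1], [0, 1, 2, 1, 1]], [[1, 1, 2], [2, 1, 0]], [[2, 2], [], [1, 1, 1], [0, 1, 2, 1, 1]]], [[], [], [], [[1, 2, 0]], [[2, 0, 2, 0]], [[2, 0, 2, 1]], [[0, 1, 0], [2, 1, 1, 0], [1, 2, 0]], [[1, 1, 0], [2, 0, 2, 1, 0], [1, 0]], [[0, 1, 2], [2, 2], [], [2, 2, 1], [1]], [[2, 1, 1, 0], [1, 2, 0]], [[0], [2, 0, 2, 0]], [[0, 0, 2], [2, 0, 2], [1, 2, 2], [], [2, 2, 1], [1]], [[0, 0], [2, 0]], [[2, 0, 2, 1, 0], [1, 0]], [[2, 0]], [[1, 0]], [[0, 1], [2, 1], [1, 2, 0]], [[1, 1, 1], [2, 2, 1], [1]], [[2, 1], [1, 2, 0]], [[1, 1], [2, 0, 2, 1]], [[0, 1, 1], [2, 1, 1, 1]], [[2, 2, 1], [1]], [[2, 1, 1, 1]], [[1]], [[1, 2], [2], [2, 1, 1, 0], [1, 2, 0]], [[1, 2, 2], [], [2, 2, 1], [1]], [[2], [2, 1, 1, 0], [1, 2, 0]], [[2, 0, 2], [1, 2, 2], [], [2, 2, 1], [1]], [[0, 2], [2, 2, 0, 2], [0, 1, 0], [2, 1, 1, 0], [1, 2, 0]], [[], [2, 2, 1], [1]], [[2, 2, 0, 2], [0, 1, 0], [2, 1, 1, 0], [1, 2, 0]], [[2, 2], [], [2, 2, 1], [1]]], [[], [], [], [[0, 2, 0, 1, 1, 0]], [[1, 0], [0, 2, 0, 0, 2, 0]], [[1, 0, 2, 2, 1], [0, 2, 0, 1, 2, 1, 1]], [[1, 1, 2, 0], [0, 2, 0, 1, 1, 0]], [[1, 1, 0], [0, 2, 0, 0, 2, 0]], [[0, 2, 0, 1, 2], [], [1]], [[0, 2, 1, 0]], [[1, 0, 2, 2, 0]], [[0, 2, 0, 2], [], [1]], [[0, 2, 1, 1, 0]], [[0, 2, 2, 0]], [[1, 2, 0], [0, 2, 0, 1, 1, 0]], [[0, 2, 0, 0, 2, 0]], [[0, 2, 0, 1], [1, 2, 1]], [[0, 2, 2, 1, 1], [0, 2, 0, 1, 2, 1, 1]], [[1, 2, 1]], [[1, 1]], [[1, 1, 2, 1]], [[1]], [[0, 2, 1, 1], [0, 2, 0, 1, 1, 0]], [[0, 2, 0, 1, 2, 1, 1]], [[1, 2], [0, 2, 1, 0]], [[1, 2, 2], [], [1]], [[1, 1, 0, 2], [1, 1, 2, 0], [0, 2, 0, 1, 1, 0]], [[0, 2, 2], [0, 2, 0, 1, 2], [], [1]], [[0, 2], [1, 1, 2, 0], [0, 2, 0, 1, 1, 0]], [[1, 1, 0, 2, 2], [0, 2, 0, 1, 2], [], [1]], [[1, 1, 1, 2], [0, 2, 1, 0]], [[], [1]]], [[], [[0]], [[0, 2, 1]], [[2, 1, 0, 1, 1, 0]], [[0, 2, 0], [2, 1, 0, 1, 1, 0]], [[1], [2, 1, 0, 1, 1, 0]], [[0, 2, 1, 1, 0], [2, 0, 2, 0], [2, 1, 0, 1, 1, 0]], [[2, 0, 2, 0], [2, 1, 0, 1, 1, 0]], [[1, 1, 2], [0, 2, 1, 1, 0], [2, 0, 2, 0], [2, 1, 0, 1, 1, 0]], [[2, 0], [0]], [[1, 1, 0], [2, 0], [0]], [[1, 0, 2], [2, 0], [0]], [[1, 0], [2, 1, 0]], [[2, 1, 0]], [[0, 2, 1, 0], [2, 1, 0, 0, 2, 0], [0]], [[2, 1, 0, 0, 2, 0], [0]], [[1, 1], [2, 1, 1], [2, 1, 0, 1, 1, 0]], [[2, 1, 1], [2, 1, 0, 1, 1, 0]], [[2, 0, 2, 1, 1], [0, 2, 1]], [[0, 2, 1, 1], [2, 0, 2, 1, 1], [0, 2, 1]], [[0, 2, 1, 1, 1], [2, 0, 2, 1]], [[2, 0, 2, 1]], [[2, 1], [1], [2, 1, 0, 1, 1, 0]], [[2, 1, 0, 1, 2, 1, 1], [0, 2, 1]], [[0, 2], [2, 0, 2, 2], [2, 0], [0]], [[2, 0, 2, 2], [2, 0], [0]], [[1, 2, 2], [], [2, 1], [1], [2, 1, 0, 1, 1, 0]], [[], [2, 1], [1], [2, 1, 0, 1, 1, 0]], [[2], [], [2, 1], [1], [2, 1, 0, 1, 1, 0]], [[2, 1, 1, 2], [0, 2, 1, 1, 0], [2, 0, 2, 0], [2, 1, 0, 1, 1, 0]], [[2, 1, 1, 0, 2], [1, 0, 2], [2, 0], [0]], [[2, 0, 2], [0, 2], [2, 0, 2, 2], [2, 0], [0]]], [[], [], [], [[2, 0]], [[0]], [[1]], [[0, 1, 0], [0, 2, 0], [2, 0]], [[1, 1, 0], [2, 2, 0], [0]], [[0, 1, 2], [0, 2, 0, 2], [2, 2], [], [2, 2, 1]], [[0, 2, 0], [2, 0]], [[2, 2, 0], [0]], [[0, 0, 2], [0, 2, 2], [], [2, 2, 1]], [[0, 0], [0, 2, 1, 0]], [[1, 0], [0, 0, 2, 0]], [[0, 2, 1, 0]], [[0, 0, 2, 0]], [[0, 1], [0, 2, 1, 1], [2, 0]], [[1, 1], [0, 0, 2, 1], [1]], [[0, 2, 1, 1], [2, 0]], [[0, 0, 2, 1], [1]], [[0, 1, 1], [0, 2, 1]], [[1, 1, 1], [2, 2, 1]], [[0, 2, 1]], [[2, 2, 1]], [[2], [1, 0, 2], [0, 2, 0], [2, 0]], [[], [2, 2, 1]], [[1, 0, 2], [0, 2, 0], [2, 0]], [[0, 2, 2], [], [2, 2, 1]], [[0, 2], [2], [1, 0, 2], [0, 2, 0], [2, 0]], [[2, 2], [], [2, 2, 1]], [[1, 1, 2], [0, 1, 0], [0, 2, 0], [2, 0]], [[0, 2, 0, 2], [2, 2], [], [2, 2, 1]]], [[], [], [], [[2, 1, 0, 1, 1, 0]], [[2, 0, 2, 1, 0], [2, 1, 0, 0, 2, 0]], [[2, 2, 1], [2, 1, 0, 1, 2, 1, 1]], [[2, 1, 0, 1, 0], [2, 0]], [[2, 0, 2, 1, 1, 0], [2, 1, 0, 0, 2, 0]], [[2, 1, 1, 1, 2], [], [2, 1, 0, 1, 2, 1, 1]], [[2, 0]], [[2, 2, 0]], [[2, 1, 0, 0, 2], [], [2, 1, 0, 1, 2, 1, 1]], [[2, 1, 0]], [[2, 2, 1, 0]], [[2, 1, 0, 0], [2, 1, 0]], [[2, 1, 0, 0, 2, 0]], [[2, 1, 1], [2, 1, 0, 1, 1, 0]], [[2, 1, 1, 2, 1], [2, 1, 0, 1, 2, 1, 1]], [[2, 0, 2, 2, 1]], [[2, 0, 2, 1, 1]], [[2, 2, 0, 2, 1]], [[2, 0, 2, 1]], [[2, 1], [2, 1, 0, 1, 1, 0]], [[2, 1, 0, 1, 2, 1, 1]], [[2, 0, 2, 2], [2, 0]], [[2, 1, 0, 2], [2, 1, 0, 0, 2], [], [2, 1, 0, 1, 2, 1, 1]], [[2, 1, 1, 2, 2], [2, 1, 0, 1, 0], [2, 0]], [[], [2, 1, 0, 1, 2, 1, 1]], [[2, 0, 2, 0, 2], [2, 1, 0, 1, 0], [2, 0]], [[2, 2], [], [2, 1, 0, 1, 2, 1, 1]], [[2, 1, 1, 0, 2, 2], [2, 0]], [[2, 1, 0, 1, 2], [2, 1, 1, 1, 2], [], [2, 1, 0, 1, 2, 1, 1]]], [[], [[2, 0]], [[2, 0, 2, 1]], [[1, 0, 1, 1, 0]], [[2, 0, 2, 0], [1, 0, 1, 1, 0]], [[2, 1], [1, 0, 1, 1, 0]], [[1, 0, 1, 0], [0], [2, 0]], [[0, 2, 0], [1, 0, 1, 1, 0]], [[2, 1, 1, 2], [1, 0, 1, 0], [0], [2, 0]], [[0], [2, 0]], [[1, 1, 0], [2, 1, 0], [1, 0]], [[2, 1, 0, 2], [0], [2, 0]], [[2, 1, 0], [1, 0]], [[1, 0]], [[1, 0, 0], [2, 1, 0], [1, 0]], [[1, 0, 0, 2, 0], [2, 0]], [[1, 0, 1], [0, 2, 1, 1], [2, 0, 2, 1]], [[1, 1], [1, 0, 1, 1, 0]], [[0, 2, 1, 1], [2, 0, 2, 1]], [[0, 2, 1, 1, 1], [2, 2, 0, 2, 1], [0, 2, 1]], [[2, 2, 0, 2, 1], [0, 2, 1]], [[0, 2, 1]], [[1], [2, 1], [1, 0, 1, 1, 0]], [[1, 0, 1, 2, 1, 1], [2, 0, 2, 1]], [[2, 0, 2], [0, 2, 2], [0], [2, 0]], [[0, 2, 2], [0], [2, 0]], [[2], [1, 2], [], [1, 0, 1, 2, 1, 1], [2, 0, 2, 1]], [[1, 2], [], [1, 0, 1, 2, 1, 1], [2, 0, 2, 1]], [[], [1, 0, 1, 2, 1, 1], [2, 0, 2, 1]], [[2, 2], [], [1, 0, 1, 2, 1, 1], [2, 0, 2, 1]], [[1, 1, 0, 2], [2, 1, 0, 2], [0], [2, 0]], [[0, 2], [2, 0, 2], [0, 2, 2], [0], [2, 0]]], [[], [], [], [[1, 0, 1, 1, 0]], [[0, 2, 2, 0], [1, 0, 0, 2, 0]], [[1], [1, 0, 1, 2, 1, 1]], [[0, 2, 0], [1, 0, 1, 1, 0]], [[0, 2, 2, 1, 0], [1, 0, 0, 2, 0]], [[0, 2, 0, 2], [], [1, 0, 1, 2, 1, 1]], [[1, 2, 0]], [[0]], [[0, 2, 2], [1, 0, 1, 1, 0, 2], [], [1, 0, 1, 2, 1, 1]], [[1, 2, 1, 0]], [[1, 0]], [[1, 0, 0], [1, 2, 1, 0]], [[1, 0, 0, 2, 0]], [[1, 0, 1], [0, 2, 1, 1]], [[1, 1, 1], [1, 0, 1, 2, 1, 1]], [[0, 2, 1, 1]], [[0, 2, 2, 1]], [[0, 2, 1]], [[1, 0, 2, 2, 1]], [[1, 2, 1], [1, 0, 1, 1, 0]], [[1, 0, 1, 2, 1, 1]], [[1, 0, 2], [1, 2, 0]], [[1, 0, 1, 1, 0, 2], [], [1, 0, 1, 2, 1, 1]], [[1, 1, 1, 2], [0, 2, 0], [1, 0, 1, 1, 0]], [[1, 2, 2], [], [1, 0, 1, 2, 1, 1]], [[1, 1, 2], [0, 2, 0], [1, 0, 1, 1, 0]], [[], [1, 0, 1, 2, 1, 1]], [[1, 1, 0, 2], [1, 2, 0]], [[1, 0, 1, 2], [0, 2, 0, 2], [], [1, 0, 1, 2, 1, 1]]], [[], [], [], [[0, 1, 1, 0]], [[2, 0, 2, 0]], [[2, 0, 2, 1]], [[1, 2, 1, 0]], [[0]], [[0, 1, 2], [], [0, 1, 2, 1, 1]], [[0, 1, 0], [1, 2, 1, 0]], [[1, 1, 0], [0, 0, 2, 0]], [[0, 0, 2], [1, 2, 2], [], [0, 1, 2, 1, 1]], [[0, 0], [2, 0]], [[1, 0], [2, 0, 2, 0]], [[2, 0]], [[0, 0, 2, 0]], [[0, 2, 1]], [[1, 1]], [[0, 1], [0, 2, 1]], [[1, 1, 1], [0, 1, 2, 1, 1]], [[0, 1, 1], [2, 1, 1, 1]], [[1], [2, 0, 2, 1]], [[2, 1, 1, 1]], [[0, 1, 2, 1, 1]], [[0, 2], [1, 2, 1, 0]], [[0, 2, 2], [0, 1, 2], [], [0, 1, 2, 1, 1]], [[2], [0, 1, 0], [1, 2, 1, 0]], [[1, 2, 2], [], [0, 1, 2, 1, 1]], [[1, 2], [0, 1, 0], [1, 2, 1, 0]], [[2, 2], [], [0, 1, 2, 1, 1]], [[2, 2, 0, 2], [1, 2, 1, 0]], [[], [0, 1, 2, 1, 1]]]]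

noncomputable def path (c : Fin 109) (a : Fin 32) : List (List (Fin 3)) :=
  ((pathN.getD c.1 []).getD a.1 []).map fun w => w.map (Fin.ofNat 3)

noncomputable def jnN : List (List ℕ) :=
  [[0, 1, 2, 3, 4, 5, 6], [1, 1, 2, 3, 4, 6, 6], [2, 2, 2, 3, 6, 6, 6], [3, 3, 3, 3, 6, 6, 6], [4, 4, 6, 6, 4, 6, 6], [5, 6, 6, 6, 6, 5, 6], [6, 6, 6, 6, 6, 6, 6]]

noncomputable def jn (s t : Fin 7) : Fin 7 := Fin.ofNat 7 (g2 jnN s.1 t.1)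

set_option maxHeartbeats 0 in
noncomputable def jpathN : List (List (List (List ℕ))) :=
  [[[[], [], [], [], [], [], [], [], [], [], [], [], [], [], [], [], [], [], [], [], [], [], [], [], [], [], [], [], [], [], [], []], [[], [], [], [0], [], [], [], [], [], [6], [4], [], [], [7], [12], [1], [], [], [16], [5], [], [17], [20], [2], [], [], [24], [11], [], [25], [28], [8]], [[], [], [], [0], [1], [2], [0], [1], [], [0], [1], [8], [0], [1], [0], [1], [0], [2], [0], [2], [0], [2], [0], [2], [0], [8], [0], [8], [0], [8], [0], [8]], [[], [], [], [0], [1], [2], [0], [1], [2], [0], [1], [2], [0], [1], [0], [1], [0], [2], [0], [2], [0], [2], [0], [2], [0], [2], [0], [2], [0], [2], [0], [2]], [[], [], [], [0], [], [], [1], [0], [], [1], [4], [], [4], [0], [4], [1], [2],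 [0], [2], [5], [5], [0], [5], [2], [8], [1], [8], [11], [11], [1], [11], [8]], [[], [0], [0], [], [3], [3], [], [6], [6], [], [9], [9], [], [12], [], [14], [], [16], [], [18], [], [20], [], [22], [], [24], [], [26], [], [28], [], [30]], [[], [0], [0], [0], [0], [0], [0], [0], [0], [0], [0], [0], [0], [0], [0], [0], [0], [0], [0], [0], [0], [0], [0], [0], [0], [0], [0], [0], [0], [0], [0], [0]]], [[[], [], [], [0], [], [], [], [], [], [6], [4], [], [], [7], [12], [1], [], [], [16], [5], [], [17], [20], [2], [], [], [24], [11], [], [25], [28], [8]], [[], [], [], [0], [], [], [], [], [], [6], [4], [], [], [7], [12], [1], [], [], [16], [5], [], [17], [20], [2], [], [], [24], [11], [], [25], [28], [8]], [[], [], [], [0], [1], [2], [0], [1], [], [0], [1], [8], [0],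 [1], [0], [1], [0], [2], [0], [2], [0], [2], [0], [2], [0], [8], [0], [8], [0], [8], [0], [8]], [[], [], [], [0], [1], [2], [0], [1], [2], [0], [1], [2], [0], [1], [0], [1], [0], [2], [0], [2], [0], [2], [0], [2], [0], [2], [0], [2], [0], [2], [0], [2]], [[], [], [], [0], [], [], [1], [0], [], [1], [4], [], [4], [0], [4], [1], [2], [0], [2], [5], [5], [0], [5], [2], [8], [1], [8], [11], [11], [1], [11], [8]], [[], [0], [0], [0], [3, 0], [3, 0], [9, 10, 4, 3, 0], [6, 9, 10, 4, 3, 0], [6, 9, 10, 4, 3, 0], [10, 4, 3, 0], [4, 3, 0], [10, 4, 3, 0], [14, 15, 1, 0], [12, 14, 15, 1, 0], [15, 1, 0], [1, 0], [18, 19, 5, 3, 0], [16, 18, 19, 5, 3, 0], [19, 5, 3, 0], [5, 3, 0], [22, 23, 2, 0], [20, 22, 23, 2, 0], [23, 2, 0], [2, 0], [26, 27, 11, 10, 4, 3, 0], [24, 26, 27,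 11, 10, 4, 3, 0], [27, 11, 10, 4, 3, 0], [11, 10, 4, 3, 0], [30, 31, 8, 6, 9, 10, 4, 3, 0], [25, 24, 26, 27, 11, 10, 4, 3, 0], [31, 8, 6, 9, 10, 4, 3, 0], [8, 6, 9, 10, 4, 3, 0]], [[], [0], [0], [0], [0], [0], [0], [0], [0], [0], [0], [0], [0], [0], [0], [0], [0], [0], [0], [0], [0], [0], [0], [0], [0], [0], [0], [0], [0], [0], [0], [0]]], [[[], [], [], [0], [1], [2], [0], [1], [], [0], [1], [8], [0], [1], [0], [1], [0], [2], [0], [2], [0], [2], [0], [2], [0], [8], [0], [8], [0], [8], [0], [8]], [[], [], [], [0], [1], [2], [0], [1], [], [0], [1], [8], [0], [1], [0], [1], [0], [2], [0], [2], [0], [2], [0], [2], [0], [8], [0], [8], [0], [8], [0], [8]], [[], [], [], [0], [1], [2], [0], [1], [], [0], [1], [8], [0], [1], [0], [1], [0], [2], [0], [2], [0], [2], [0],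 [2], [0], [8], [0], [8], [0], [8], [0], [8]], [[], [], [], [0], [1], [2], [0], [1], [2], [0], [1], [2], [0], [1], [0], [1], [0], [2], [0], [2], [0], [2], [0], [2], [0], [2], [0], [2], [0], [2], [0], [2]], [[], [6, 0], [16, 0], [0], [7, 0], [17, 0], [0], [0], [24, 0], [0], [7, 0], [28, 0], [0], [0], [0], [6, 0], [0], [0], [0], [17, 0], [0], [0], [0], [16, 0], [0], [6, 0], [0], [28, 0], [0], [6, 0], [0], [24, 0]], [[], [0], [0], [0], [1, 0], [2, 0], [0], [1, 0], [6, 0], [0], [1, 0], [9, 0], [0], [1, 0], [0], [1, 0], [0], [2, 0], [0], [2, 0], [0], [2, 0], [0], [2, 0], [0], [24, 0], [0], [26, 0], [0], [28, 0], [0], [30, 0]], [[], [0], [0], [0], [0], [0], [0], [0], [0], [0], [0], [0], [0], [0], [0], [0], [0], [0], [0], [0], [0], [0], [0], [0], [0], [0], [0], [0], [0],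 [0], [0], [0]]], [[[], [], [], [0], [1], [2], [0], [1], [2], [0], [1], [2], [0], [1], [0], [1], [0], [2], [0], [2], [0], [2], [0], [2], [0], [2], [0], [2], [0], [2], [0], [2]], [[], [], [], [0], [1], [2], [0], [1], [2], [0], [1], [2], [0], [1], [0], [1], [0], [2], [0], [2], [0], [2], [0], [2], [0], [2], [0], [2], [0], [2], [0], [2]], [[], [], [], [0], [1], [2], [0], [1], [2], [0], [1], [2], [0], [1], [0], [1], [0], [2], [0], [2], [0], [2], [0], [2], [0], [2], [0], [2], [0], [2], [0], [2]], [[], [], [], [0], [1], [2], [0], [1], [2], [0], [1], [2], [0], [1], [0], [1], [0], [2], [0], [2], [0], [2], [0], [2], [0], [2], [0], [2], [0], [2], [0], [2]], [[], [6, 0], [16, 0], [0], [7, 0], [17, 0], [0], [0], [17, 0], [0], [7, 0], [17, 0], [0], [0], [0], [6, 0], [0], [0],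 [0], [17, 0], [0], [0], [0], [16, 0], [0], [6, 0], [0], [17, 0], [0], [6, 0], [0], [17, 0]], [[], [0], [0], [0], [1, 0], [2, 0], [0], [1, 0], [2, 0], [0], [1, 0], [2, 0], [0], [1, 0], [0], [1, 0], [0], [2, 0], [0], [2, 0], [0], [2, 0], [0], [2, 0], [0], [2, 0], [0], [2, 0], [0], [2, 0], [0], [2, 0]], [[], [0], [0], [0], [0], [0], [0], [0], [0], [0], [0], [0], [0], [0], [0], [0], [0], [0], [0], [0], [0], [0], [0], [0], [0], [0], [0], [0], [0], [0], [0], [0]]], [[[], [], [], [0], [], [], [1], [0], [], [1], [4], [], [4], [0], [4], [1], [2], [0], [2], [5], [5], [0], [5], [2], [8], [1], [8], [11], [11], [1], [11], [8]], [[], [], [], [0], [], [], [1], [0], [], [1], [4], [], [4], [0], [4], [1], [2], [0], [2], [5], [5], [0], [5], [2], [8], [1], [8], [11], [11], [1], [11],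 [8]], [[], [6, 0], [16, 0], [0], [7, 0], [17, 0], [0], [0], [24, 0], [0], [7, 0], [28, 0], [0], [0], [0], [6, 0], [0], [0], [0], [17, 0], [0], [0], [0], [16, 0], [0], [6, 0], [0], [28, 0], [0], [6, 0], [0], [24, 0]], [[], [6, 0], [16, 0], [0], [7, 0], [17, 0], [0], [0], [17, 0], [0], [7, 0], [17, 0], [0], [0], [0], [6, 0], [0], [0], [0], [17, 0], [0], [0], [0], [16, 0], [0], [6, 0], [0], [17, 0], [0], [6, 0], [0], [17, 0]], [[], [], [], [0], [], [], [1], [0], [], [1], [4], [], [4], [0], [4], [1], [2], [0], [2], [5], [5], [0], [5], [2], [8], [1], [8], [11], [11], [1], [11], [8]], [[], [0], [0], [0], [3, 0], [3, 0], [1, 0], [0], [7, 0], [1, 0], [4, 3, 0], [9, 1, 0], [13, 0], [0], [4, 3, 0], [1, 0], [2, 0], [0], [2, 0], [5, 3, 0], [21, 0], [0], [5, 3, 0], [2, 0],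 [8, 7, 0], [1, 0], [8, 7, 0], [11, 9, 1, 0], [29, 1, 0], [1, 0], [11, 9, 1, 0], [8, 7, 0]], [[], [0], [0], [0], [0], [0], [0], [0], [0], [0], [0], [0], [0], [0], [0], [0], [0], [0], [0], [0], [0], [0], [0], [0], [0], [0], [0], [0], [0], [0], [0], [0]]], [[[], [0], [0], [], [3], [3], [], [6], [6], [], [9], [9], [], [12], [], [14], [], [16], [], [18], [], [20], [], [22], [], [24], [], [26], [], [28], [], [30]], [[], [0], [0], [0], [3, 0], [3, 0], [9, 10, 4, 3, 0], [6, 9, 10, 4, 3, 0], [6, 9, 10, 4, 3, 0], [10, 4, 3, 0], [4, 3, 0], [10, 4, 3, 0], [14, 15, 1, 0], [12, 14, 15, 1, 0], [15, 1, 0], [1, 0], [18, 19, 5, 3, 0], [16, 18, 19, 5, 3, 0], [19, 5, 3, 0], [5, 3, 0], [22, 23, 2, 0], [20, 22, 23, 2, 0], [23, 2, 0], [2, 0], [26, 27, 11, 10, 4, 3, 0], [24, 26, 27,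 11, 10, 4, 3, 0], [27, 11, 10, 4, 3, 0], [11, 10, 4, 3, 0], [30, 31, 8, 6, 9, 10, 4, 3, 0], [25, 24, 26, 27, 11, 10, 4, 3, 0], [31, 8, 6, 9, 10, 4, 3, 0], [8, 6, 9, 10, 4, 3, 0]], [[], [0], [0], [0], [1, 0], [2, 0], [0], [1, 0], [6, 0], [0], [1, 0], [9, 0], [0], [1, 0], [0], [1, 0], [0], [2, 0], [0], [2, 0], [0], [2, 0], [0], [2, 0], [0], [24, 0], [0], [26, 0], [0], [28, 0], [0], [30, 0]], [[], [0], [0], [0], [1, 0], [2, 0], [0], [1, 0], [2, 0], [0], [1, 0], [2, 0], [0], [1, 0], [0], [1, 0], [0], [2, 0], [0], [2, 0], [0], [2, 0], [0], [2, 0], [0], [2, 0], [0], [2, 0], [0], [2, 0], [0], [2, 0]], [[], [0], [0], [0], [3, 0], [3, 0], [1, 0], [0], [7, 0], [1, 0], [4, 3, 0], [9, 1, 0], [13, 0], [0], [4, 3, 0], [1, 0], [2, 0], [0], [2, 0], [5, 3, 0], [21, 0], [0], [5,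 3, 0], [2, 0], [8, 7, 0], [1, 0], [8, 7, 0], [11, 9, 1, 0], [29, 1, 0], [1, 0], [11, 9, 1, 0], [8, 7, 0]], [[], [0], [0], [], [3], [3], [], [6], [6], [], [9], [9], [], [12], [], [14], [], [16], [], [18], [], [20], [], [22], [], [24], [], [26], [], [28], [], [30]], [[], [0], [0], [0], [0], [0], [0], [0], [0], [0], [0], [0], [0], [0], [0], [0], [0], [0], [0], [0], [0], [0], [0], [0], [0], [0], [0], [0], [0], [0], [0], [0]]], [[[], [0], [0], [0], [0], [0], [0], [0], [0], [0], [0], [0], [0], [0], [0], [0], [0], [0], [0], [0], [0], [0], [0], [0], [0], [0], [0], [0], [0], [0], [0], [0]], [[], [0], [0], [0], [0], [0], [0], [0], [0], [0], [0], [0], [0], [0], [0], [0], [0], [0], [0], [0], [0], [0], [0], [0], [0], [0], [0], [0], [0], [0], [0], [0]], [[], [0], [0], [0],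 [0], [0], [0], [0], [0], [0], [0], [0], [0], [0], [0], [0], [0], [0], [0], [0], [0], [0], [0], [0], [0], [0], [0], [0], [0], [0], [0], [0]], [[], [0], [0], [0], [0], [0], [0], [0], [0], [0], [0], [0], [0], [0], [0], [0], [0], [0], [0], [0], [0], [0], [0], [0], [0], [0], [0], [0], [0], [0], [0], [0]], [[], [0], [0], [0], [0], [0], [0], [0], [0], [0], [0], [0], [0], [0], [0], [0], [0], [0], [0], [0], [0], [0], [0], [0], [0], [0], [0], [0], [0], [0], [0], [0]], [[], [0], [0], [0], [0], [0], [0], [0], [0], [0], [0], [0], [0], [0], [0], [0], [0], [0], [0], [0], [0], [0], [0], [0], [0], [0], [0], [0], [0], [0], [0], [0]], [[], [0], [0], [0], [0], [0], [0], [0], [0], [0], [0], [0], [0], [0], [0], [0], [0], [0], [0], [0], [0], [0], [0], [0], [0], [0], [0], [0], [0], [0],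 [0], [0]]]]

noncomputable def jpath (s t : Fin 7) (a : Fin 32) : List (Fin 32) :=
  (((jpathN.getD s.1 []).getD t.1 []).getD a.1 []).map (Fin.ofNat 32)

theorem hbot : ∀ a, lab 0 a = a := by decide +kernel

theorem h0 : ∀ t a, lab t (lab t a) = lab t a := by decide +kernel

theorem h1 : ∀ t i a, lab t (op i (lab t a)) = lab t (op i a) := by decide +kernel

theorem h2 : ∀ s t, mk7 (bitsOf 23) s t = true ↔ ∀ a, lab t (lab s a) = lab t a := by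
  decide +kernel

theorem h5 : ∀ s t, mk7 (bitsOf 23) s t = true → mk7 (bitsOf 23) t s = true → s = t := by
  decide +kernel

theorem h3a_0 : ∀ u : Fin 32, u.1 / 21 = 0 → ∀ u', u = u' ∨
    Cert.hits op (move u u') u u' (cp (cls u u')).1 (cp (cls u u')).2 = true := by
  decide +kernel

theorem h3a_1 : ∀ u : Fin 32, u.1 / 21 = 1 → ∀ u', u = u' ∨
    Cert.hits op (move u u') u u' (cp (cls u u')).1 (cp (cls u u')).2 = true := by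
  decide +kernel

theorem h3a : ∀ u : Fin 32, ∀ u', u = u' ∨
    Cert.hits op (move u u') u u' (cp (cls u u')).1 (cp (cls u u')).2 = true := by
  intro u
  have hlt : u.1 / 21 < 2 := by
    have := u.2
    omega
  generalize hk : u.1 / 21 = k at hlt
  interval_cases k
  · exact h3a_0 u hk
  · exact h3a_1 u hk

theorem h3b_0 : ∀ c : Fin 109, c.1 / 15 = 0 → ∀ a,
    Cert.walk op (cp c).1 (cp c).2 (path c a) a = lab (typ c) a := by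
  decide +kernel

theorem h3b_1 : ∀ c : Fin 109, c.1 / 15 = 1 → ∀ a,
    Cert.walk op (cp c).1 (cp c).2 (path c a) a = lab (typ c) a := by
  decide +kernel

theorem h3b_2 : ∀ c : Fin 109, c.1 / 15 = 2 → ∀ a,
    Cert.walk op (cp c).1 (cp c).2 (path c a) a = lab (typ c) a := by
  decide +kernel

theorem h3b_3 : ∀ c : Fin 109, c.1 / 15 = 3 → ∀ a,
    Cert.walk op (cp c).1 (cp c).2 (path c a) a = lab (typ c) a := by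
  decide +kernel

theorem h3b_4 : ∀ c : Fin 109, c.1 / 15 = 4 → ∀ a,
    Cert.walk op (cp c).1 (cp c).2 (path c a) a = lab (typ c) a := by
  decide +kernel

theorem h3b_5 : ∀ c : Fin 109, c.1 / 15 = 5 → ∀ a,
    Cert.walk op (cp c).1 (cp c).2 (path c a) a = lab (typ c) a := by
  decide +kernel

theorem h3b_6 : ∀ c : Fin 109, c.1 / 15 = 6 → ∀ a,
    Cert.walk op (cp c).1 (cp c).2 (path c a) a = lab (typ c) a := by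
  decide +kernel

theorem h3b_7 : ∀ c : Fin 109, c.1 / 15 = 7 → ∀ a,
    Cert.walk op (cp c).1 (cp c).2 (path c a) a = lab (typ c) a := by
  decide +kernel

theorem h3b : ∀ c : Fin 109, ∀ a,
    Cert.walk op (cp c).1 (cp c).2 (path c a) a = lab (typ c) a := by
  intro c
  have hlt : c.1 / 15 < 8 := by
    have := c.2
    omega
  generalize hk : c.1 / 15 = k at hlt
  interval_cases k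
  · exact h3b_0 c hk
  · exact h3b_1 c hk
  · exact h3b_2 c hk
  · exact h3b_3 c hk
  · exact h3b_4 c hk
  · exact h3b_5 c hk
  · exact h3b_6 c hk
  · exact h3b_7 c hk

theorem h3c : ∀ u : Fin 32, ∀ u', lab (typ (cls u u')) u = lab (typ (cls u u')) u' := by
  decide +kernel

theorem h4a : ∀ s t, mk7 (bitsOf 23) s (jn s t) = true ∧ mk7 (bitsOf 23) t (jn s t) = true := by
  decide +kernel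

theorem h4b_0 : ∀ s : Fin 7, s.1 / 1 = 0 → ∀ t a,
    Cert.jwalk lab s t (jpath s t a) a = lab (jn s t) a := by
  decide +kernel

theorem h4b_1 : ∀ s : Fin 7, s.1 / 1 = 1 → ∀ t a,
    Cert.jwalk lab s t (jpath s t a) a = lab (jn s t) a := by
  decide +kernel

theorem h4b_2 : ∀ s : Fin 7, s.1 / 1 = 2 → ∀ t a,
    Cert.jwalk lab s t (jpath s t a) a = lab (jn s t) a := by
  decide +kernel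

theorem h4b_3 : ∀ s : Fin 7, s.1 / 1 = 3 → ∀ t a,
    Cert.jwalk lab s t (jpath s t a) a = lab (jn s t) a := by
  decide +kernel

theorem h4b_4 : ∀ s : Fin 7, s.1 / 1 = 4 → ∀ t a,
    Cert.jwalk lab s t (jpath s t a) a = lab (jn s t) a := by
  decide +kernel

theorem h4b_5 : ∀ s : Fin 7, s.1 / 1 = 5 → ∀ t a,
    Cert.jwalk lab s t (jpath s t a) a = lab (jn s t) a := by
  decide +kernel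

theorem h4b_6 : ∀ s : Fin 7, s.1 / 1 = 6 → ∀ t a,
    Cert.jwalk lab s t (jpath s t a) a = lab (jn s t) a := by
  decide +kernel

theorem h4b : ∀ s : Fin 7, ∀ t a,
    Cert.jwalk lab s t (jpath s t a) a = lab (jn s t) a := by
  intro s
  have hlt : s.1 / 1 < 7 := by
    have := s.2
    omega
  generalize hk : s.1 / 1 = k at hlt
  interval_cases k
  · exact h4b_0 s hk
  · exact h4b_1 s hk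
  · exact h4b_2 s hk
  · exact h4b_3 s hk
  · exact h4b_4 s hk
  · exact h4b_5 s hk
  · exact h4b_6 s hk

theorem rep : RepTable 7 (mk7 (bitsOf 23)) :=
  Cert.repTable_of_cert (by decide) _ op lab 0 cls cp move typ path jn jpath
    hbot h0 h1 h2 h5 h3a h3b h3c h4a h4b

end Vale.Agent.P183.Data.L09
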