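import Vale.Agent.P183.Cert
import Vale.Agent.P183.Mk7

/-!
# Certificates for seven element lattices, part 2
-/

namespace Vale.Agent.P183.Data.L03

noncomputable def g1 (l : List ℕ) (i : ℕ) : ℕ := l.getD i 0

noncomputable def g2 (l : List (List ℕ)) (i j : ℕ) : ℕ := (l.getD i []).getD j 0

noncomputable def opD : ℕ := 73952806169243136721396924547093289635429941232311335723818255310734423027430136019933732928928816926147027429764972743375851077123631265560142185068951100657316600677838205796176289015626941292877644543730527015481879212412299937634397675813149673952643290731232805447503839211134624319075043028514023022020210325906339670051135643705695261422115276101633891714839742728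

noncomputable def op (i : Fin 5) (x : Fin 32) : Fin 32 :=
  Fin.ofNat 32 ((opD >>> (8 * (32 * i.1 + x.1))) &&& 255)

noncomputable def labD : ℕ := 28393109596898191703584618698495933824071116773708925576712957174097045111765313284455781824188902257019473278135288667186918602645376306627217791970529400457353827423539942385826853935560542952800749735689509111908738063267439082103879021998213207794884580807363646223823422928543022959298732994197489490411107183613437765472238257949681878087468998985638596205350376459689555894665410907449934178754367931582177163049978970854759967597040327459210919072104704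

noncomputable def lab (t : Fin 7) (x : Fin 32) : Fin 32 :=
  Fin.ofNat 32 ((labD >>> (8 * (32 * t.1 + x.1))) &&& 255)

noncomputable def clsR : List ℕ :=
  [2722766784279168993858003073222990018685870998137324950325084205324622168064, 2272213854160109599271395282652039867075562803944102866873785786672267526144, 3634445957949446839772653892039104705443392130600888725618353739780195353089, 3180359387410102641318094131366588390164862276259861073376944059828232257794, 3630898406618750503904032764174305937941345305054310614884723475987709362689, 4084971227375492624424803619909708560892343688359012390680422497355944820994, 1814607339064012092761399075904794492577190415165726533669920923632837657089, 1364068266146092277938830907532018586684135258094569715049678581569698267394, 3630912264243601041763113878330626299955778604704602193897752130614399927299, 4084985084999520422559619160837917927432566116143171970291556994526285792004, 2722766729936387453740152541255958333947540892724966677355159774112723961349,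 2272227657019290378641849946111293423528696607519633577348961897484726306054, 3634432100959751369194287314111360532105301472573813387118997144761973409799, 3180345530631028540249792517872999318312442349497614358831718857225592637704, 1814607392771638565598535071643249988612483873486942348983035438606362019849, 1364054462441957801501862316638144735515180892126783819394924264620783306504, 3634459815573474637858234257646326343903284858676695464935804836060236153859, 3180387048526820806655160100216145272779090946632007006685865152902966280964, 3630926175152367094314864264304429644828722432073342680131262961871376025609, 4084998941989215893088750563416040566003300353156392900298791792813193561864, 2722739015534931033690562636766947405111721892459029106820320693115385480709, 2272186139124320851616508492468918648912083086312592568395985223012938417414, 1814593481650605663940010159454453448373606527328949065791098740045957629959, 1364040605451439591075862777819058204834007330711078877194521525971411405064,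 906406374894987369027915418359032986542803725668942823336197523027253462019, 455853498485198326017184696368437967071317015373334516161368146614434661124, 906406374683954629704469437788822667064731729171118603180947989349852710919, 455853498379064901611253745420487246342976721739675061066179293991003228424, 906392544442350340853466523942424635714710990469332016951511614584240015369, 455846542818959820595131732090807523539249774471919497714687927637569308424, 13830663679428006218902201527385859905074109717582729670959224171595269, 6955772376788378477332961969713341549001710781073037141758490077299974]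

noncomputable def cls (u v : Fin 32) : Fin 10 :=
  Fin.ofNat 10 ((g1 clsR u.1 >>> (8 * v.1)) &&& 255)

noncomputable def cpA : List ℕ :=
  [0, 0, 0, 0, 0, 0, 0, 0, 0, 0]

noncomputable def cpB : List ℕ :=
  [1, 2, 3, 8, 9, 10, 11, 12, 13, 14]

noncomputable def cp (c : Fin 10) : Fin 32 × Fin 32 :=
  (Fin.ofNat 32 (g1 cpA c.1), Fin.ofNat 32 (g1 cpB c.1))

noncomputable def moveR : List ℕ :=
  [43510866047098151190743834206785079482362851492140885123223397213628643538829231105756944307942501434913954274276432587340876591565578251504695546756783121302600373831242819306455011688449, 391597792800703401929004071730306593479923678575231256718413681899337506920714823295198442140119840627006727330319408759227838771429697729501475411530347459030297321140570454230338204860417, 24792468063020021320772607369789051556741151226498287974949778572756577707140656532028680480536903489419709833294151336482881395027085545448672472124525785297136505437483281584403713404960769, 3137133428992301697675688174626725806688309706091955558047630485203004119534455476505802364453191009156183062603997836454097953770387153299246693344086156004370356730512550422352656654663681,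 2580194345897967970487771272612872147326549260864046603965989808935748285724234590345053688590871986721592537280574859756481078818684253657734916144642447564430823337807128454169071518220370, 24857736361908870849999534043402415193869973705051126726939697336745280730744744669741564315100776531209621034310411299811697864188794565171794383992462203865368727564099531574424607845777490, 321980407413911686030534524132536807201654601864955468804719261826557596485603210305244858281593607521229968031349486325982191461430923339372672344841996888671763355191808048158450863046666, 3106675258551462968915023654838056945047913285815495640840087267755304371131248519604081851846856051378555008172745912811036977976042091858676751643483047264926098546729743891818178584510474, 2854312800858460351838194103455455573352943403688693057600131176381085277234357440293716122662300102494521977706470487371514534866581589031316722565249651265354440881782693341898988272484353, 2889140257661258689637477322307504584111843280697730032189036910849130201209202585882041643267735258600732761037504695521601139353312796076352231278860792144599818174813483713502003327926273,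 22869311099561078672653837788961906587682272808036019469140212836485476562371439534113043478030420286692017300831515199834273616576477655690322574187601905242783422397790630212104993654177793, 23147780641108245534051350108722916027368231349606417161955222230704974345371271858228979144780727687315621939921386089923684802569564465334585667256550571093154110001727473801466799031582721, 200785069863469391285472037094174032935286317844372838430090824864566068994793042569872310977548086021522555747271148276592271677409068235544274111531101394208454865517962834128783411962183681, 20711172152570535479800659793657815202384939140164780723408181260186181043577953517463740730732564309294805173480476522292810825093872027194137287120986229917049652698903657142424117862989825, 22625650250833212691861416846021356571854945960547463729128429628486079888327574474946367437054002555912661931762656763530379425766272359005614883354828839193495091196465835712720042154000385, 165724049385896432373924187438230708620188581096398630197486630243754762062081453469508456850241689956132863939981060147017044743764309694778816261327166709087429948710583949349920175067014736,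 185190792010420565823836625847141927993955535546311169182866060783458393574823458804020703193046257036572480662875631742711735148644449293547441587799718324198068447119970522324935283601047634, 184973392972705589138852595274909462125135800723509924268429811453446687594592609129842422861664668731043024870078221889092518161543271328276534352385836970422496880918806428597214259365019730, 178851414146439372522388847230299473484973809708140145171639150825835617934532600720895167047997513947172556570270645187290623861721523623805225591091701190770773686614579126899851448862900306, 185190945178664802027355381501260163115978931111634042582297769396291531326885699938326522723653460026735731500660243845652898577846250318003684872881154996118280394708667516281113612133601433, 185190945177483099772732215569837340110600409392753090448161413446736819474897644303997855793381267044710294214596511168746959607914375776069803672346146616666504015457506230814907464999239762, 185190945178666356114384512649613573321856212844926251374431104891107677815908700710628621786487274057156471665770318684089584391656149798487220490695194906148982535907581155616580813424951378,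 185190945177481548516454171165429297097472090192673285540708638061752557832585419829823137914624447370525898336895089090381861567897173531160977301156137898547561050006091677237727358491820114, 185190945178666352157098089078818053860983287358351554818489458180459503976506737319147194740028915528091984869940251278954209817919673911243276845720644009108931118157801232277050083750445138, 287171714722795227235066798597311526927343141764606064686842888924298785343413956210304741237631537145970333807507442088870100370369187374059706660399617049892013452265663503916130457616394, 3071866599068208369133430746768183277113958788268144024779200398438945589387177268623655110847964779879212345952460046378042423705972034439571239817220875266931878508379026893732969357246474, 22351531795728580092428574943891431853323500614543349870961243877432559405166482518056823687417213122400144071442904793081864477624683093880198920165762952874191932329872697954897625550422026, 147902015723181361760524707285893865807050330528525702740684443923294993988287307382221117816410719200094197297485812489206149167136347950225169813304674926466557018909104326374937898254336010,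 185190945177319303573373496054508599470151372531694860371268026037756916723399639276563053823569135234523171035142719658360425352238914563391779976257170061569261526568296985145550842716225546, 185190945177318915759673838229741884144504562873120727848618445150239614826596106313828560384867515772900178045784329224874379371658428597326778527427049372669987685475667971810830588481417745, 417703918282795404643886550340781864613834938724749153304752686170535190938492747649352732723594649513360970719517334672821259900426609824450788064944248481104713155744808479106634350592010, 4351480959079754035272593572401029212027222324049734601265948989889734727569529416522306744275308038848624949573780566485944745411392913539816225653628961513347963413696861241073209442314]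

noncomputable def dec : ℕ → ℕ → List (Fin 5)
  | 0, _ => []
  | f + 1, p => if p ≤ 1 then [] else Fin.ofNat 5 (p % 8) :: dec f (p / 8)

noncomputable def move (u v : Fin 32) : List (Fin 5) :=
  dec 7 ((g1 moveR u.1 >>> (20 * v.1)) &&& 1048575)

noncomputable def typN : List ℕ :=
  [1, 2, 2, 3, 3, 4, 4, 5, 6, 6]

noncomputable def typ (c : Fin 10) : Fin 7 := Fin.ofNat 7 (g1 typN c.1)

set_option maxHeartbeats 0 in
noncomputable def pathN : List (List (List (List ℕ))) :=
  [[[], [[]], [], [[1]], [], [[1, 2]], [], [[1, 2, 1]], [], [[0]], [], [[0, 1]], [], [[1, 2, 0]], [], [[1, 2, 0, 1]], [], [[0, 2]], [], [[0, 2, 1]], [], [[0, 1, 2]], [], [[0, 1, 2, 1]], [], [[0, 2, 0]], [], [[0, 2, 0, 1]], [], [[0, 1, 2, 0]], [], [[0, 1, 2, 2]]], [[], [[4]], [[]], [[3], [4]], [[2]], [[3, 2], [4]], [[2, 2]], [[2, 3], [4]], [], [[4, 0]], [[0]], [[0, 3], [4, 0]], [[2, 0]], [[3, 2, 0], [4, 0]], [[2, 2, 0]], [[2, 0, 3], [4, 0]], [], [[4, 0, 2]], [[2, 2, 0, 2]], [[2, 0, 3, 2], [4, 0, 2]], [[0, 2]],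 [[0, 3, 2], [4, 0, 2]], [[2, 0, 2]], [[0, 2, 0, 3], [4, 0, 2]], [], [[4, 0, 2, 0]], [[2, 0, 2, 2]], [[0, 2, 0, 3, 2], [4, 0, 2, 0]], [[0, 2, 0]], [[0, 3, 2, 0], [4, 0, 2, 0]], [[0, 2, 2]], [[0, 2, 3], [4, 0, 2, 0]]], [[], [[4]], [[1], [4]], [[]], [[1, 2], [4]], [[2]], [[2, 3], [4]], [[2, 2]], [], [[4, 0]], [[0, 1], [4, 0]], [[0]], [[1, 2, 0], [4, 0]], [[2, 0]], [[2, 0, 3], [4, 0]], [[2, 2, 0]], [], [[4, 0, 2]], [[0, 2, 1], [2, 0, 2]], [[2, 2, 0, 2]], [[0, 1, 2], [4, 0, 2]], [[0, 2]], [[0, 1, 2, 1], [2, 2, 0, 2]], [[2, 0, 2]], [], [[4, 0, 2, 0]], [[0, 2, 0, 1], [0, 2, 2]], [[2, 0, 2, 2]], [[0, 1, 2, 0], [4, 0, 2, 0]], [[0, 2, 0]], [[0, 2, 3], [4, 0, 2, 0]], [[0, 2, 2]]], [[], [[4]], [], [[4, 1]], [], [[4, 1, 2]], [], [[4, 1, 2, 1]], [[]], [[3], [4]], [[1]], [[1, 3], [4, 1]], [[2, 2, 1, 2]], [[2, 1, 3, 2], [4, 1, 2]], [[2, 1, 2, 2]], [[1, 2, 1, 3, 2], [4, 1, 2, 1]], [[2]], [[3, 2], [4]], [[2, 1]], [[3, 2, 1], [4, 1]], [[1, 2]], [[1, 3, 2], [4, 1, 2]], [[1, 2, 1]], [[1, 3, 2,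 1], [4, 1, 2, 1]], [[2, 2]], [[2, 3], [4]], [[2, 2, 1]], [[2, 1, 3], [4, 1]], [[2, 1, 2]], [[1, 2, 1, 3], [4, 1, 2]], [[1, 2, 2]], [[1, 2, 3], [4, 1, 2, 1]]], [[], [[4]], [], [[4, 1]], [], [[4, 1, 2]], [], [[4, 1, 2, 1]], [[0], [4]], [[]], [[0, 1], [4, 1]], [[1]], [[1, 2, 0], [2, 1, 2]], [[2, 2, 1, 2]], [[1, 2, 0, 1], [1, 2, 2]], [[2, 1, 2, 2]], [[0, 2], [4]], [[2]], [[0, 2, 1], [4, 1]], [[2, 1]], [[0, 1, 2], [4, 1, 2]], [[1, 2]], [[0, 1, 2, 1], [4, 1, 2, 1]], [[1, 2, 1]], [[2, 3], [4]], [[2, 2]], [[2, 1, 3], [4, 1]], [[2, 2, 1]], [[0, 1, 2, 0], [2, 2, 1, 2]], [[2, 1, 2]], [[1, 2, 3], [4, 1, 2, 1]], [[1, 2, 2]]], [[], [[4]], [], [[4, 1]], [], [[4, 1, 2]], [], [[4, 1, 2, 1]], [[0]], [[0, 3], [4, 1]], [[]], [[3], [4]], [[2, 1, 2, 2]], [[4, 1, 2, 0], [2, 1, 2, 2]], [[2, 2, 1, 2]], [[2, 1, 3, 2], [4, 1, 2]], [[0, 2]], [[0, 3, 2], [4, 1, 2]], [[0, 2, 1]], [[0, 3, 2, 1], [4, 1, 2, 1]], [[2]], [[3, 2], [4]], [[2, 1]], [[3, 2, 1], [4, 1]], [[0, 2, 2]], [[0, 2, 3], [4, 1, 2, 1]], [[2,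 1, 2]], [[0, 2, 1, 3], [4, 1, 2]], [[2, 2, 1]], [[2, 1, 3], [4, 1]], [[2, 2]], [[2, 3], [4]]], [[], [[4]], [], [[4, 1]], [], [[4, 1, 2]], [], [[4, 1, 2, 1]], [[0], [4, 1]], [[1]], [[3], [4]], [[]], [[1, 2, 0], [0, 2, 3]], [[2, 1, 2, 2]], [[0, 2, 0, 3], [1, 2]], [[2, 2, 1, 2]], [[0, 2], [4, 1, 2]], [[1, 2]], [[0, 2, 1], [4, 1, 2, 1]], [[1, 2, 1]], [[3, 2], [4]], [[2]], [[2, 0, 3], [1]], [[2, 1]], [[0, 2, 0], [2, 1, 2, 2]], [[0, 2, 3]], [[0, 2, 0, 1], [2, 2, 1, 2]], [[2, 1, 2]], [[2, 1, 3], [4, 1]], [[2, 2, 1]], [[2, 3], [4]], [[2, 2]]], [[], [], [], [], [], [], [], [], [[0]], [[0, 3]], [[0, 1]], [[0, 1, 3]], [[]], [[1, 3]], [[1]], [[3]], [[0, 2]], [[0, 3, 2]], [[1, 2]], [[3, 2]], [[2, 1]], [[0, 1, 3, 2]], [[2]], [[1, 3, 2]], [[0, 2, 2]], [[0, 2, 3]], [[2, 2]], [[1, 2, 3]], [[1, 2, 2]], [[2, 3]], [[2, 1, 2]], [[2, 1, 3]]], [[], [[4]], [[1], [0, 1, 2, 1, 3, 2]], [[1, 3], [1, 2, 0], [2, 2]], [[1, 2], [0, 3, 2, 1]], [[0], [2, 2, 0], [0, 3, 2, 1]], [[1, 2, 2], [0, 1, 2, 1, 3]], [[0,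 1], [2, 0, 1], [0, 1, 2, 1, 3]], [[2, 2, 0], [0, 3, 2, 1]], [[0, 3], [1, 2, 2], [0, 1, 2, 1, 3]], [[2, 0, 1], [0, 1, 2, 1, 3]], [[0, 1, 3], [1, 2], [0, 3, 2, 1]], [[1, 2, 0], [2, 2]], [[]], [[3], [4]], [[0, 1, 2, 1, 3, 2]], [[2, 2, 0, 2], [0, 1, 2, 1, 3]], [[0, 3, 2], [1], [0, 1, 2, 1, 3, 2]], [[3, 2], [4]], [[0, 3, 2, 1]], [[2, 0, 1, 2], [0, 1, 2, 1, 3, 2]], [[2, 1], [1], [0, 1, 2, 1, 3, 2]], [[0, 1, 2, 1], [4]], [[2]], [[0, 2, 0], [0, 1, 2, 1, 3, 2]], [[0, 2, 3], [1, 2], [0, 3, 2, 1]], [[0, 2, 0, 1], []], [[2, 2]], [[2, 3], [4]], [[0, 1, 2, 1, 3]], [[1, 3, 2, 0], []], [[2, 0], [2, 2, 0], [0, 3, 2, 1]]], [[], [[4]], [[1], [4, 1, 2, 0], [3], [4]], [[1, 3], [4, 1, 2, 0, 1], []], [[1, 2], [4, 0, 1, 2, 1], [3, 2], [4]], [[1, 3, 2], [4, 0, 2, 1], [2]], [[1, 2, 2], [4, 0, 2, 0, 1], [2, 3], [4]], [[1, 2, 3], [4, 0, 1, 2, 0], [2, 2]], [[2, 0], [4, 0, 2, 0, 1], [2, 3], [4]], [[2, 0, 3], [4, 0, 2, 1], [2]], [[4, 0, 1], [3, 2, 0, 1], [4, 0, 1, 2, 0], [2, 2]], [[3, 2, 0, 1], [4, 0, 1,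 2, 0], [2, 2]], [[4, 1, 2, 0], [3], [4]], [[3], [4]], [[]], [[4, 1, 2, 0, 1], []], [[2, 0, 2], [4, 1, 2, 0], [3], [4]], [[2, 0, 3, 2], [4, 0, 1, 2, 0], [2, 2]], [[2]], [[4, 0, 2, 1], [2]], [[4, 0, 1, 2], [1, 2, 0, 3], [4, 1, 2, 0, 1], []], [[1, 2, 0, 3], [4, 1, 2, 0, 1], []], [[4, 0, 1, 2, 1], [3, 2], [4]], [[3, 2], [4]], [[2, 0, 2, 2], [4, 0, 1, 2, 1], [3, 2], [4]], [[0, 3, 2, 0], [4, 1, 2, 0, 1], []], [[4, 0, 2, 0, 1], [2, 3], [4]], [[2, 3], [4]], [[2, 2]], [[4, 0, 1, 2, 0], [2, 2]], [[1, 2, 0], [4, 1, 2, 0], [3], [4]], [[1, 2, 0, 3, 2], [4, 0, 2, 1], [2]]]]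

noncomputable def path (c : Fin 10) (a : Fin 32) : List (List (Fin 5)) :=
  ((pathN.getD c.1 []).getD a.1 []).map fun w => w.map (Fin.ofNat 5)

noncomputable def jnN : List (List ℕ) :=
  [[0, 1, 2, 3, 4, 5, 6], [1, 1, 2, 3, 4, 6, 6], [2, 2, 2, 6, 6, 6, 6], [3, 3, 6, 3, 6, 6, 6], [4, 4, 6, 6, 4, 6, 6], [5, 6, 6, 6, 6, 5, 6], [6, 6, 6, 6, 6, 6, 6]]

noncomputable def jn (s t : Fin 7) : Fin 7 := Fin.ofNat 7 (g2 jnN s.1 t.1)

set_option maxHeartbeats 0 in
noncomputable def jpathN : List (List (List (List ℕ))) :=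
  [[[[], [], [], [], [], [], [], [], [], [], [], [], [], [], [], [], [], [], [], [], [], [], [], [], [], [], [], [], [], [], [], []], [[], [0], [], [2], [], [4], [], [6], [], [8], [], [10], [], [12], [], [14], [], [16], [], [18], [], [20], [], [22], [], [24], [], [26], [], [28], [], [30]], [[], [0], [0], [0], [0], [0], [0], [0], [], [8], [8], [8], [8], [8], [8], [8], [], [16], [16], [16], [16], [16], [16], [16], [], [24], [24], [24], [24], [24], [24], [24]], [[], [0], [], [2], [], [4], [], [6], [0], [0], [2], [2], [4], [4], [6], [6], [0], [0], [2], [2], [4], [4], [6], [6], [0], [0], [2], [2], [4], [4], [6], [6]], [[], [0], [], [2], [], [4], [], [6], [2], [2], [0], [0], [6], [6], [4], [4], [4], [4], [6], [6], [0], [0], [2], [2], [6], [6], [4], [4], [2], [2], [0], [0]], [[], [], [], [], [], [], [], [], [4], [7], [6], [5], [0], [3], [2], [1], [6], [3], [4], [1], [2], [7], [0], [5], [2], [5], [0], [7], [6], [1], [4], [3]], [[], [0], [0], [0], [0], [0], [0], [0], [0], [0], [0],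 [0], [0], [0], [0], [0], [0], [0], [0], [0], [0], [0], [0], [0], [0], [0], [0], [0], [0], [0], [0], [0]]], [[[], [0], [], [2], [], [4], [], [6], [], [8], [], [10], [], [12], [], [14], [], [16], [], [18], [], [20], [], [22], [], [24], [], [26], [], [28], [], [30]], [[], [0], [], [2], [], [4], [], [6], [], [8], [], [10], [], [12], [], [14], [], [16], [], [18], [], [20], [], [22], [], [24], [], [26], [], [28], [], [30]], [[], [0], [0], [0], [0], [0], [0], [0], [], [8], [8], [8], [8], [8], [8], [8], [], [16], [16], [16], [16], [16], [16], [16], [], [24], [24], [24], [24], [24], [24], [24]], [[], [0], [], [2], [], [4], [], [6], [0], [0], [2], [2], [4], [4], [6], [6], [0], [0], [2], [2], [4], [4], [6], [6], [0], [0], [2], [2], [4], [4], [6], [6]], [[], [0], [], [2], [], [4], [], [6], [2], [2], [0], [0], [6], [6], [4], [4], [4], [4], [6], [6], [0], [0], [2], [2], [6], [6], [4], [4], [2], [2], [0], [0]], [[], [0], [3, 13, 12, 0], [13, 12, 0], [5, 23, 22, 0], [23, 22, 0], [7, 27, 26,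 0], [27, 26, 0], [9, 27, 26, 0], [27, 26, 0], [11, 23, 22, 0], [23, 22, 0], [0], [12, 0], [15, 1, 0], [1, 0], [17, 13, 12, 0], [13, 12, 0], [19, 1, 0], [1, 0], [14, 15, 1, 0], [27, 26, 0], [0], [22, 0], [14, 15, 1, 0], [23, 22, 0], [0], [26, 0], [29, 1, 0], [1, 0], [18, 19, 1, 0], [13, 12, 0]], [[], [0], [0], [0], [0], [0], [0], [0], [0], [0], [0], [0], [0], [0], [0], [0], [0], [0], [0], [0], [0], [0], [0], [0], [0], [0], [0], [0], [0], [0], [0], [0]]], [[[], [0], [0], [0], [0], [0], [0], [0], [], [8], [8], [8], [8], [8], [8], [8], [], [16], [16], [16], [16], [16], [16], [16], [], [24], [24], [24], [24], [24], [24], [24]], [[], [0], [0], [0], [0], [0], [0], [0], [], [8], [8], [8], [8], [8], [8], [8], [], [16], [16], [16], [16], [16], [16], [16], [], [24], [24], [24], [24], [24], [24], [24]], [[], [0], [0], [0], [0], [0], [0], [0], [], [8], [8], [8], [8], [8], [8], [8], [], [16], [16], [16], [16], [16], [16], [16], [], [24], [24], [24], [24], [24], [24], [24]], [[], [0], [0],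 [0], [0], [0], [0], [0], [0], [0], [2, 0], [2, 0], [4, 0], [4, 0], [6, 0], [6, 0], [0], [0], [2, 0], [2, 0], [4, 0], [4, 0], [6, 0], [6, 0], [0], [0], [2, 0], [2, 0], [4, 0], [4, 0], [6, 0], [6, 0]], [[], [0], [0], [0], [0], [0], [0], [0], [2, 0], [2, 0], [0], [0], [6, 0], [6, 0], [4, 0], [4, 0], [4, 0], [4, 0], [6, 0], [6, 0], [0], [0], [2, 0], [2, 0], [6, 0], [6, 0], [4, 0], [4, 0], [2, 0], [2, 0], [0], [0]], [[], [0], [0], [0], [0], [0], [0], [0], [4, 0], [7, 0], [6, 0], [5, 0], [0], [3, 0], [2, 0], [1, 0], [6, 0], [3, 0], [4, 0], [1, 0], [2, 0], [7, 0], [0], [5, 0], [2, 0], [5, 0], [0], [7, 0], [6, 0], [1, 0], [4, 0], [3, 0]], [[], [0], [0], [0], [0], [0], [0], [0], [0], [0], [0], [0], [0], [0], [0], [0], [0], [0], [0], [0], [0], [0], [0], [0], [0], [0], [0], [0], [0], [0], [0], [0]]], [[[], [0], [], [2], [], [4], [], [6], [0], [0], [2], [2], [4], [4], [6], [6], [0], [0], [2], [2], [4], [4], [6], [6], [0], [0], [2], [2], [4], [4], [6], [6]], [[], [0], [], [2], [], [4],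 [], [6], [0], [0], [2], [2], [4], [4], [6], [6], [0], [0], [2], [2], [4], [4], [6], [6], [0], [0], [2], [2], [4], [4], [6], [6]], [[], [0], [0], [0], [0], [0], [0], [0], [0], [0], [2, 0], [2, 0], [4, 0], [4, 0], [6, 0], [6, 0], [0], [0], [2, 0], [2, 0], [4, 0], [4, 0], [6, 0], [6, 0], [0], [0], [2, 0], [2, 0], [4, 0], [4, 0], [6, 0], [6, 0]], [[], [0], [], [2], [], [4], [], [6], [0], [0], [2], [2], [4], [4], [6], [6], [0], [0], [2], [2], [4], [4], [6], [6], [0], [0], [2], [2], [4], [4], [6], [6]], [[], [0], [8, 0], [8, 0], [16, 0], [16, 0], [24, 0], [24, 0], [0], [0], [0], [0], [20, 0], [20, 0], [16, 0], [16, 0], [0], [0], [10, 0], [10, 0], [0], [0], [8, 0], [8, 0], [0], [0], [10, 0], [10, 0], [8, 0], [8, 0], [0], [0]], [[], [0], [24, 0], [17, 0], [8, 0], [12, 0], [16, 0], [9, 0], [0], [0], [16, 0], [25, 0], [0], [12, 0], [22, 0], [1, 0], [0], [0], [8, 0], [1, 0], [12, 0], [9, 0], [0], [22, 0], [0], [0], [0], [9, 0], [12, 0], [1, 0], [8, 0], [17, 0]], [[], [0], [0], [0], [0],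 [0], [0], [0], [0], [0], [0], [0], [0], [0], [0], [0], [0], [0], [0], [0], [0], [0], [0], [0], [0], [0], [0], [0], [0], [0], [0], [0]]], [[[], [0], [], [2], [], [4], [], [6], [2], [2], [0], [0], [6], [6], [4], [4], [4], [4], [6], [6], [0], [0], [2], [2], [6], [6], [4], [4], [2], [2], [0], [0]], [[], [0], [], [2], [], [4], [], [6], [2], [2], [0], [0], [6], [6], [4], [4], [4], [4], [6], [6], [0], [0], [2], [2], [6], [6], [4], [4], [2], [2], [0], [0]], [[], [0], [0], [0], [0], [0], [0], [0], [2, 0], [2, 0], [0], [0], [6, 0], [6, 0], [4, 0], [4, 0], [4, 0], [4, 0], [6, 0], [6, 0], [0], [0], [2, 0], [2, 0], [6, 0], [6, 0], [4, 0], [4, 0], [2, 0], [2, 0], [0], [0]], [[], [0], [8, 0], [8, 0], [16, 0], [16, 0], [24, 0], [24, 0], [0], [0], [0], [0], [20, 0], [20, 0], [16, 0], [16, 0], [0], [0], [10, 0], [10, 0], [0], [0], [8, 0], [8, 0], [0], [0], [10, 0], [10, 0], [8, 0], [8, 0], [0], [0]], [[], [0], [], [2], [], [4], [], [6], [2], [2], [0], [0], [6], [6], [4], [4], [4], [4], [6],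 [6], [0], [0], [2], [2], [6], [6], [4], [4], [2], [2], [0], [0]], [[], [0], [20, 0], [22, 0], [26, 0], [11, 0], [10, 0], [12, 0], [22, 0], [21, 0], [0], [0], [0], [12, 0], [20, 0], [1, 0], [10, 0], [26, 0], [12, 0], [1, 0], [0], [0], [0], [11, 0], [12, 0], [11, 0], [0], [21, 0], [10, 0], [1, 0], [0], [0]], [[], [0], [0], [0], [0], [0], [0], [0], [0], [0], [0], [0], [0], [0], [0], [0], [0], [0], [0], [0], [0], [0], [0], [0], [0], [0], [0], [0], [0], [0], [0], [0]]], [[[], [], [], [], [], [], [], [], [4], [7], [6], [5], [0], [3], [2], [1], [6], [3], [4], [1], [2], [7], [0], [5], [2], [5], [0], [7], [6], [1], [4], [3]], [[], [0], [3, 13, 12, 0], [13, 12, 0], [5, 23, 22, 0], [23, 22, 0], [7, 27, 26, 0], [27, 26, 0], [9, 27, 26, 0], [27, 26, 0], [11, 23, 22, 0], [23, 22, 0], [0], [12, 0], [15, 1, 0], [1, 0], [17, 13, 12, 0], [13, 12, 0], [19, 1, 0], [1, 0], [14, 15, 1, 0], [27, 26, 0], [0], [22, 0], [14, 15, 1, 0], [23, 22, 0], [0], [26, 0], [29, 1, 0], [1, 0], [18, 19, 1, 0], [13,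 12, 0]], [[], [0], [0], [0], [0], [0], [0], [0], [4, 0], [7, 0], [6, 0], [5, 0], [0], [3, 0], [2, 0], [1, 0], [6, 0], [3, 0], [4, 0], [1, 0], [2, 0], [7, 0], [0], [5, 0], [2, 0], [5, 0], [0], [7, 0], [6, 0], [1, 0], [4, 0], [3, 0]], [[], [0], [24, 0], [17, 0], [8, 0], [12, 0], [16, 0], [9, 0], [0], [0], [16, 0], [25, 0], [0], [12, 0], [22, 0], [1, 0], [0], [0], [8, 0], [1, 0], [12, 0], [9, 0], [0], [22, 0], [0], [0], [0], [9, 0], [12, 0], [1, 0], [8, 0], [17, 0]], [[], [0], [20, 0], [22, 0], [26, 0], [11, 0], [10, 0], [12, 0], [22, 0], [21, 0], [0], [0], [0], [12, 0], [20, 0], [1, 0], [10, 0], [26, 0], [12, 0], [1, 0], [0], [0], [0], [11, 0], [12, 0], [11, 0], [0], [21, 0], [10, 0], [1, 0], [0], [0]], [[], [], [], [], [], [], [], [], [4], [7], [6], [5], [0], [3], [2], [1], [6], [3], [4], [1], [2], [7], [0], [5], [2], [5], [0], [7], [6], [1], [4], [3]], [[], [0], [0], [0], [0], [0], [0], [0], [0], [0], [0], [0], [0], [0], [0], [0], [0], [0], [0], [0], [0], [0], [0], [0], [0],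 [0], [0], [0], [0], [0], [0], [0]]], [[[], [0], [0], [0], [0], [0], [0], [0], [0], [0], [0], [0], [0], [0], [0], [0], [0], [0], [0], [0], [0], [0], [0], [0], [0], [0], [0], [0], [0], [0], [0], [0]], [[], [0], [0], [0], [0], [0], [0], [0], [0], [0], [0], [0], [0], [0], [0], [0], [0], [0], [0], [0], [0], [0], [0], [0], [0], [0], [0], [0], [0], [0], [0], [0]], [[], [0], [0], [0], [0], [0], [0], [0], [0], [0], [0], [0], [0], [0], [0], [0], [0], [0], [0], [0], [0], [0], [0], [0], [0], [0], [0], [0], [0], [0], [0], [0]], [[], [0], [0], [0], [0], [0], [0], [0], [0], [0], [0], [0], [0], [0], [0], [0], [0], [0], [0], [0], [0], [0], [0], [0], [0], [0], [0], [0], [0], [0], [0], [0]], [[], [0], [0], [0], [0], [0], [0], [0], [0], [0], [0], [0], [0], [0], [0], [0], [0], [0], [0], [0], [0], [0], [0], [0], [0], [0], [0], [0], [0], [0], [0], [0]], [[], [0], [0], [0], [0], [0], [0], [0], [0], [0], [0], [0], [0], [0], [0], [0], [0], [0], [0], [0], [0], [0], [0], [0], [0], [0], [0], [0], [0],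 [0], [0], [0]], [[], [0], [0], [0], [0], [0], [0], [0], [0], [0], [0], [0], [0], [0], [0], [0], [0], [0], [0], [0], [0], [0], [0], [0], [0], [0], [0], [0], [0], [0], [0], [0]]]]

noncomputable def jpath (s t : Fin 7) (a : Fin 32) : List (Fin 32) :=
  (((jpathN.getD s.1 []).getD t.1 []).getD a.1 []).map (Fin.ofNat 32)

theorem hbot : ∀ a, lab 0 a = a := by decide +kernel

theorem h0 : ∀ t a, lab t (lab t a) = lab t a := by decide +kernel

theorem h1 : ∀ t i a, lab t (op i (lab t a)) = lab t (op i a) := by decide +kernel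

theorem h2 : ∀ s t, mk7 (bitsOf 7) s t = true ↔ ∀ a, lab t (lab s a) = lab t a := by
  decide +kernel

theorem h5 : ∀ s t, mk7 (bitsOf 7) s t = true → mk7 (bitsOf 7) t s = true → s = t := by
  decide +kernel

theorem h3a_0 : ∀ u : Fin 32, u.1 / 21 = 0 → ∀ u', u = u' ∨
    Cert.hits op (move u u') u u' (cp (cls u u')).1 (cp (cls u u')).2 = true := by
  decide +kernel

theorem h3a_1 : ∀ u : Fin 32, u.1 / 21 = 1 → ∀ u', u = u' ∨
    Cert.hits op (move u u') u u' (cp (cls u u')).1 (cp (cls u u')).2 = true := by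
  decide +kernel

theorem h3a : ∀ u : Fin 32, ∀ u', u = u' ∨
    Cert.hits op (move u u') u u' (cp (cls u u')).1 (cp (cls u u')).2 = true := by
  intro u
  have hlt : u.1 / 21 < 2 := by
    have := u.2
    omega
  generalize hk : u.1 / 21 = k at hlt
  interval_cases k
  · exact h3a_0 u hk
  · exact h3a_1 u hk

theorem h3b : ∀ c : Fin 10, ∀ a,
    Cert.walk op (cp c).1 (cp c).2 (path c a) a = lab (typ c) a := by
  decide +kernel

theorem h3c : ∀ u : Fin 32, ∀ u', lab (typ (cls u u')) u = lab (typ (cls u u')) u' := by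
  decide +kernel

theorem h4a : ∀ s t, mk7 (bitsOf 7) s (jn s t) = true ∧ mk7 (bitsOf 7) t (jn s t) = true := by
  decide +kernel

theorem h4b_0 : ∀ s : Fin 7, s.1 / 1 = 0 → ∀ t a,
    Cert.jwalk lab s t (jpath s t a) a = lab (jn s t) a := by
  decide +kernel

theorem h4b_1 : ∀ s : Fin 7, s.1 / 1 = 1 → ∀ t a,
    Cert.jwalk lab s t (jpath s t a) a = lab (jn s t) a := by
  decide +kernel

theorem h4b_2 : ∀ s : Fin 7, s.1 / 1 = 2 → ∀ t a,
    Cert.jwalk lab s t (jpath s t a) a = lab (jn s t) a := by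
  decide +kernel

theorem h4b_3 : ∀ s : Fin 7, s.1 / 1 = 3 → ∀ t a,
    Cert.jwalk lab s t (jpath s t a) a = lab (jn s t) a := by
  decide +kernel

theorem h4b_4 : ∀ s : Fin 7, s.1 / 1 = 4 → ∀ t a,
    Cert.jwalk lab s t (jpath s t a) a = lab (jn s t) a := by
  decide +kernel

theorem h4b_5 : ∀ s : Fin 7, s.1 / 1 = 5 → ∀ t a,
    Cert.jwalk lab s t (jpath s t a) a = lab (jn s t) a := by
  decide +kernel

theorem h4b_6 : ∀ s : Fin 7, s.1 / 1 = 6 → ∀ t a,
    Cert.jwalk lab s t (jpath s t a) a = lab (jn s t) a := by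
  decide +kernel

theorem h4b : ∀ s : Fin 7, ∀ t a,
    Cert.jwalk lab s t (jpath s t a) a = lab (jn s t) a := by
  intro s
  have hlt : s.1 / 1 < 7 := by
    have := s.2
    omega
  generalize hk : s.1 / 1 = k at hlt
  interval_cases k
  · exact h4b_0 s hk
  · exact h4b_1 s hk
  · exact h4b_2 s hk
  · exact h4b_3 s hk
  · exact h4b_4 s hk
  · exact h4b_5 s hk
  · exact h4b_6 s hk

theorem rep : RepTable 7 (mk7 (bitsOf 7)) :=
  Cert.repTable_of_cert (by decide) _ op lab 0 cls cp move typ path jn jpath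
    hbot h0 h1 h2 h5 h3a h3b h3c h4a h4b

end Vale.Agent.P183.Data.L03

namespace Vale.Agent.P183.Data.L16

noncomputable def g1 (l : List ℕ) (i : ℕ) : ℕ := l.getD i 0

noncomputable def g2 (l : List (List ℕ)) (i j : ℕ) : ℕ := (l.getD i []).getD j 0

noncomputable def opD : ℕ := 60927385428517258447421666492675

noncomputable def op (i : Fin 3) (x : Fin 5) : Fin 5 :=
  Fin.ofNat 5 ((opD >>> (8 * (5 * i.1 + x.1))) &&& 255)

noncomputable def labD : ℕ := 13803703318164464880804873004808608856687676951378962005937460734984448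

noncomputable def lab (t : Fin 7) (x : Fin 5) : Fin 5 :=
  Fin.ofNat 5 ((labD >>> (8 * (5 * t.1 + x.1))) &&& 255)

noncomputable def clsR : List ℕ :=
  [12918521856, 21475098624, 30165435393, 34360131586, 134677763]

noncomputable def cls (u v : Fin 5) : Fin 9 :=
  Fin.ofNat 9 ((g1 clsR u.1 >>> (8 * v.1)) &&& 255)

noncomputable def cpA : List ℕ :=
  [0, 0, 0, 0, 1, 1, 2, 2, 3]

noncomputable def cpB : List ℕ :=
  [1, 2, 3, 4, 2, 4, 3, 4, 4]

noncomputable def cp (c : Fin 9) : Fin 5 × Fin 5 :=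
  (Fin.ofNat 5 (g1 cpA c.1), Fin.ofNat 5 (g1 cpB c.1))

noncomputable def moveR : List ℕ :=
  [1082401, 1344545, 1082401, 1082657, 1082401]

noncomputable def dec : ℕ → ℕ → List (Fin 3)
  | 0, _ => []
  | f + 1, p => if p ≤ 1 then [] else Fin.ofNat 3 (p % 8) :: dec f (p / 8)

noncomputable def move (u v : Fin 5) : List (Fin 3) :=
  dec 2 ((g1 moveR u.1 >>> (5 * v.1)) &&& 31)

noncomputable def typN : List ℕ :=
  [2, 3, 1, 4, 3, 4, 3, 5, 4]

noncomputable def typ (c : Fin 9) : Fin 7 := Fin.ofNat 7 (g1 typN c.1)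

set_option maxHeartbeats 0 in
noncomputable def pathN : List (List (List (List ℕ))) :=
  [[[], [[]], [], [[2]], []], [[], [[2]], [[]], [[0]], []], [[], [], [], [[]], []], [[], [[1]], [], [[1, 2]], [[]]], [[], [[0]], [[], [0]], [[0, 2]], []], [[], [[0, 1]], [], [[2]], [[], [0, 1]]], [[], [[2, 1]], [[], [0]], [[0]], []], [[], [[1]], [], [[0]], [[]]], [[], [[1]], [], [[2]], [[], [2]]]]

noncomputable def path (c : Fin 9) (a : Fin 5) : List (List (Fin 3)) :=
  ((pathN.getD c.1 []).getD a.1 []).map fun w => w.map (Fin.ofNat 3)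

noncomputable def jnN : List (List ℕ) :=
  [[0, 1, 2, 3, 4, 5, 6], [1, 1, 2, 3, 4, 5, 6], [2, 2, 2, 3, 4, 5, 6], [3, 3, 3, 3, 6, 6, 6], [4, 4, 4, 6, 4, 6, 6], [5, 5, 5, 6, 6, 5, 6], [6, 6, 6, 6, 6, 6, 6]]

noncomputable def jn (s t : Fin 7) : Fin 7 := Fin.ofNat 7 (g2 jnN s.1 t.1)

set_option maxHeartbeats 0 in
noncomputable def jpathN : List (List (List (List ℕ))) :=
  [[[[], [], [], [], []], [[], [], [], [0], []], [[], [0], [], [0], []], [[], [0], [0], [0], []], [[], [0], [], [0], [0]], [[], [0], [], [0], [2]], [[], [0], [0], [0], [0]]], [[[], [], [], [0], []], [[], [], [], [0], []], [[], [0], [], [0], []], [[], [0], [0], [0], []], [[], [0], [], [0], [0]], [[], [0], [], [0], [2]], [[], [0], [0], [0], [0]]], [[[], [0], [], [0], []], [[], [0], [], [0], []], [[], [0], [], [0], []], [[], [0], [0], [0], []], [[], [0], [], [0], [0]], [[], [0], [], [0], [2]], [[], [0], [0], [0], [0]]], [[[], [0], [0], [0], []], [[], [0], [0], [0], []], [[], [0], [0], [0], []], [[], [0], [0], [0],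 []], [[], [0], [0], [0], [0]], [[], [0], [0], [0], [2, 0]], [[], [0], [0], [0], [0]]], [[[], [0], [], [0], [0]], [[], [0], [], [0], [0]], [[], [0], [], [0], [0]], [[], [0], [0], [0], [0]], [[], [0], [], [0], [0]], [[], [0], [4, 0], [0], [0]], [[], [0], [0], [0], [0]]], [[[], [0], [], [0], [2]], [[], [0], [], [0], [2]], [[], [0], [], [0], [2]], [[], [0], [0], [0], [2, 0]], [[], [0], [4, 0], [0], [0]], [[], [0], [], [0], [2]], [[], [0], [0], [0], [0]]], [[[], [0], [0], [0], [0]], [[], [0], [0], [0], [0]], [[], [0], [0], [0], [0]], [[], [0], [0], [0], [0]], [[], [0], [0], [0], [0]], [[], [0], [0], [0], [0]], [[], [0], [0], [0], [0]]]]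

noncomputable def jpath (s t : Fin 7) (a : Fin 5) : List (Fin 5) :=
  (((jpathN.getD s.1 []).getD t.1 []).getD a.1 []).map (Fin.ofNat 5)

theorem hbot : ∀ a, lab 0 a = a := by decide +kernel

theorem h0 : ∀ t a, lab t (lab t a) = lab t a := by decide +kernel

theorem h1 : ∀ t i a, lab t (op i (lab t a)) = lab t (op i a) := by decide +kernel

theorem h2 : ∀ s t, mk7 (bitsOf 127) s t = true ↔ ∀ a, lab t (lab s a) = lab t a := by
  decide +kernel

theorem h5 : ∀ s t, mk7 (bitsOf 127) s t = true → mk7 (bitsOf 127) t s = true → s = t := by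
  decide +kernel

theorem h3a : ∀ u : Fin 5, ∀ u', u = u' ∨
    Cert.hits op (move u u') u u' (cp (cls u u')).1 (cp (cls u u')).2 = true := by
  decide +kernel

theorem h3b : ∀ c : Fin 9, ∀ a,
    Cert.walk op (cp c).1 (cp c).2 (path c a) a = lab (typ c) a := by
  decide +kernel

theorem h3c : ∀ u : Fin 5, ∀ u', lab (typ (cls u u')) u = lab (typ (cls u u')) u' := by
  decide +kernel

theorem h4a : ∀ s t, mk7 (bitsOf 127) s (jn s t) = true ∧ mk7 (bitsOf 127) t (jn s t) = true := by
  decide +kernel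

theorem h4b : ∀ s : Fin 7, ∀ t a,
    Cert.jwalk lab s t (jpath s t a) a = lab (jn s t) a := by
  decide +kernel

theorem rep : RepTable 7 (mk7 (bitsOf 127)) :=
  Cert.repTable_of_cert (by decide) _ op lab 0 cls cp move typ path jn jpath
    hbot h0 h1 h2 h5 h3a h3b h3c h4a h4b

end Vale.Agent.P183.Data.L16

namespace Vale.Agent.P183.Data.L18

noncomputable def g1 (l : List ℕ) (i : ℕ) : ℕ := l.getD i 0

noncomputable def g2 (l : List (List ℕ)) (i j : ℕ) : ℕ := (l.getD i []).getD j 0

noncomputable def opD : ℕ := 1606938141918025571816251355159787514445940969268965789927176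

noncomputable def op (i : Fin 3) (x : Fin 9) : Fin 9 :=
  Fin.ofNat 9 ((opD >>> (8 * (9 * i.1 + x.1))) &&& 255)

noncomputable def labD : ℕ := 338463268649740576456893663060069096097008138439434514136784285325427572209029023576041261099288777854385572514071425782513920

noncomputable def lab (t : Fin 7) (x : Fin 9) : Fin 9 :=
  Fin.ofNat 9 ((labD >>> (8 * (9 * t.1 + x.1))) &&& 255)

noncomputable def clsR : List ℕ :=
  [74148393476388093952, 166670626804149387264, 55629310333747725825, 166670062750372659458, 55558656803123430659, 55556686478269678595, 74435495775101453572, 2536586361440517, 1129211477821700]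

noncomputable def cls (u v : Fin 9) : Fin 10 :=
  Fin.ofNat 10 ((g1 clsR u.1 >>> (8 * v.1)) &&& 255)

noncomputable def cpA : List ℕ :=
  [0, 0, 0, 0, 0, 0, 1, 2, 4, 6]

noncomputable def cpB : List ℕ :=
  [1, 2, 3, 5, 6, 7, 2, 3, 6, 7]

noncomputable def cp (c : Fin 10) : Fin 9 × Fin 9 :=
  (Fin.ofNat 9 (g1 cpA c.1), Fin.ofNat 9 (g1 cpB c.1))

noncomputable def moveR : List ℕ :=
  [184539781249236009217, 148152676421485003009, 189081952844020515073, 148153239439067398657, 1481504425895567311440, 1481506386362241780225, 147646300459247470593, 184539868110776174593, 19169660118564997130]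

noncomputable def dec : ℕ → ℕ → List (Fin 3)
  | 0, _ => []
  | f + 1, p => if p ≤ 1 then [] else Fin.ofNat 3 (p % 8) :: dec f (p / 8)

noncomputable def move (u v : Fin 9) : List (Fin 3) :=
  dec 3 ((g1 moveR u.1 >>> (8 * v.1)) &&& 255)

noncomputable def typN : List ℕ :=
  [1, 3, 4, 6, 5, 6, 4, 2, 4, 6]

noncomputable def typ (c : Fin 10) : Fin 7 := Fin.ofNat 7 (g1 typN c.1)

set_option maxHeartbeats 0 in
noncomputable def pathN : List (List (List (List ℕ))) :=
  [[[], [[]], [], [], [], [[0, 1]], [], [], [[0]]], [[], [], [[]], [[1]], [], [], [[2]], [], []], [[], [[0, 2]], [[2, 0]], [[]], [], [[0, 1]], [[2], [0, 1]], [], [[0]]], [[], [[1], []], [[0], [2, 0]], [[0, 1], []], [[1, 0, 1], [0, 1], []], [[]], [[2]], [[1, 0], [0], [2, 0]], [[2, 0]]], [[], [], [], [], [[1, 0, 1]], [[1]], [[]], [[1, 0]], [[0]]], [[], [[2], [0, 0]], [[1, 0], []], [[1, 0, 1], [1], [2], [0, 0]], [[1], [2], [0, 0]], [[2, 1], [2], [0, 0]], [[0, 0]], [[]], [[0, 0, 0]]], [[], [[0, 2]], [[2, 0]], [[1], [0,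 2]], [], [[0, 1]], [[2], [0, 1]], [], [[0]]], [[], [[0, 2]], [], [[]], [], [[0, 1]], [], [], [[0]]], [[], [[2]], [[0]], [[0, 1], [2]], [], [[1]], [[]], [], [[2, 0]]], [[], [[2]], [[0, 1, 0], [], [0]], [[0, 1, 0, 1], [1], [0, 1], [2]], [[1], [0, 1], [2]], [[0, 1], [2]], [[0]], [[], [0]], [[0, 0]]]]

noncomputable def path (c : Fin 10) (a : Fin 9) : List (List (Fin 3)) :=
  ((pathN.getD c.1 []).getD a.1 []).map fun w => w.map (Fin.ofNat 3)

noncomputable def jnN : List (List ℕ) :=
  [[0, 1, 2, 3, 4, 5, 6], [1, 1, 2, 4, 4, 6, 6], [2, 2, 2, 4, 4, 6, 6], [3, 4, 4, 3, 4, 6, 6], [4, 4, 4, 4, 4, 6, 6], [5, 6, 6, 6, 6, 5, 6], [6, 6, 6, 6, 6, 6, 6]]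

noncomputable def jn (s t : Fin 7) : Fin 7 := Fin.ofNat 7 (g2 jnN s.1 t.1)

set_option maxHeartbeats 0 in
noncomputable def jpathN : List (List (List (List ℕ))) :=
  [[[[], [], [], [], [], [], [], [], []], [[], [0], [], [], [], [4], [], [], [7]], [[], [0], [], [2], [], [4], [], [], [7]], [[], [], [0], [1], [], [], [5], [], []], [[], [0], [0], [0], [], [4], [4], [], [7]], [[], [], [], [], [3], [1], [0], [2], [0]], [[], [0], [0], [0], [0], [0], [0], [0], [0]]], [[[], [0], [], [], [], [4], [], [], [7]], [[], [0], [], [], [], [4], [], [], [7]], [[], [0], [], [2], [], [4], [], [], [7]], [[], [0], [0], [1, 0], [], [4], [5, 4], [], [7]], [[], [0], [0], [0], [], [4], [4], [], [7]], [[], [0], [7, 8, 0], [4, 5, 1, 0], [5, 1, 0], [1, 0], [0], [8, 0], [0]], [[], [0], [0], [0], [0], [0], [0], [0], [0]]], [[[], [0], [], [2], [], [4], [], [], [7]], [[], [0], [], [2], [], [4], [], [], [7]], [[], [0], [], [2], [], [4], [], [], [7]], [[], [0], [0], [1, 0], [], [4], [5, 4], [], [7]], [[], [0],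 [0], [0], [], [4], [4], [], [7]], [[], [0], [7, 8, 0], [2, 7, 8, 0], [5, 1, 0], [1, 0], [0], [8, 0], [0]], [[], [0], [0], [0], [0], [0], [0], [0], [0]]], [[[], [], [0], [1], [], [], [5], [], []], [[], [0], [0], [1, 0], [], [4], [5, 4], [], [7]], [[], [0], [0], [1, 0], [], [4], [5, 4], [], [7]], [[], [], [0], [1], [], [], [5], [], []], [[], [0], [0], [0], [], [4], [4], [], [7]], [[], [5, 6, 0], [0], [1, 5, 6, 0], [3, 1, 5, 6, 0], [6, 0], [0], [2, 0], [0]], [[], [0], [0], [0], [0], [0], [0], [0], [0]]], [[[], [0], [0], [0], [], [4], [4], [], [7]], [[], [0], [0], [0], [], [4], [4], [], [7]], [[], [0], [0], [0], [], [4], [4], [], [7]], [[], [0], [0], [0], [], [4], [4], [], [7]], [[], [0], [0], [0], [], [4], [4], [], [7]], [[], [0], [0], [0], [3, 0], [1, 0], [0], [2, 0], [0]], [[], [0], [0], [0], [0], [0], [0], [0], [0]]], [[[], [], [], [], [3], [1], [0], [2], [0]], [[], [0], [7, 8, 0], [4, 5, 1, 0], [5, 1, 0], [1, 0], [0], [8, 0], [0]], [[], [0], [7, 8, 0], [2, 7, 8, 0], [5, 1,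 0], [1, 0], [0], [8, 0], [0]], [[], [5, 6, 0], [0], [1, 5, 6, 0], [3, 1, 5, 6, 0], [6, 0], [0], [2, 0], [0]], [[], [0], [0], [0], [3, 0], [1, 0], [0], [2, 0], [0]], [[], [], [], [], [3], [1], [0], [2], [0]], [[], [0], [0], [0], [0], [0], [0], [0], [0]]], [[[], [0], [0], [0], [0], [0], [0], [0], [0]], [[], [0], [0], [0], [0], [0], [0], [0], [0]], [[], [0], [0], [0], [0], [0], [0], [0], [0]], [[], [0], [0], [0], [0], [0], [0], [0], [0]], [[], [0], [0], [0], [0], [0], [0], [0], [0]], [[], [0], [0], [0], [0], [0], [0], [0], [0]], [[], [0], [0], [0], [0], [0], [0], [0], [0]]]]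

noncomputable def jpath (s t : Fin 7) (a : Fin 9) : List (Fin 9) :=
  (((jpathN.getD s.1 []).getD t.1 []).getD a.1 []).map (Fin.ofNat 9)

theorem hbot : ∀ a, lab 0 a = a := by decide +kernel

theorem h0 : ∀ t a, lab t (lab t a) = lab t a := by decide +kernel

theorem h1 : ∀ t i a, lab t (op i (lab t a)) = lab t (op i a) := by decide +kernel

theorem h2 : ∀ s t, mk7 (bitsOf 165) s t = true ↔ ∀ a, lab t (lab s a) = lab t a := by
  decide +kernel

theorem h5 : ∀ s t, mk7 (bitsOf 165) s t = true → mk7 (bitsOf 165) t s = true → s = t := by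
  decide +kernel

theorem h3a : ∀ u : Fin 9, ∀ u', u = u' ∨
    Cert.hits op (move u u') u u' (cp (cls u u')).1 (cp (cls u u')).2 = true := by
  decide +kernel

theorem h3b : ∀ c : Fin 10, ∀ a,
    Cert.walk op (cp c).1 (cp c).2 (path c a) a = lab (typ c) a := by
  decide +kernel

theorem h3c : ∀ u : Fin 9, ∀ u', lab (typ (cls u u')) u = lab (typ (cls u u')) u' := by
  decide +kernel

theorem h4a : ∀ s t, mk7 (bitsOf 165) s (jn s t) = true ∧ mk7 (bitsOf 165) t (jn s t) = true := by
  decide +kernel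

theorem h4b : ∀ s : Fin 7, ∀ t a,
    Cert.jwalk lab s t (jpath s t a) a = lab (jn s t) a := by
  decide +kernel

theorem rep : RepTable 7 (mk7 (bitsOf 165)) :=
  Cert.repTable_of_cert (by decide) _ op lab 0 cls cp move typ path jn jpath
    hbot h0 h1 h2 h5 h3a h3b h3c h4a h4b

end Vale.Agent.P183.Data.L18

namespace Vale.Agent.P183.Data.L21

noncomputable def g1 (l : List ℕ) (i : ℕ) : ℕ := l.getD i 0

noncomputable def g2 (l : List (List ℕ)) (i j : ℕ) : ℕ := (l.getD i []).getD j 0

noncomputable def opD : ℕ := 144679246181368323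

noncomputable def op (i : Fin 2) (x : Fin 4) : Fin 4 :=
  Fin.ofNat 4 ((opD >>> (8 * (4 * i.1 + x.1))) &&& 255)

noncomputable def labD : ℕ := 24616083769577583610824345904220796313131213854787895552

noncomputable def lab (t : Fin 7) (x : Fin 4) : Fin 4 :=
  Fin.ofNat 4 ((labD >>> (8 * (4 * t.1 + x.1))) &&& 255)

noncomputable def clsR : List ℕ :=
  [33619968, 50528256, 67109633, 262914]

noncomputable def cls (u v : Fin 4) : Fin 5 :=
  Fin.ofNat 5 ((g1 clsR u.1 >>> (8 * v.1)) &&& 255)

noncomputable def cpA : List ℕ :=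
  [0, 0, 0, 1, 2]

noncomputable def cpB : List ℕ :=
  [1, 2, 3, 2, 3]

noncomputable def cp (c : Fin 5) : Fin 4 × Fin 4 :=
  (Fin.ofNat 4 (g1 cpA c.1), Fin.ofNat 4 (g1 cpB c.1))

noncomputable def moveR : List ℕ :=
  [33825, 295969, 33825, 34081]

noncomputable def dec : ℕ → ℕ → List (Fin 2)
  | 0, _ => []
  | f + 1, p => if p ≤ 1 then [] else Fin.ofNat 2 (p % 8) :: dec f (p / 8)

noncomputable def move (u v : Fin 4) : List (Fin 2) :=
  dec 2 ((g1 moveR u.1 >>> (5 * v.1)) &&& 31)

noncomputable def typN : List ℕ :=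
  [6, 2, 3, 5, 1]

noncomputable def typ (c : Fin 5) : Fin 7 := Fin.ofNat 7 (g1 typN c.1)

set_option maxHeartbeats 0 in
noncomputable def pathN : List (List (List (List ℕ))) :=
  [[[], [[]], [[1], []], [[0], [1], []]], [[], [], [[]], []], [[], [], [], [[]]], [[], [], [[]], [[0], []]], [[], [], [], [[]]]]

noncomputable def path (c : Fin 5) (a : Fin 4) : List (List (Fin 2)) :=
  ((pathN.getD c.1 []).getD a.1 []).map fun w => w.map (Fin.ofNat 2)

noncomputable def jnN : List (List ℕ) :=
  [[0, 1, 2, 3, 4, 5, 6], [1, 1, 4, 4, 4, 5, 6], [2, 4, 2, 4, 4, 6, 6], [3, 4, 4, 3, 4, 6, 6], [4, 4, 4, 4, 4, 6, 6], [5, 5, 6, 6, 6, 5, 6], [6, 6, 6, 6, 6, 6, 6]]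

noncomputable def jn (s t : Fin 7) : Fin 7 := Fin.ofNat 7 (g2 jnN s.1 t.1)

set_option maxHeartbeats 0 in
noncomputable def jpathN : List (List (List (List ℕ))) :=
  [[[[], [], [], []], [[], [], [], [2]], [[], [], [0], []], [[], [], [], [0]], [[], [], [0], [0]], [[], [], [1], [1]], [[], [0], [0], [0]]], [[[], [], [], [2]], [[], [], [], [2]], [[], [], [0], [2, 0]], [[], [], [3, 0], [0]], [[], [], [0], [0]], [[], [], [1], [1]], [[], [0], [0], [0]]], [[[], [], [0], []], [[], [], [0], [2, 0]], [[], [], [0], []], [[], [], [0], [0]], [[], [], [0], [0]], [[], [2, 0], [0], [2, 0]], [[], [0], [0], [0]]], [[[], [], [], [0]], [[], [], [3, 0], [0]], [[], [], [0], [0]], [[], [], [], [0]], [[], [], [0], [0]], [[], [3, 0], [3, 0], [0]], [[], [0], [0], [0]]], [[[], [], [0], [0]], [[], [], [0], [0]], [[], [], [0], [0]], [[], [], [0], [0]], [[], [], [0], [0]], [[], [2, 0], [0], [0]], [[], [0], [0], [0]]], [[[], [], [1], [1]], [[], [], [1], [1]], [[], [2, 0], [0], [2, 0]], [[], [3, 0], [3, 0],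 [0]], [[], [2, 0], [0], [0]], [[], [], [1], [1]], [[], [0], [0], [0]]], [[[], [0], [0], [0]], [[], [0], [0], [0]], [[], [0], [0], [0]], [[], [0], [0], [0]], [[], [0], [0], [0]], [[], [0], [0], [0]], [[], [0], [0], [0]]]]

noncomputable def jpath (s t : Fin 7) (a : Fin 4) : List (Fin 4) :=
  (((jpathN.getD s.1 []).getD t.1 []).getD a.1 []).map (Fin.ofNat 4)

theorem hbot : ∀ a, lab 0 a = a := by decide +kernel

theorem h0 : ∀ t a, lab t (lab t a) = lab t a := by decide +kernel

theorem h1 : ∀ t i a, lab t (op i (lab t a)) = lab t (op i a) := by decide +kernel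

theorem h2 : ∀ s t, mk7 (bitsOf 172) s t = true ↔ ∀ a, lab t (lab s a) = lab t a := by
  decide +kernel

theorem h5 : ∀ s t, mk7 (bitsOf 172) s t = true → mk7 (bitsOf 172) t s = true → s = t := by
  decide +kernel

theorem h3a : ∀ u : Fin 4, ∀ u', u = u' ∨
    Cert.hits op (move u u') u u' (cp (cls u u')).1 (cp (cls u u')).2 = true := by
  decide +kernel

theorem h3b : ∀ c : Fin 5, ∀ a,
    Cert.walk op (cp c).1 (cp c).2 (path c a) a = lab (typ c) a := by
  decide +kernel

theorem h3c : ∀ u : Fin 4, ∀ u', lab (typ (cls u u')) u = lab (typ (cls u u')) u' := by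
  decide +kernel

theorem h4a : ∀ s t, mk7 (bitsOf 172) s (jn s t) = true ∧ mk7 (bitsOf 172) t (jn s t) = true := by
  decide +kernel

theorem h4b : ∀ s : Fin 7, ∀ t a,
    Cert.jwalk lab s t (jpath s t a) a = lab (jn s t) a := by
  decide +kernel

theorem rep : RepTable 7 (mk7 (bitsOf 172)) :=
  Cert.repTable_of_cert (by decide) _ op lab 0 cls cp move typ path jn jpath
    hbot h0 h1 h2 h5 h3a h3b h3c h4a h4b

end Vale.Agent.P183.Data.L21

namespace Vale.Agent.P183.Data.L22

noncomputable def g1 (l : List ℕ) (i : ℕ) : ℕ := l.getD i 0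

noncomputable def g2 (l : List (List ℕ)) (i j : ℕ) : ℕ := (l.getD i []).getD j 0

noncomputable def opD : ℕ := 19510401161457602430580250421644305688787329708307831598241477242702809527928475353344

noncomputable def op (i : Fin 3) (x : Fin 12) : Fin 12 :=
  Fin.ofNat 12 ((opD >>> (8 * (12 * i.1 + x.1))) &&& 255)

noncomputable def labD : ℕ := 1932313160391727734316436693836819591427590360975183986050694319517704806398352863497066140450974015684629682781278432292989341100275936989327811911642391066535822568325376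

noncomputable def lab (t : Fin 7) (x : Fin 12) : Fin 12 :=
  Fin.ofNat 12 ((labD >>> (8 * (12 * t.1 + x.1))) &&& 255)

noncomputable def clsR : List ℕ :=
  [2483166745827817983567790080, 1554692845345438715103805440, 1869037189085254936980095489, 3108176727830843590456180994, 1862973632976703921118906115, 1866595761784265114724467460, 3416452811758824257609140229, 3102127412540039783258981894, 620178946040462078355244035, 311902861822554462940037895, 2785374552006984563270747654, 10885092360181467767506184]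

noncomputable def cls (u v : Fin 12) : Fin 12 :=
  Fin.ofNat 12 ((g1 clsR u.1 >>> (8 * v.1)) &&& 255)

noncomputable def cpA : List ℕ :=
  [0, 0, 0, 0, 0, 0, 0, 0, 0, 2, 2, 2]

noncomputable def cpB : List ℕ :=
  [1, 2, 3, 4, 5, 6, 7, 9, 11, 3, 6, 7]

noncomputable def cp (c : Fin 12) : Fin 12 × Fin 12 :=
  (Fin.ofNat 12 (g1 cpA c.1), Fin.ofNat 12 (g1 cpB c.1))

noncomputable def moveR : List ℕ :=
  [2668841221897717793121956001377945601, 215440130671186204500968374190919911425, 21279377506348082051388949208966006785, 215346947577031015154406981802829973505, 194162093094116328930349358617511217153, 21280675580564076463592651057149267969, 194162093725456223362474864543495522305, 196736174875742344231859253973394524161, 23937792296798739949312441608080214025, 196821801504672296730133166284410619905, 23927448904201907264686077135152121864, 2670185565370296591421988878449543169]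

noncomputable def dec : ℕ → ℕ → List (Fin 3)
  | 0, _ => []
  | f + 1, p => if p ≤ 1 then [] else Fin.ofNat 3 (p % 8) :: dec f (p / 8)

noncomputable def move (u v : Fin 12) : List (Fin 3) :=
  dec 4 ((g1 moveR u.1 >>> (11 * v.1)) &&& 2047)

noncomputable def typN : List ℕ :=
  [1, 3, 4, 6, 6, 6, 5, 6, 6, 2, 6, 6]

noncomputable def typ (c : Fin 12) : Fin 7 := Fin.ofNat 7 (g1 typN c.1)

set_option maxHeartbeats 0 in
noncomputable def pathN : List (List (List (List ℕ))) :=
  [[[], [[]], [], [], [], [[1]], [], [], [], [[1, 1]], [], []], [[], [], [[]], [[1, 2]], [], [], [[1]], [[2]], [], [], [[1, 1]], [[2, 1]]], [[], [[0]], [[1, 2], [0]], [[]], [], [[0, 1]], [[2], [0, 1]], [[1]], [], [[0, 1, 1]], [[2, 1], [0, 1, 1]], [[1, 1]]], [[], [[0]], [[1, 0, 2], []], [[1, 1, 0, 1, 1], [1, 1]], [[]], [[2], [0]], [[1, 0, 2, 1], [1, 1]], [[1, 1, 0]], [[1, 1]], [[1, 2], [0]], [[1, 0, 1, 2]], [[1, 1, 0, 1], []]], [[], [[1, 0, 0]], [[1, 0, 1, 0, 2], []], [[1, 0, 1, 0, 1, 1], [1, 1], [1, 0, 0]],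 [[1, 0, 0, 1], []], [[]], [[1, 0, 2, 1], [1, 1], [1, 0, 0]], [[1, 0, 1, 0]], [[1, 1], [1, 0, 0]], [[1], [1, 0, 0, 1], []], [[1, 0, 1, 2]], [[1, 0, 1], []]], [[], [[0]], [[1, 1], [1, 0, 2, 1], []], [[1, 0, 1, 1], [2, 1], [1, 1, 0]], [[1], [1, 0, 1, 2]], [[0, 1], [1], [1, 0, 1, 2]], [[]], [[1, 1, 0]], [[1, 0, 2, 1], []], [[2, 1], [1, 1, 0]], [[1, 0, 1, 2]], [[1, 2], [0]]], [[], [[1, 0, 0]], [], [], [[1, 0, 2]], [[2]], [[2, 1], [1, 0, 1, 1]], [[]], [[1, 1]], [[1, 0, 1, 1]], [[1, 0, 1, 2]], [[1], [1, 0, 2]]], [[], [[0, 1, 0, 0]], [[0, 1, 0, 2], [1], [0, 1, 0, 0]], [[0, 1, 0, 1, 1], []], [[1], [0, 1, 0, 0]], [[2], [0, 1, 0, 0, 1, 1], []], [[0, 2, 1], []], [[0]], [[0, 1, 0, 0, 1, 1], []], [[]], [[0, 1, 0, 1, 2]], [[0, 1], [1], [0, 1, 0, 0]]], [[], [[0, 1, 0, 0]], [[0, 2], [2], [0, 1, 0, 1, 2]], [[1], [0, 1], []], [[0, 1], []], [[2], [0, 1, 0, 1, 2]], [[1, 2], [0, 1, 0, 0]], [[0]], [[1, 1], [0]], [[0, 2, 1], [1, 2], [0, 1, 0, 0]], [[0, 1, 0, 1, 2]], [[]]], [[], [[0]], [], [[]], [],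 [[0, 1]], [], [[1]], [], [[0, 1, 1]], [], [[1, 1]]], [[], [[0]], [[1, 1], [1, 0, 1, 2]], [[2], [1, 1, 0]], [[1, 0, 2], [1, 1], [1, 0, 1, 2]], [[1, 0, 1], [2, 1], [1, 1, 0]], [[1], [1, 0, 1, 2]], [[1, 1, 0]], [[1, 0, 2, 1], [1], [1, 0, 1, 2]], [[1, 0, 1, 1], [2], [1, 1, 0]], [[1, 0, 1, 2]], [[2, 1], [1, 1, 0]]], [[], [[1, 0, 0]], [[], [1, 0, 1, 0]], [[1, 1], [1, 0, 1, 2]], [[1, 0, 2], [], [1, 0, 1, 0]], [[1, 0, 1, 0, 2], [], [1, 0, 1, 0]], [[1, 0, 2, 1], [1, 0, 1, 0, 1, 1], [1, 1], [1, 0, 1, 2]], [[1, 0, 1, 0]], [[1, 0, 1, 0, 1, 1], [1, 1], [1, 0, 1, 2]], [[1, 0, 1, 1], [1, 1], [1, 0, 1, 2]], [[1, 0, 1, 2]], [[1, 0, 1], [1, 0, 1, 0, 2], [], [1, 0, 1, 0]]]]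

noncomputable def path (c : Fin 12) (a : Fin 12) : List (List (Fin 3)) :=
  ((pathN.getD c.1 []).getD a.1 []).map fun w => w.map (Fin.ofNat 3)

noncomputable def jnN : List (List ℕ) :=
  [[0, 1, 2, 3, 4, 5, 6], [1, 1, 2, 4, 4, 5, 6], [2, 2, 2, 4, 4, 6, 6], [3, 4, 4, 3, 4, 6, 6], [4, 4, 4, 4, 4, 6, 6], [5, 5, 6, 6, 6, 5, 6], [6, 6, 6, 6, 6, 6, 6]]

noncomputable def jn (s t : Fin 7) : Fin 7 := Fin.ofNat 7 (g2 jnN s.1 t.1)

set_option maxHeartbeats 0 in
noncomputable def jpathN : List (List (List (List ℕ))) :=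
  [[[[], [], [], [], [], [], [], [], [], [], [], []], [[], [0], [], [], [], [4], [], [], [], [8], [], []], [[], [0], [], [2], [], [4], [], [6], [], [8], [], [10]], [[], [], [0], [1], [], [], [4], [5], [], [], [8], [9]], [[], [0], [0], [0], [], [4], [4], [4], [], [8], [8], [8]], [[], [0], [], [], [2], [2], [3], [0], [3], [3], [0], [2]], [[], [0], [0], [0], [0], [0], [0], [0], [0], [0], [0], [0]]], [[[], [0], [], [], [], [4], [], [], [], [8], [], []], [[], [0], [], [], [], [4], [], [], [], [8], [], []], [[], [0], [], [2], [], [4], [], [6], [], [8], [], [10]], [[], [0], [0], [1, 0], [], [4], [4], [5, 4], [], [8], [8], [9, 8]], [[], [0], [0], [0], [], [4], [4], [4], [], [8], [8], [8]], [[], [0], [], [], [2], [2], [3], [0], [3], [3], [0], [2]], [[], [0], [0], [0], [0], [0], [0], [0], [0], [0], [0], [0]]], [[[], [0], [], [2], [], [4], [], [6], [], [8], [], [10]], [[], [0], [], [2], [], [4], [], [6], [], [8], [], [10]], [[], [0], [], [2], [], [4], [], [6], [], [8], [], [10]], [[],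 [0], [0], [1, 0], [], [4], [4], [5, 4], [], [8], [8], [9, 8]], [[], [0], [0], [0], [], [4], [4], [4], [], [8], [8], [8]], [[], [0], [11, 10, 0], [6, 7, 0], [11, 10, 0], [11, 10, 0], [7, 0], [0], [6, 7, 0], [6, 7, 0], [0], [10, 0]], [[], [0], [0], [0], [0], [0], [0], [0], [0], [0], [0], [0]]], [[[], [], [0], [1], [], [], [4], [5], [], [], [8], [9]], [[], [0], [0], [1, 0], [], [4], [4], [5, 4], [], [8], [8], [9, 8]], [[], [0], [0], [1, 0], [], [4], [4], [5, 4], [], [8], [8], [9, 8]], [[], [], [0], [1], [], [], [4], [5], [], [], [8], [9]], [[], [0], [0], [0], [], [4], [4], [4], [], [8], [8], [8]], [[], [0], [0], [1, 0], [2, 0], [2, 0], [3, 1, 0], [0], [10, 0], [3, 1, 0], [0], [2, 0]], [[], [0], [0], [0], [0], [0], [0], [0], [0], [0], [0], [0]]], [[[], [0], [0], [0], [], [4], [4], [4], [], [8], [8], [8]], [[], [0], [0], [0], [], [4], [4], [4], [], [8], [8], [8]], [[], [0], [0], [0], [], [4], [4], [4], [], [8], [8], [8]], [[], [0], [0], [0], [], [4], [4], [4], [], [8], [8], [8]],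 [[], [0], [0], [0], [], [4], [4], [4], [], [8], [8], [8]], [[], [0], [0], [0], [2, 0], [2, 0], [3, 0], [0], [3, 0], [3, 0], [0], [2, 0]], [[], [0], [0], [0], [0], [0], [0], [0], [0], [0], [0], [0]]], [[[], [0], [], [], [2], [2], [3], [0], [3], [3], [0], [2]], [[], [0], [], [], [2], [2], [3], [0], [3], [3], [0], [2]], [[], [0], [11, 10, 0], [6, 7, 0], [11, 10, 0], [11, 10, 0], [7, 0], [0], [6, 7, 0], [6, 7, 0], [0], [10, 0]], [[], [0], [0], [1, 0], [2, 0], [2, 0], [3, 1, 0], [0], [10, 0], [3, 1, 0], [0], [2, 0]], [[], [0], [0], [0], [2, 0], [2, 0], [3, 0], [0], [3, 0], [3, 0], [0], [2, 0]], [[], [0], [], [], [2], [2], [3], [0], [3], [3], [0], [2]], [[], [0], [0], [0], [0], [0], [0], [0], [0], [0], [0], [0]]], [[[], [0], [0], [0], [0], [0], [0], [0], [0], [0], [0], [0]], [[], [0], [0], [0], [0], [0], [0], [0], [0], [0], [0], [0]], [[], [0], [0], [0], [0], [0], [0], [0], [0], [0], [0], [0]], [[], [0], [0], [0], [0], [0], [0], [0], [0], [0], [0], [0]], [[], [0], [0], [0], [0],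 [0], [0], [0], [0], [0], [0], [0]], [[], [0], [0], [0], [0], [0], [0], [0], [0], [0], [0], [0]], [[], [0], [0], [0], [0], [0], [0], [0], [0], [0], [0], [0]]]]

noncomputable def jpath (s t : Fin 7) (a : Fin 12) : List (Fin 12) :=
  (((jpathN.getD s.1 []).getD t.1 []).getD a.1 []).map (Fin.ofNat 12)

theorem hbot : ∀ a, lab 0 a = a := by decide +kernel

theorem h0 : ∀ t a, lab t (lab t a) = lab t a := by decide +kernel

theorem h1 : ∀ t i a, lab t (op i (lab t a)) = lab t (op i a) := by decide +kernel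

theorem h2 : ∀ s t, mk7 (bitsOf 173) s t = true ↔ ∀ a, lab t (lab s a) = lab t a := by
  decide +kernel

theorem h5 : ∀ s t, mk7 (bitsOf 173) s t = true → mk7 (bitsOf 173) t s = true → s = t := by
  decide +kernel

theorem h3a : ∀ u : Fin 12, ∀ u', u = u' ∨
    Cert.hits op (move u u') u u' (cp (cls u u')).1 (cp (cls u u')).2 = true := by
  decide +kernel

theorem h3b : ∀ c : Fin 12, ∀ a,
    Cert.walk op (cp c).1 (cp c).2 (path c a) a = lab (typ c) a := by
  decide +kernel

theorem h3c : ∀ u : Fin 12, ∀ u', lab (typ (cls u u')) u = lab (typ (cls u u')) u' := by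
  decide +kernel

theorem h4a : ∀ s t, mk7 (bitsOf 173) s (jn s t) = true ∧ mk7 (bitsOf 173) t (jn s t) = true := by
  decide +kernel

theorem h4b : ∀ s : Fin 7, ∀ t a,
    Cert.jwalk lab s t (jpath s t a) a = lab (jn s t) a := by
  decide +kernel

theorem rep : RepTable 7 (mk7 (bitsOf 173)) :=
  Cert.repTable_of_cert (by decide) _ op lab 0 cls cp move typ path jn jpath
    hbot h0 h1 h2 h5 h3a h3b h3c h4a h4b

end Vale.Agent.P183.Data.L22

namespace Vale.Agent.P183.Data.L26

noncomputable def g1 (l : List ℕ) (i : ℕ) : ℕ := l.getD i 0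

noncomputable def g2 (l : List (List ℕ)) (i j : ℕ) : ℕ := (l.getD i []).getD j 0

noncomputable def opD : ℕ := 49232167573543266133388657613132671305900247493072060929

noncomputable def op (i : Fin 3) (x : Fin 8) : Fin 8 :=
  Fin.ofNat 8 ((opD >>> (8 * (8 * i.1 + x.1))) &&& 255)

noncomputable def labD : ℕ := 618070685289733094116370983940410331911644847889252471314597708709315179121787108359592348278639436265797013602560

noncomputable def lab (t : Fin 7) (x : Fin 8) : Fin 8 :=
  Fin.ofNat 8 ((labD >>> (8 * (8 * t.1 + x.1))) &&& 255)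

noncomputable def clsR : List ℕ :=
  [217020509940876288, 217863843882467332, 433759549132899328, 361984529516462084, 50529025, 117834243, 100992515, 84280067]

noncomputable def cls (u v : Fin 8) : Fin 8 :=
  Fin.ofNat 8 ((g1 clsR u.1 >>> (8 * v.1)) &&& 255)

noncomputable def cpA : List ℕ :=
  [0, 0, 1, 1, 2, 2, 2, 3]

noncomputable def cpB : List ℕ :=
  [2, 4, 5, 7, 3, 6, 7, 5]

noncomputable def cp (c : Fin 8) : Fin 8 × Fin 8 :=
  (Fin.ofNat 8 (g1 cpA c.1), Fin.ofNat 8 (g1 cpB c.1))

noncomputable def moveR : List ℕ :=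
  [80091944940560103527022593, 151706060452764468643904, 151191821432225571815425, 1209516152614877772548160, 1511895504587364438773761, 12288187920441903289469458, 12240471057410874104889352, 157095391040259661761042]

noncomputable def dec : ℕ → ℕ → List (Fin 3)
  | 0, _ => []
  | f + 1, p => if p ≤ 1 then [] else Fin.ofNat 3 (p % 8) :: dec f (p / 8)

noncomputable def move (u v : Fin 8) : List (Fin 3) :=
  dec 4 ((g1 moveR u.1 >>> (11 * v.1)) &&& 2047)

noncomputable def typN : List ℕ :=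
  [1, 4, 3, 6, 5, 2, 6, 6]

noncomputable def typ (c : Fin 8) : Fin 7 := Fin.ofNat 7 (g1 typN c.1)

set_option maxHeartbeats 0 in
noncomputable def pathN : List (List (List (List ℕ))) :=
  [[[], [], [[]], [[0]], [], [[0, 1]], [[2]], [[1, 1]]], [[], [], [], [], [[]], [[0]], [[0, 0]], [[0, 0, 0]]], [[], [], [], [], [], [[]], [[0]], [[0, 0]]], [[], [[], [1, 0, 0], [0], [1, 2]], [[1, 2]], [[0, 0], [1, 0, 0], [0], [1, 2]], [[1, 2, 2], [0], [1, 2]], [[1, 0], [0], [1, 2]], [[0], [1, 2]], [[1, 0, 0], [0], [1, 2]]], [[], [[1, 2, 0], [], [1, 2]], [[1, 2]], [[], [1, 2]], [], [[1, 0, 1, 1]], [[1, 1]], [[1]]], [[], [], [], [], [], [], [[]], [[0]]], [[], [[1, 2, 0], [0], [2], [1, 2]], [[1, 2]], [[0], [2], [1, 2]], [[1], [], [1, 2]], [[1, 0], [2], [1, 2]], [[2], [1, 2]], [[], [1, 2]]], [[], [[1, 2, 0], [], [1, 0], [0], [1, 2]], [[1, 2]], [[], [1, 0], [0], [1, 2]], [[1, 2, 2], [0], [1, 2]], [[1, 0], [0], [1, 2]], [[0], [1, 2]], [[1, 0, 0], [0], [1, 2]]]]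

noncomputable def path (c : Fin 8) (a : Fin 8) : List (List (Fin 3)) :=
  ((pathN.getD c.1 []).getD a.1 []).map fun w => w.map (Fin.ofNat 3)

noncomputable def jnN : List (List ℕ) :=
  [[0, 1, 2, 3, 4, 5, 6], [1, 1, 6, 6, 6, 5, 6], [2, 6, 2, 3, 4, 6, 6], [3, 6, 3, 3, 4, 6, 6], [4, 6, 4, 4, 4, 6, 6], [5, 5, 6, 6, 6, 5, 6], [6, 6, 6, 6, 6, 6, 6]]

noncomputable def jn (s t : Fin 7) : Fin 7 := Fin.ofNat 7 (g2 jnN s.1 t.1)

set_option maxHeartbeats 0 in
noncomputable def jpathN : List (List (List (List ℕ))) :=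
  [[[[], [], [], [], [], [], [], []], [[], [], [0], [1], [], [4], [4], [4]], [[], [], [], [], [], [], [2], [3]], [[], [], [], [], [], [1], [2], [3]], [[], [], [], [], [0], [1], [2], [3]], [[], [0], [0], [0], [], [4], [4], [4]], [[], [0], [0], [0], [0], [0], [0], [0]]], [[[], [], [0], [1], [], [4], [4], [4]], [[], [], [0], [1], [], [4], [4], [4]], [[], [3, 7, 6, 2, 0], [0], [7, 6, 2, 0], [6, 2, 0], [6, 2, 0], [2, 0], [6, 2, 0]], [[], [5, 6, 2, 0], [0], [7, 6, 2, 0], [6, 2, 0], [6, 2, 0], [2, 0], [6, 2, 0]], [[], [5, 4, 0], [0], [7, 4, 0], [0], [4, 0], [2, 0], [4, 0]], [[], [0], [0], [0], [], [4], [4], [4]], [[], [0], [0], [0], [0], [0], [0], [0]]], [[[], [], [], [], [], [], [2], [3]], [[], [3, 7, 6, 2, 0], [0], [7, 6, 2, 0], [6, 2, 0], [6, 2, 0], [2, 0], [6, 2, 0]], [[], [], [], [], [], [], [2], [3]], [[], [], [], [], [], [1], [2], [3]], [[], [], [], [], [0], [1], [2], [3]], [[], [0], [0], [0], [6, 2, 0], [6, 2, 0], [2, 0], [3, 0]], [[], [0], [0], [0], [0], [0], [0], [0]]],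 [[[], [], [], [], [], [1], [2], [3]], [[], [5, 6, 2, 0], [0], [7, 6, 2, 0], [6, 2, 0], [6, 2, 0], [2, 0], [6, 2, 0]], [[], [], [], [], [], [1], [2], [3]], [[], [], [], [], [], [1], [2], [3]], [[], [], [], [], [0], [1], [2], [3]], [[], [0], [0], [0], [5, 1, 0], [1, 0], [2, 0], [3, 0]], [[], [0], [0], [0], [0], [0], [0], [0]]], [[[], [], [], [], [0], [1], [2], [3]], [[], [5, 4, 0], [0], [7, 4, 0], [0], [4, 0], [2, 0], [4, 0]], [[], [], [], [], [0], [1], [2], [3]], [[], [], [], [], [0], [1], [2], [3]], [[], [], [], [], [0], [1], [2], [3]], [[], [0], [0], [0], [0], [1, 0], [2, 0], [3, 0]], [[], [0], [0], [0], [0], [0], [0], [0]]], [[[], [0], [0], [0], [], [4], [4], [4]], [[], [0], [0], [0], [], [4], [4], [4]], [[], [0], [0], [0], [6, 2, 0], [6, 2, 0], [2, 0], [3, 0]], [[], [0], [0], [0], [5, 1, 0], [1, 0], [2, 0], [3, 0]], [[], [0], [0], [0], [0], [1, 0], [2, 0], [3, 0]], [[], [0], [0], [0], [], [4], [4], [4]], [[], [0], [0], [0], [0], [0], [0], [0]]], [[[], [0], [0], [0], [0],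 [0], [0], [0]], [[], [0], [0], [0], [0], [0], [0], [0]], [[], [0], [0], [0], [0], [0], [0], [0]], [[], [0], [0], [0], [0], [0], [0], [0]], [[], [0], [0], [0], [0], [0], [0], [0]], [[], [0], [0], [0], [0], [0], [0], [0]], [[], [0], [0], [0], [0], [0], [0], [0]]]]

noncomputable def jpath (s t : Fin 7) (a : Fin 8) : List (Fin 8) :=
  (((jpathN.getD s.1 []).getD t.1 []).getD a.1 []).map (Fin.ofNat 8)

theorem hbot : ∀ a, lab 0 a = a := by decide +kernel

theorem h0 : ∀ t a, lab t (lab t a) = lab t a := by decide +kernel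

theorem h1 : ∀ t i a, lab t (op i (lab t a)) = lab t (op i a) := by decide +kernel

theorem h2 : ∀ s t, mk7 (bitsOf 184) s t = true ↔ ∀ a, lab t (lab s a) = lab t a := by
  decide +kernel

theorem h5 : ∀ s t, mk7 (bitsOf 184) s t = true → mk7 (bitsOf 184) t s = true → s = t := by
  decide +kernel

theorem h3a : ∀ u : Fin 8, ∀ u', u = u' ∨
    Cert.hits op (move u u') u u' (cp (cls u u')).1 (cp (cls u u')).2 = true := by
  decide +kernel

theorem h3b : ∀ c : Fin 8, ∀ a,
    Cert.walk op (cp c).1 (cp c).2 (path c a) a = lab (typ c) a := by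
  decide +kernel

theorem h3c : ∀ u : Fin 8, ∀ u', lab (typ (cls u u')) u = lab (typ (cls u u')) u' := by
  decide +kernel

theorem h4a : ∀ s t, mk7 (bitsOf 184) s (jn s t) = true ∧ mk7 (bitsOf 184) t (jn s t) = true := by
  decide +kernel

theorem h4b : ∀ s : Fin 7, ∀ t a,
    Cert.jwalk lab s t (jpath s t a) a = lab (jn s t) a := by
  decide +kernel

theorem rep : RepTable 7 (mk7 (bitsOf 184)) :=
  Cert.repTable_of_cert (by decide) _ op lab 0 cls cp move typ path jn jpath
    hbot h0 h1 h2 h5 h3a h3b h3c h4a h4b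

end Vale.Agent.P183.Data.L26

namespace Vale.Agent.P183.Data.L27

noncomputable def g1 (l : List ℕ) (i : ℕ) : ℕ := l.getD i 0

noncomputable def g2 (l : List (List ℕ)) (i j : ℕ) : ℕ := (l.getD i []).getD j 0

noncomputable def opD : ℕ := 9481914685370963067396

noncomputable def op (i : Fin 2) (x : Fin 5) : Fin 5 :=
  Fin.ofNat 5 ((opD >>> (8 * (5 * i.1 + x.1))) &&& 255)

noncomputable def labD : ℕ := 6928706704833927317316906463829543748699713673001291773777372594176256

noncomputable def lab (t : Fin 7) (x : Fin 5) : Fin 5 :=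
  Fin.ofNat 5 ((labD >>> (8 * (5 * t.1 + x.1))) &&& 255)

noncomputable def clsR : List ℕ :=
  [12918521856, 4362272768, 25853690625, 30065099778, 117833987]

noncomputable def cls (u v : Fin 5) : Fin 8 :=
  Fin.ofNat 8 ((g1 clsR u.1 >>> (8 * v.1)) &&& 255)

noncomputable def cpA : List ℕ :=
  [0, 0, 0, 0, 1, 2, 2, 3]

noncomputable def cpB : List ℕ :=
  [1, 2, 3, 4, 3, 3, 4, 4]

noncomputable def cp (c : Fin 8) : Fin 5 × Fin 5 :=
  (Fin.ofNat 5 (g1 cpA c.1), Fin.ofNat 5 (g1 cpB c.1))

noncomputable def moveR : List ℕ :=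
  [1082401, 9479201, 1082657, 1082401, 1082657]

noncomputable def dec : ℕ → ℕ → List (Fin 2)
  | 0, _ => []
  | f + 1, p => if p ≤ 1 then [] else Fin.ofNat 2 (p % 8) :: dec f (p / 8)

noncomputable def move (u v : Fin 5) : List (Fin 2) :=
  dec 2 ((g1 moveR u.1 >>> (5 * v.1)) &&& 31)

noncomputable def typN : List ℕ :=
  [3, 1, 6, 4, 5, 6, 2, 5]

noncomputable def typ (c : Fin 8) : Fin 7 := Fin.ofNat 7 (g1 typN c.1)

set_option maxHeartbeats 0 in
noncomputable def pathN : List (List (List (List ℕ))) :=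
  [[[], [[]], [], [], [[0]]], [[], [], [[]], [], [[1]]], [[], [[1], [0, 0], [0]], [[0, 0], [0]], [[]], [[0]]], [[], [[1], [0], []], [[0], []], [], [[]]], [[], [], [[0]], [[]], [[0, 1]]], [[], [[0, 1], [1], [0]], [[1], [0]], [[], [1], [0]], [[0]]], [[], [], [], [], [[]]], [[], [], [[0]], [[], [0, 1]], [[0, 1]]]]

noncomputable def path (c : Fin 8) (a : Fin 5) : List (List (Fin 2)) :=
  ((pathN.getD c.1 []).getD a.1 []).map fun w => w.map (Fin.ofNat 2)

noncomputable def jnN : List (List ℕ) :=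
  [[0, 1, 2, 3, 4, 5, 6], [1, 1, 4, 4, 4, 5, 6], [2, 4, 2, 3, 4, 6, 6], [3, 4, 3, 3, 4, 6, 6], [4, 4, 4, 4, 4, 6, 6], [5, 5, 6, 6, 6, 5, 6], [6, 6, 6, 6, 6, 6, 6]]

noncomputable def jn (s t : Fin 7) : Fin 7 := Fin.ofNat 7 (g2 jnN s.1 t.1)

set_option maxHeartbeats 0 in
noncomputable def jpathN : List (List (List (List ℕ))) :=
  [[[[], [], [], [], []], [[], [], [0], [], [1]], [[], [], [], [], [2]], [[], [0], [], [], [2]], [[], [0], [0], [], [0]], [[], [], [0], [1], [1]], [[], [0], [0], [0], [0]]], [[[], [], [0], [], [1]], [[], [], [0], [], [1]], [[], [4, 2, 0], [0], [], [2, 0]], [[], [0], [0], [], [1, 0]], [[], [0], [0], [], [0]], [[], [], [0], [1], [1]], [[], [0], [0], [0], [0]]], [[[], [], [], [], [2]], [[], [4, 2, 0], [0], [], [2, 0]], [[], [], [], [], [2]], [[], [0], [], [], [2]], [[], [0], [0], [], [0]], [[], [4, 2, 0], [0], [4, 2, 0], [2, 0]], [[], [0], [0], [0], [0]]], [[[], [0], [], [], [2]], [[], [0], [0], [], [1, 0]], [[], [0], [], [], [2]], [[], [0], [], [], [2]],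 [[], [0], [0], [], [0]], [[], [0], [0], [1, 0], [1, 0]], [[], [0], [0], [0], [0]]], [[[], [0], [0], [], [0]], [[], [0], [0], [], [0]], [[], [0], [0], [], [0]], [[], [0], [0], [], [0]], [[], [0], [0], [], [0]], [[], [0], [0], [1, 0], [0]], [[], [0], [0], [0], [0]]], [[[], [], [0], [1], [1]], [[], [], [0], [1], [1]], [[], [4, 2, 0], [0], [4, 2, 0], [2, 0]], [[], [0], [0], [1, 0], [1, 0]], [[], [0], [0], [1, 0], [0]], [[], [], [0], [1], [1]], [[], [0], [0], [0], [0]]], [[[], [0], [0], [0], [0]], [[], [0], [0], [0], [0]], [[], [0], [0], [0], [0]], [[], [0], [0], [0], [0]], [[], [0], [0], [0], [0]], [[], [0], [0], [0], [0]], [[], [0], [0], [0], [0]]]]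

noncomputable def jpath (s t : Fin 7) (a : Fin 5) : List (Fin 5) :=
  (((jpathN.getD s.1 []).getD t.1 []).getD a.1 []).map (Fin.ofNat 5)

theorem hbot : ∀ a, lab 0 a = a := by decide +kernel

theorem h0 : ∀ t a, lab t (lab t a) = lab t a := by decide +kernel

theorem h1 : ∀ t i a, lab t (op i (lab t a)) = lab t (op i a) := by decide +kernel

theorem h2 : ∀ s t, mk7 (bitsOf 188) s t = true ↔ ∀ a, lab t (lab s a) = lab t a := by
  decide +kernel

theorem h5 : ∀ s t, mk7 (bitsOf 188) s t = true → mk7 (bitsOf 188) t s = true → s = t := by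
  decide +kernel

theorem h3a : ∀ u : Fin 5, ∀ u', u = u' ∨
    Cert.hits op (move u u') u u' (cp (cls u u')).1 (cp (cls u u')).2 = true := by
  decide +kernel

theorem h3b : ∀ c : Fin 8, ∀ a,
    Cert.walk op (cp c).1 (cp c).2 (path c a) a = lab (typ c) a := by
  decide +kernel

theorem h3c : ∀ u : Fin 5, ∀ u', lab (typ (cls u u')) u = lab (typ (cls u u')) u' := by
  decide +kernel

theorem h4a : ∀ s t, mk7 (bitsOf 188) s (jn s t) = true ∧ mk7 (bitsOf 188) t (jn s t) = true := by
  decide +kernel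

theorem h4b : ∀ s : Fin 7, ∀ t a,
    Cert.jwalk lab s t (jpath s t a) a = lab (jn s t) a := by
  decide +kernel

theorem rep : RepTable 7 (mk7 (bitsOf 188)) :=
  Cert.repTable_of_cert (by decide) _ op lab 0 cls cp move typ path jn jpath
    hbot h0 h1 h2 h5 h3a h3b h3c h4a h4b

end Vale.Agent.P183.Data.L27

namespace Vale.Agent.P183.Data.L28

noncomputable def g1 (l : List ℕ) (i : ℕ) : ℕ := l.getD i 0

noncomputable def g2 (l : List (List ℕ)) (i j : ℕ) : ℕ := (l.getD i []).getD j 0

noncomputable def opD : ℕ := 10425475451349608180055640174232322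

noncomputable def op (i : Fin 3) (x : Fin 5) : Fin 5 :=
  Fin.ofNat 5 ((opD >>> (8 * (5 * i.1 + x.1))) &&& 255)

noncomputable def labD : ℕ := 105723667832407791006797051000078786912937662995605898601739452672

noncomputable def lab (t : Fin 7) (x : Fin 5) : Fin 5 :=
  Fin.ofNat 5 ((labD >>> (8 * (5 * t.1 + x.1))) &&& 255)

noncomputable def clsR : List ℕ :=
  [4328522752, 17230331908, 21541945856, 8590197506, 33883137]

noncomputable def cls (u v : Fin 5) : Fin 6 :=
  Fin.ofNat 6 ((g1 clsR u.1 >>> (8 * v.1)) &&& 255)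

noncomputable def cpA : List ℕ :=
  [0, 0, 1, 1, 1, 2]

noncomputable def cpB : List ℕ :=
  [2, 4, 2, 3, 4, 4]

noncomputable def cp (c : Fin 6) : Fin 5 × Fin 5 :=
  (Fin.ofNat 5 (g1 cpA c.1), Fin.ofNat 5 (g1 cpB c.1))

noncomputable def moveR : List ℕ :=
  [4429266945, 4311810368, 4429250817, 34377040136, 4429250817]

noncomputable def dec : ℕ → ℕ → List (Fin 3)
  | 0, _ => []
  | f + 1, p => if p ≤ 1 then [] else Fin.ofNat 3 (p % 8) :: dec f (p / 8)

noncomputable def move (u v : Fin 5) : List (Fin 3) :=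
  dec 3 ((g1 moveR u.1 >>> (8 * v.1)) &&& 255)

noncomputable def typN : List ℕ :=
  [3, 1, 5, 4, 6, 2]

noncomputable def typ (c : Fin 6) : Fin 7 := Fin.ofNat 7 (g1 typN c.1)

set_option maxHeartbeats 0 in
noncomputable def pathN : List (List (List (List ℕ))) :=
  [[[], [], [[]], [], [[0], []]], [[], [], [], [], [[]]], [[], [], [[]], [[0], [2]], [[2]]], [[], [], [[2]], [[]], [[2, 0], [2]]], [[], [[], [0, 2], [2]], [[2]], [[0], [2]], [[0, 2], [2]]], [[], [], [], [], [[]]]]

noncomputable def path (c : Fin 6) (a : Fin 5) : List (List (Fin 3)) :=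
  ((pathN.getD c.1 []).getD a.1 []).map fun w => w.map (Fin.ofNat 3)

noncomputable def jnN : List (List ℕ) :=
  [[0, 1, 2, 3, 4, 5, 6], [1, 1, 3, 3, 4, 5, 6], [2, 3, 2, 3, 4, 6, 6], [3, 3, 3, 3, 4, 6, 6], [4, 4, 4, 4, 4, 6, 6], [5, 5, 6, 6, 6, 5, 6], [6, 6, 6, 6, 6, 6, 6]]

noncomputable def jn (s t : Fin 7) : Fin 7 := Fin.ofNat 7 (g2 jnN s.1 t.1)

set_option maxHeartbeats 0 in
noncomputable def jpathN : List (List (List (List ℕ))) :=
  [[[[], [], [], [], []], [[], [], [], [], [0]], [[], [], [], [], [2]], [[], [], [0], [], [0]], [[], [], [0], [1], [0]], [[], [], [1], [0], [0]], [[], [0], [0], [0], [0]]], [[[], [], [], [], [0]], [[], [], [], [], [0]], [[], [], [4, 0], [], [0]], [[], [], [0], [], [0]], [[], [], [0], [1], [0]], [[], [], [1], [0], [0]], [[], [0], [0], [0], [0]]], [[[], [], [], [], [2]], [[], [], [4, 0], [], [0]], [[], [], [], [], [2]], [[], [], [0], [], [0]], [[], [], [0], [1], [0]], [[], [2, 4, 0], [4, 0], [0], [0]], [[], [0], [0], [0], [0]]], [[[], [], [0],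 [], [0]], [[], [], [0], [], [0]], [[], [], [0], [], [0]], [[], [], [0], [], [0]], [[], [], [0], [1], [0]], [[], [2, 0], [0], [0], [0]], [[], [0], [0], [0], [0]]], [[[], [], [0], [1], [0]], [[], [], [0], [1], [0]], [[], [], [0], [1], [0]], [[], [], [0], [1], [0]], [[], [], [0], [1], [0]], [[], [2, 0], [0], [0], [0]], [[], [0], [0], [0], [0]]], [[[], [], [1], [0], [0]], [[], [], [1], [0], [0]], [[], [2, 4, 0], [4, 0], [0], [0]], [[], [2, 0], [0], [0], [0]], [[], [2, 0], [0], [0], [0]], [[], [], [1], [0], [0]], [[], [0], [0], [0], [0]]], [[[], [0], [0], [0], [0]], [[], [0], [0], [0], [0]], [[], [0], [0], [0], [0]], [[], [0], [0], [0], [0]], [[], [0], [0], [0], [0]], [[], [0], [0], [0], [0]], [[], [0], [0], [0], [0]]]]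

noncomputable def jpath (s t : Fin 7) (a : Fin 5) : List (Fin 5) :=
  (((jpathN.getD s.1 []).getD t.1 []).getD a.1 []).map (Fin.ofNat 5)

theorem hbot : ∀ a, lab 0 a = a := by decide +kernel

theorem h0 : ∀ t a, lab t (lab t a) = lab t a := by decide +kernel

theorem h1 : ∀ t i a, lab t (op i (lab t a)) = lab t (op i a) := by decide +kernel

theorem h2 : ∀ s t, mk7 (bitsOf 190) s t = true ↔ ∀ a, lab t (lab s a) = lab t a := by
  decide +kernel

theorem h5 : ∀ s t, mk7 (bitsOf 190) s t = true → mk7 (bitsOf 190) t s = true → s = t := by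
  decide +kernel

theorem h3a : ∀ u : Fin 5, ∀ u', u = u' ∨
    Cert.hits op (move u u') u u' (cp (cls u u')).1 (cp (cls u u')).2 = true := by
  decide +kernel

theorem h3b : ∀ c : Fin 6, ∀ a,
    Cert.walk op (cp c).1 (cp c).2 (path c a) a = lab (typ c) a := by
  decide +kernel

theorem h3c : ∀ u : Fin 5, ∀ u', lab (typ (cls u u')) u = lab (typ (cls u u')) u' := by
  decide +kernel

theorem h4a : ∀ s t, mk7 (bitsOf 190) s (jn s t) = true ∧ mk7 (bitsOf 190) t (jn s t) = true := by
  decide +kernel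

theorem h4b : ∀ s : Fin 7, ∀ t a,
    Cert.jwalk lab s t (jpath s t a) a = lab (jn s t) a := by
  decide +kernel

theorem rep : RepTable 7 (mk7 (bitsOf 190)) :=
  Cert.repTable_of_cert (by decide) _ op lab 0 cls cp move typ path jn jpath
    hbot h0 h1 h2 h5 h3a h3b h3c h4a h4b

end Vale.Agent.P183.Data.L28

namespace Vale.Agent.P183.Data.L37

noncomputable def g1 (l : List ℕ) (i : ℕ) : ℕ := l.getD i 0

noncomputable def g2 (l : List (List ℕ)) (i j : ℕ) : ℕ := (l.getD i []).getD j 0

noncomputable def opD : ℕ := 73847133260002320237176061933610136199329341705218490627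

noncomputable def op (i : Fin 4) (x : Fin 6) : Fin 6 :=
  Fin.ofNat 6 ((opD >>> (8 * (6 * i.1 + x.1))) &&& 255)

noncomputable def labD : ℕ := 231584212983364124800083506837347401910560474477080080418781055020183645716736

noncomputable def lab (t : Fin 7) (x : Fin 6) : Fin 6 :=
  Fin.ofNat 6 ((labD >>> (8 * (6 * t.1 + x.1))) &&& 255)

noncomputable def clsR : List ℕ :=
  [2203318419456, 5497625444352, 6610005000963, 7696581592064, 8796093218817, 34477573378]

noncomputable def cls (u v : Fin 6) : Fin 9 :=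
  Fin.ofNat 9 ((g1 clsR u.1 >>> (8 * v.1)) &&& 255)

noncomputable def cpA : List ℕ :=
  [0, 0, 0, 1, 1, 1, 2, 3, 4]

noncomputable def cpB : List ℕ :=
  [1, 4, 5, 2, 3, 5, 5, 5, 5]

noncomputable def cp (c : Fin 9) : Fin 6 × Fin 6 :=
  (Fin.ofNat 6 (g1 cpA c.1), Fin.ofNat 6 (g1 cpB c.1))

noncomputable def moveR : List ℕ :=
  [1103991734529, 1490370494721, 1139391136009, 1490375213323, 1105333934849, 1103823438081]

noncomputable def dec : ℕ → ℕ → List (Fin 4)
  | 0, _ => []
  | f + 1, p => if p ≤ 1 then [] else Fin.ofNat 4 (p % 8) :: dec f (p / 8)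

noncomputable def move (u v : Fin 6) : List (Fin 4) :=
  dec 3 ((g1 moveR u.1 >>> (8 * v.1)) &&& 255)

noncomputable def typN : List ℕ :=
  [3, 2, 5, 4, 1, 5, 6, 5, 5]

noncomputable def typ (c : Fin 9) : Fin 7 := Fin.ofNat 7 (g1 typN c.1)

set_option maxHeartbeats 0 in
noncomputable def pathN : List (List (List (List ℕ))) :=
  [[[], [[]], [], [[1, 3]], [[1], []], []], [[], [], [], [[3]], [[]], []], [[], [[1, 3, 3]], [], [[1, 3]], [[1], [1, 3, 3]], [[]]], [[], [[3, 3]], [[], [3, 3]], [[3]], [[3, 1], [3, 3]], []], [[], [], [], [[]], [], []], [[], [[3, 3]], [], [[3]], [[3, 1], [3, 3]], [[], [3, 3]]], [[], [[1, 1, 3, 3]], [[1, 1], [1, 1, 3, 3]], [[1, 1, 3]], [[1, 1, 3, 1], [1, 1, 3, 3]], [[], [1, 1], [1, 1, 3, 3]]], [[], [[3, 3]], [], [[3]], [[3, 1], [3, 3]], [[], [3]]], [[], [[1, 3, 3]], [], [[1, 3]], [[1], [1, 3, 3]], [[], [1], [1, 3, 3]]]]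

noncomputable def path (c : Fin 9) (a : Fin 6) : List (List (Fin 4)) :=
  ((pathN.getD c.1 []).getD a.1 []).map fun w => w.map (Fin.ofNat 4)

noncomputable def jnN : List (List ℕ) :=
  [[0, 1, 2, 3, 4, 5, 6], [1, 1, 2, 3, 4, 5, 6], [2, 2, 2, 3, 4, 5, 6], [3, 3, 3, 3, 4, 5, 6], [4, 4, 4, 4, 4, 6, 6], [5, 5, 5, 5, 6, 5, 6], [6, 6, 6, 6, 6, 6, 6]]

noncomputable def jn (s t : Fin 7) : Fin 7 := Fin.ofNat 7 (g2 jnN s.1 t.1)

set_option maxHeartbeats 0 in
noncomputable def jpathN : List (List (List (List ℕ))) :=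
  [[[[], [], [], [], [], []], [[], [], [], [1], [], []], [[], [], [], [1], [0], []], [[], [0], [], [0], [0], []], [[], [0], [0], [0], [0], []], [[], [0], [], [0], [0], [0]], [[], [0], [0], [0], [0], [0]]], [[[], [], [], [1], [], []], [[], [], [], [1], [], []], [[], [], [], [1], [0], []], [[], [0], [], [0], [0], []], [[], [0], [0], [0], [0], []], [[], [0], [], [0], [0], [0]], [[], [0], [0], [0], [0], [0]]], [[[], [], [], [1], [0], []], [[], [], [], [1], [0], []], [[], [], [], [1], [0], []], [[], [0], [], [0], [0], []], [[], [0], [0], [0], [0], []], [[], [0], [], [0], [0], [0]], [[], [0], [0], [0], [0], [0]]], [[[], [0], [], [0], [0], []], [[], [0], [], [0], [0], []], [[], [0], [], [0], [0], []], [[], [0], [], [0], [0], []], [[], [0], [0], [0], [0], []], [[], [0], [], [0], [0], [0]], [[], [0], [0], [0], [0], [0]]], [[[], [0], [0], [0], [0], []], [[], [0], [0], [0], [0], []], [[], [0], [0], [0], [0], []], [[], [0], [0], [0], [0], []], [[], [0], [0], [0], [0], []], [[], [0], [0],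 [0], [0], [0]], [[], [0], [0], [0], [0], [0]]], [[[], [0], [], [0], [0], [0]], [[], [0], [], [0], [0], [0]], [[], [0], [], [0], [0], [0]], [[], [0], [], [0], [0], [0]], [[], [0], [0], [0], [0], [0]], [[], [0], [], [0], [0], [0]], [[], [0], [0], [0], [0], [0]]], [[[], [0], [0], [0], [0], [0]], [[], [0], [0], [0], [0], [0]], [[], [0], [0], [0], [0], [0]], [[], [0], [0], [0], [0], [0]], [[], [0], [0], [0], [0], [0]], [[], [0], [0], [0], [0], [0]], [[], [0], [0], [0], [0], [0]]]]

noncomputable def jpath (s t : Fin 7) (a : Fin 6) : List (Fin 6) :=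
  (((jpathN.getD s.1 []).getD t.1 []).getD a.1 []).map (Fin.ofNat 6)

theorem hbot : ∀ a, lab 0 a = a := by decide +kernel

theorem h0 : ∀ t a, lab t (lab t a) = lab t a := by decide +kernel

theorem h1 : ∀ t i a, lab t (op i (lab t a)) = lab t (op i a) := by decide +kernel

theorem h2 : ∀ s t, mk7 (bitsOf 511) s t = true ↔ ∀ a, lab t (lab s a) = lab t a := by
  decide +kernel

theorem h5 : ∀ s t, mk7 (bitsOf 511) s t = true → mk7 (bitsOf 511) t s = true → s = t := by
  decide +kernel

theorem h3a : ∀ u : Fin 6, ∀ u', u = u' ∨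
    Cert.hits op (move u u') u u' (cp (cls u u')).1 (cp (cls u u')).2 = true := by
  decide +kernel

theorem h3b : ∀ c : Fin 9, ∀ a,
    Cert.walk op (cp c).1 (cp c).2 (path c a) a = lab (typ c) a := by
  decide +kernel

theorem h3c : ∀ u : Fin 6, ∀ u', lab (typ (cls u u')) u = lab (typ (cls u u')) u' := by
  decide +kernel

theorem h4a : ∀ s t, mk7 (bitsOf 511) s (jn s t) = true ∧ mk7 (bitsOf 511) t (jn s t) = true := by
  decide +kernel

theorem h4b : ∀ s : Fin 7, ∀ t a,
    Cert.jwalk lab s t (jpath s t a) a = lab (jn s t) a := by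
  decide +kernel

theorem rep : RepTable 7 (mk7 (bitsOf 511)) :=
  Cert.repTable_of_cert (by decide) _ op lab 0 cls cp move typ path jn jpath
    hbot h0 h1 h2 h5 h3a h3b h3c h4a h4b

end Vale.Agent.P183.Data.L37

namespace Vale.Agent.P183.Data.L38

noncomputable def g1 (l : List ℕ) (i : ℕ) : ℕ := l.getD i 0

noncomputable def g2 (l : List (List ℕ)) (i j : ℕ) : ℕ := (l.getD i []).getD j 0

noncomputable def opD : ℕ := 20283032219449279205912768546052

noncomputable def op (i : Fin 2) (x : Fin 7) : Fin 7 :=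
  Fin.ofNat 7 ((opD >>> (8 * (7 * i.1 + x.1))) &&& 255)

noncomputable def labD : ℕ := 97777726864085207860387762458398366543128713002186949148411941337475534720155777761414349056

noncomputable def lab (t : Fin 7) (x : Fin 7) : Fin 7 :=
  Fin.ofNat 7 ((labD >>> (8 * (7 * t.1 + x.1))) &&& 255)

noncomputable def clsR : List ℕ :=
  [1129207048437760, 567360901611520, 846641150033920, 282578783371521, 17040130, 16909315, 16974340]

noncomputable def cls (u v : Fin 7) : Fin 5 :=
  Fin.ofNat 5 ((g1 clsR u.1 >>> (8 * v.1)) &&& 255)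

noncomputable def cpA : List ℕ :=
  [0, 0, 0, 0, 0]

noncomputable def cpB : List ℕ :=
  [1, 3, 4, 5, 6]

noncomputable def cp (c : Fin 5) : Fin 7 × Fin 7 :=
  (Fin.ofNat 7 (g1 cpA c.1), Fin.ofNat 7 (g1 cpB c.1))

noncomputable def moveR : List ℕ :=
  [73823022692905781249, 5312986693757787179009, 4796477859633492541505, 38369552073235389104129, 38369515921352958164993, 664118956265398355969, 74120387871790743553]

noncomputable def dec : ℕ → ℕ → List (Fin 2)
  | 0, _ => []
  | f + 1, p => if p ≤ 1 then [] else Fin.ofNat 2 (p % 8) :: dec f (p / 8)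

noncomputable def move (u v : Fin 7) : List (Fin 2) :=
  dec 4 ((g1 moveR u.1 >>> (11 * v.1)) &&& 2047)

noncomputable def typN : List ℕ :=
  [1, 6, 2, 3, 4]

noncomputable def typ (c : Fin 5) : Fin 7 := Fin.ofNat 7 (g1 typN c.1)

set_option maxHeartbeats 0 in
noncomputable def pathN : List (List (List (List ℕ))) :=
  [[[], [[]], [[0, 1]], [], [], [[0]], [[0, 1, 0]]], [[], [[1, 0], []], [[0, 1], []], [[]], [[0], []], [[1], []], [[0, 1, 0], []]], [[], [], [], [], [[]], [[1]], [[1, 0]]], [[], [], [], [], [[0]], [[]], [[0, 1]]], [[], [], [], [], [[0]], [[1]], [[]]]]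

noncomputable def path (c : Fin 5) (a : Fin 7) : List (List (Fin 2)) :=
  ((pathN.getD c.1 []).getD a.1 []).map fun w => w.map (Fin.ofNat 2)

noncomputable def jnN : List (List ℕ) :=
  [[0, 1, 2, 3, 4, 5, 6], [1, 1, 5, 5, 5, 5, 6], [2, 5, 2, 5, 5, 5, 6], [3, 5, 5, 3, 5, 5, 6], [4, 5, 5, 5, 4, 5, 6], [5, 5, 5, 5, 5, 5, 6], [6, 6, 6, 6, 6, 6, 6]]

noncomputable def jn (s t : Fin 7) : Fin 7 := Fin.ofNat 7 (g2 jnN s.1 t.1)

set_option maxHeartbeats 0 in
noncomputable def jpathN : List (List (List (List ℕ))) :=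
  [[[[], [], [], [], [], [], []], [[], [0], [0], [], [], [4], [4]], [[], [], [], [], [0], [2], [1]], [[], [], [], [], [1], [0], [2]], [[], [], [], [], [2], [1], [0]], [[], [0], [0], [], [0], [0], [0]], [[], [0], [0], [0], [0], [0], [0]]], [[[], [0], [0], [], [], [4], [4]], [[], [0], [0], [], [], [4], [4]], [[], [0], [0], [], [0], [2, 0], [1, 0]], [[], [0], [0], [], [1, 0], [0], [2, 0]], [[], [0], [0], [], [2, 0], [1, 0], [0]], [[], [0], [0], [], [0], [0], [0]], [[], [0], [0], [0], [0], [0], [0]]], [[[], [], [], [], [0], [2], [1]], [[], [0], [0], [], [0], [2, 0], [1, 0]], [[], [], [], [], [0], [2], [1]], [[], [4, 0], [5, 0], [], [0], [0], [1, 4, 0]], [[], [6, 0], [4, 0], [], [0], [1, 6, 0], [0]], [[], [0], [0], [], [0], [0], [0]], [[], [0], [0], [0], [0], [0], [0]]], [[[], [], [], [], [1], [0], [2]], [[], [0], [0], [], [1, 0], [0], [2, 0]], [[], [4, 0], [5, 0], [], [0], [0], [1, 4, 0]], [[], [], [], [], [1], [0], [2]], [[], [5, 0], [6, 0], [], [1, 5, 0], [0], [0]], [[], [0],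 [0], [], [0], [0], [0]], [[], [0], [0], [0], [0], [0], [0]]], [[[], [], [], [], [2], [1], [0]], [[], [0], [0], [], [2, 0], [1, 0], [0]], [[], [6, 0], [4, 0], [], [0], [1, 6, 0], [0]], [[], [5, 0], [6, 0], [], [1, 5, 0], [0], [0]], [[], [], [], [], [2], [1], [0]], [[], [0], [0], [], [0], [0], [0]], [[], [0], [0], [0], [0], [0], [0]]], [[[], [0], [0], [], [0], [0], [0]], [[], [0], [0], [], [0], [0], [0]], [[], [0], [0], [], [0], [0], [0]], [[], [0], [0], [], [0], [0], [0]], [[], [0], [0], [], [0], [0], [0]], [[], [0], [0], [], [0], [0], [0]], [[], [0], [0], [0], [0], [0], [0]]], [[[], [0], [0], [0], [0], [0], [0]], [[], [0], [0], [0], [0], [0], [0]], [[], [0], [0], [0], [0], [0], [0]], [[], [0], [0], [0], [0], [0], [0]], [[], [0], [0], [0], [0], [0], [0]], [[], [0], [0], [0], [0], [0], [0]], [[], [0], [0], [0], [0], [0], [0]]]]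

noncomputable def jpath (s t : Fin 7) (a : Fin 7) : List (Fin 7) :=
  (((jpathN.getD s.1 []).getD t.1 []).getD a.1 []).map (Fin.ofNat 7)

theorem hbot : ∀ a, lab 0 a = a := by decide +kernel

theorem h0 : ∀ t a, lab t (lab t a) = lab t a := by decide +kernel

theorem h1 : ∀ t i a, lab t (op i (lab t a)) = lab t (op i a) := by decide +kernel

theorem h2 : ∀ s t, mk7 (bitsOf 840) s t = true ↔ ∀ a, lab t (lab s a) = lab t a := by
  decide +kernel

theorem h5 : ∀ s t, mk7 (bitsOf 840) s t = true → mk7 (bitsOf 840) t s = true → s = t := by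
  decide +kernel

theorem h3a : ∀ u : Fin 7, ∀ u', u = u' ∨
    Cert.hits op (move u u') u u' (cp (cls u u')).1 (cp (cls u u')).2 = true := by
  decide +kernel

theorem h3b : ∀ c : Fin 5, ∀ a,
    Cert.walk op (cp c).1 (cp c).2 (path c a) a = lab (typ c) a := by
  decide +kernel

theorem h3c : ∀ u : Fin 7, ∀ u', lab (typ (cls u u')) u = lab (typ (cls u u')) u' := by
  decide +kernel

theorem h4a : ∀ s t, mk7 (bitsOf 840) s (jn s t) = true ∧ mk7 (bitsOf 840) t (jn s t) = true := by
  decide +kernel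

theorem h4b : ∀ s : Fin 7, ∀ t a,
    Cert.jwalk lab s t (jpath s t a) a = lab (jn s t) a := by
  decide +kernel

theorem rep : RepTable 7 (mk7 (bitsOf 840)) :=
  Cert.repTable_of_cert (by decide) _ op lab 0 cls cp move typ path jn jpath
    hbot h0 h1 h2 h5 h3a h3b h3c h4a h4b

end Vale.Agent.P183.Data.L38

namespace Vale.Agent.P183.Data.L49

noncomputable def g1 (l : List ℕ) (i : ℕ) : ℕ := l.getD i 0

noncomputable def g2 (l : List (List ℕ)) (i j : ℕ) : ℕ := (l.getD i []).getD j 0

noncomputable def opD : ℕ := 1547439234798162417081778434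

noncomputable def op (i : Fin 2) (x : Fin 6) : Fin 6 :=
  Fin.ofNat 6 ((opD >>> (8 * (6 * i.1 + x.1))) &&& 255)

noncomputable def labD : ℕ := 9713344461128679863644980362064899813764641786630973892945422879981088277621169586432

noncomputable def lab (t : Fin 7) (x : Fin 6) : Fin 6 :=
  Fin.ofNat 6 ((labD >>> (8 * (6 * t.1 + x.1))) &&& 255)

noncomputable def clsR : List ℕ :=
  [4410965032960, 7700977352704, 7696682059009, 8804683351554, 4398080065795, 17314547460]

noncomputable def cls (u v : Fin 6) : Fin 9 :=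
  Fin.ofNat 9 ((g1 clsR u.1 >>> (8 * v.1)) &&& 255)

noncomputable def cpA : List ℕ :=
  [0, 0, 0, 0, 0, 1, 1, 1, 3]

noncomputable def cpB : List ℕ :=
  [1, 2, 3, 4, 5, 2, 3, 5, 5]

noncomputable def cp (c : Fin 9) : Fin 6 × Fin 6 :=
  (Fin.ofNat 6 (g1 cpA c.1), Fin.ofNat 6 (g1 cpB c.1))

noncomputable def moveR : List ℕ :=
  [34636833, 43025441, 311723041, 43033633, 303342881, 43033633]

noncomputable def dec : ℕ → ℕ → List (Fin 2)
  | 0, _ => []
  | f + 1, p => if p ≤ 1 then [] else Fin.ofNat 2 (p % 8) :: dec f (p / 8)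

noncomputable def move (u v : Fin 6) : List (Fin 2) :=
  dec 2 ((g1 moveR u.1 >>> (5 * v.1)) &&& 31)

noncomputable def typN : List ℕ :=
  [4, 3, 5, 2, 6, 1, 5, 6, 6]

noncomputable def typ (c : Fin 9) : Fin 7 := Fin.ofNat 7 (g1 typN c.1)

set_option maxHeartbeats 0 in
noncomputable def pathN : List (List (List (List ℕ))) :=
  [[[], [[]], [[0], []], [], [[1], [0], []], []], [[], [], [[]], [], [[1]], []], [[], [[1, 0]], [[0]], [[]], [[1], []], []], [[], [], [[0]], [], [[]], []], [[], [[0, 1, 0]], [[0, 0]], [[0], [0, 0]], [[1], []], [[]]], [[], [], [[]], [], [], []], [[], [[0]], [[1, 0]], [[], [0]], [[0, 1], [1, 0]], []], [[], [[0, 0]], [[0, 1, 0]], [[0], [0, 0]], [[0, 0, 1], [0, 1, 0]], [[], [0, 0]]], [[], [[0, 1, 0]], [[0, 0]], [[0]], [[0, 1], [0]], [[], [0]]]]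

noncomputable def path (c : Fin 9) (a : Fin 6) : List (List (Fin 2)) :=
  ((pathN.getD c.1 []).getD a.1 []).map fun w => w.map (Fin.ofNat 2)

noncomputable def jnN : List (List ℕ) :=
  [[0, 1, 2, 3, 4, 5, 6], [1, 1, 2, 4, 4, 5, 6], [2, 2, 2, 4, 4, 5, 6], [3, 4, 4, 3, 4, 5, 6], [4, 4, 4, 4, 4, 5, 6], [5, 5, 5, 5, 5, 5, 6], [6, 6, 6, 6, 6, 6, 6]]

noncomputable def jn (s t : Fin 7) : Fin 7 := Fin.ofNat 7 (g2 jnN s.1 t.1)

set_option maxHeartbeats 0 in
noncomputable def jpathN : List (List (List (List ℕ))) :=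
  [[[[], [], [], [], [], []], [[], [], [1], [], [], []], [[], [], [1], [], [0], []], [[], [], [0], [], [1], []], [[], [0], [0], [], [0], []], [[], [0], [0], [0], [0], []], [[], [0], [0], [0], [0], [0]]], [[[], [], [1], [], [], []], [[], [], [1], [], [], []], [[], [], [1], [], [0], []], [[], [2, 0], [0], [], [1, 2, 0], []], [[], [0], [0], [], [0], []], [[], [0], [0], [0], [0], []], [[], [0], [0], [0], [0], [0]]], [[[], [], [1], [], [0], []], [[], [], [1], [], [0], []], [[], [], [1], [], [0], []], [[], [2, 0], [0], [], [0], []], [[], [0], [0], [], [0], []], [[], [0], [0], [0], [0], []], [[], [0], [0], [0], [0], [0]]], [[[], [], [0], [], [1], []], [[], [2, 0], [0], [], [1, 2, 0], []], [[], [2, 0], [0], [], [0], []], [[], [], [0], [], [1], []], [[], [0], [0], [], [0], []], [[], [0], [0], [0], [0], []], [[], [0], [0], [0], [0], [0]]], [[[], [0], [0], [], [0], []], [[], [0], [0], [], [0], []], [[], [0], [0], [], [0], []], [[], [0], [0], [], [0], []], [[], [0], [0], [], [0], []],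 [[], [0], [0], [0], [0], []], [[], [0], [0], [0], [0], [0]]], [[[], [0], [0], [0], [0], []], [[], [0], [0], [0], [0], []], [[], [0], [0], [0], [0], []], [[], [0], [0], [0], [0], []], [[], [0], [0], [0], [0], []], [[], [0], [0], [0], [0], []], [[], [0], [0], [0], [0], [0]]], [[[], [0], [0], [0], [0], [0]], [[], [0], [0], [0], [0], [0]], [[], [0], [0], [0], [0], [0]], [[], [0], [0], [0], [0], [0]], [[], [0], [0], [0], [0], [0]], [[], [0], [0], [0], [0], [0]], [[], [0], [0], [0], [0], [0]]]]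

noncomputable def jpath (s t : Fin 7) (a : Fin 6) : List (Fin 6) :=
  (((jpathN.getD s.1 []).getD t.1 []).getD a.1 []).map (Fin.ofNat 6)

theorem hbot : ∀ a, lab 0 a = a := by decide +kernel

theorem h0 : ∀ t a, lab t (lab t a) = lab t a := by decide +kernel

theorem h1 : ∀ t i a, lab t (op i (lab t a)) = lab t (op i a) := by decide +kernel

theorem h2 : ∀ s t, mk7 (bitsOf 1005) s t = true ↔ ∀ a, lab t (lab s a) = lab t a := by
  decide +kernel

theorem h5 : ∀ s t, mk7 (bitsOf 1005) s t = true → mk7 (bitsOf 1005) t s = true → s = t := by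
  decide +kernel

theorem h3a : ∀ u : Fin 6, ∀ u', u = u' ∨
    Cert.hits op (move u u') u u' (cp (cls u u')).1 (cp (cls u u')).2 = true := by
  decide +kernel

theorem h3b : ∀ c : Fin 9, ∀ a,
    Cert.walk op (cp c).1 (cp c).2 (path c a) a = lab (typ c) a := by
  decide +kernel

theorem h3c : ∀ u : Fin 6, ∀ u', lab (typ (cls u u')) u = lab (typ (cls u u')) u' := by
  decide +kernel

theorem h4a : ∀ s t, mk7 (bitsOf 1005) s (jn s t) = true ∧ mk7 (bitsOf 1005) t (jn s t) = true := by
  decide +kernel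

theorem h4b : ∀ s : Fin 7, ∀ t a,
    Cert.jwalk lab s t (jpath s t a) a = lab (jn s t) a := by
  decide +kernel

theorem rep : RepTable 7 (mk7 (bitsOf 1005)) :=
  Cert.repTable_of_cert (by decide) _ op lab 0 cls cp move typ path jn jpath
    hbot h0 h1 h2 h5 h3a h3b h3c h4a h4b

end Vale.Agent.P183.Data.L49

namespace Vale.Agent.P183.Data.L52

noncomputable def g1 (l : List ℕ) (i : ℕ) : ℕ := l.getD i 0

noncomputable def g2 (l : List (List ℕ)) (i j : ℕ) : ℕ := (l.getD i []).getD j 0

noncomputable def opD : ℕ := 1692169970648065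

noncomputable def op (i : Fin 1) (x : Fin 7) : Fin 7 :=
  Fin.ofNat 7 ((opD >>> (8 * (7 * i.1 + x.1))) &&& 255)

noncomputable def labD : ℕ := 254629504660120143827744932899968801322317455106826398794622232468188418672343342221754624

noncomputable def lab (t : Fin 7) (x : Fin 7) : Fin 7 :=
  Fin.ofNat 7 ((labD >>> (8 * (7 * t.1 + x.1))) &&& 255)

noncomputable def clsR : List ℕ :=
  [1411785848586240, 2824679849328640, 3954995049268737, 4802731215357698, 5367816019249155, 5629577112914180, 22072123066885]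

noncomputable def cls (u v : Fin 7) : Fin 21 :=
  Fin.ofNat 21 ((g1 clsR u.1 >>> (8 * v.1)) &&& 255)

noncomputable def cpA : List ℕ :=
  [0, 0, 0, 0, 0, 0, 1, 1, 1, 1, 1, 2, 2, 2, 2, 3, 3, 3, 4, 4, 5]

noncomputable def cpB : List ℕ :=
  [1, 2, 3, 4, 5, 6, 2, 3, 4, 5, 6, 3, 4, 5, 6, 4, 5, 6, 5, 6, 6]

noncomputable def cp (c : Fin 21) : Fin 7 × Fin 7 :=
  (Fin.ofNat 7 (g1 cpA c.1), Fin.ofNat 7 (g1 cpB c.1))

noncomputable def moveR : List ℕ :=
  [5461, 5461, 5461, 5461, 5461, 5461, 5461]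

noncomputable def dec : ℕ → ℕ → List (Fin 1)
  | 0, _ => []
  | f + 1, p => if p ≤ 1 then [] else Fin.ofNat 1 (p % 8) :: dec f (p / 8)

noncomputable def move (u v : Fin 7) : List (Fin 1) :=
  dec 1 ((g1 moveR u.1 >>> (2 * v.1)) &&& 3)

noncomputable def typN : List ℕ :=
  [5, 6, 5, 5, 5, 5, 6, 4, 4, 4, 4, 6, 6, 6, 6, 3, 2, 1, 3, 3, 2]

noncomputable def typ (c : Fin 21) : Fin 7 := Fin.ofNat 7 (g1 typN c.1)

set_option maxHeartbeats 0 in
noncomputable def pathN : List (List (List (List ℕ))) :=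
  [[[], [[]], [], [[0, 0, 0], [0, 0], [0], []], [[0], []], [[0, 0], [0], []], [[0, 0, 0, 0], [0, 0, 0], [0, 0], [0], []]], [[], [[0]], [[]], [[0, 0, 0, 0], [0, 0, 0], [0, 0], [0]], [[0, 0], [0]], [[0, 0, 0], [0, 0], [0]], [[0, 0, 0, 0, 0], [0, 0, 0, 0], [0, 0, 0], [0, 0], [0]]], [[], [[0], [0, 0, 0, 0], []], [], [[]], [[0, 0], [0, 0, 0, 0], []], [[0, 0, 0], [0, 0, 0, 0], []], [[0, 0, 0, 0], []]], [[], [[0], [0, 0, 0], [0, 0, 0, 0], [0, 0], []], [], [[0, 0], []], [[]], [[0, 0, 0], [0, 0, 0, 0], [0, 0], []], [[0, 0, 0, 0], [0, 0], []]], [[], [[0], [0, 0, 0, 0], [0, 0, 0], []], [], [[0, 0, 0, 0], [0, 0, 0], []], [[0, 0], [0, 0, 0], []], [[]], [[0, 0, 0], []]], [[], [[0], []], [], [[0, 0, 0, 0], []], [[0, 0], []], [[0, 0, 0], []], [[]]], [[], [[0, 0], [0, 0, 0, 0], [0, 0, 0, 0, 0], [0, 0, 0], [0]], [[], [0, 0], [0, 0, 0, 0], [0, 0, 0, 0, 0], [0, 0, 0], [0]], [[0, 0, 0], [0]], [[0]], [[0, 0, 0, 0], [0, 0, 0, 0, 0], [0, 0, 0], [0]], [[0, 0, 0, 0, 0], [0, 0, 0], [0]]], [[], [], [],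 [[]], [[0], [0, 0, 0], []], [[0, 0], [0, 0, 0], []], [[0, 0, 0], []]], [[], [], [], [[0, 0], [0], []], [[]], [[0], []], [[0, 0, 0], [0, 0], [0], []]], [[], [], [], [[0, 0, 0], [0, 0], []], [[0], [0, 0, 0], [0, 0], []], [[]], [[0, 0], []]], [[], [], [], [[0, 0, 0], []], [[0], []], [[0, 0], []], [[]]], [[], [[0, 0], [0]], [[], [0, 0, 0, 0, 0], [0]], [[0, 0, 0, 0, 0], [0]], [[0, 0, 0], [0]], [[0, 0, 0, 0], [0]], [[0]]], [[], [[0, 0], [0, 0, 0, 0, 0], [0, 0, 0, 0], [0]], [[], [0, 0, 0], [0, 0, 0, 0], [0]], [[0, 0, 0, 0, 0], [0, 0, 0, 0], [0]], [[0, 0, 0], [0, 0, 0, 0], [0]], [[0]], [[0, 0, 0, 0], [0]]], [[], [[0, 0], [0, 0, 0, 0, 0], [0]], [[], [0, 0, 0, 0], [0, 0, 0, 0, 0], [0]], [[0]], [[0, 0, 0], [0, 0, 0, 0, 0], [0]], [[0, 0, 0, 0], [0, 0, 0, 0, 0], [0]], [[0, 0, 0, 0, 0], [0]]], [[], [[0, 0], [0]], [[], [0]], [[0, 0, 0, 0, 0], [0]], [[0, 0, 0], [0]], [[0, 0, 0, 0], [0]], [[0]]], [[], [], [], [], [[]], [[0], [0, 0]], [[0, 0]]], [[], [], [], [], [], [[]], [[0]]], [[], [], [],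 [], [], [], [[]]], [[], [], [], [], [[], [0]], [[0]], [[0, 0]]], [[], [], [], [], [[], [0, 0]], [[0], [0, 0]], [[0, 0]]], [[], [], [], [], [], [[], [0]], [[0]]]]

noncomputable def path (c : Fin 21) (a : Fin 7) : List (List (Fin 1)) :=
  ((pathN.getD c.1 []).getD a.1 []).map fun w => w.map (Fin.ofNat 1)

noncomputable def jnN : List (List ℕ) :=
  [[0, 1, 2, 3, 4, 5, 6], [1, 1, 2, 3, 4, 5, 6], [2, 2, 2, 3, 4, 5, 6], [3, 3, 3, 3, 4, 5, 6], [4, 4, 4, 4, 4, 5, 6], [5, 5, 5, 5, 5, 5, 6], [6, 6, 6, 6, 6, 6, 6]]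

noncomputable def jn (s t : Fin 7) : Fin 7 := Fin.ofNat 7 (g2 jnN s.1 t.1)

set_option maxHeartbeats 0 in
noncomputable def jpathN : List (List (List (List ℕ))) :=
  [[[[], [], [], [], [], [], []], [[], [], [], [], [], [], [3]], [[], [], [], [], [], [3], [3]], [[], [], [], [], [3], [3], [3]], [[], [], [], [1], [1], [1], [1]], [[], [0], [], [0], [0], [0], [0]], [[], [0], [0], [0], [0], [0], [0]]], [[[], [], [], [], [], [], [3]], [[], [], [], [], [], [], [3]], [[], [], [], [], [], [3], [3]], [[], [], [], [], [3], [3], [3]], [[], [], [], [1], [1], [1], [1]], [[], [0], [], [0], [0], [0], [0]], [[], [0], [0], [0], [0], [0], [0]]], [[[], [], [], [], [], [3], [3]], [[], [], [], [], [], [3], [3]], [[], [], [], [], [], [3], [3]], [[], [], [], [], [3], [3], [3]], [[], [], [], [1], [1], [1], [1]], [[], [0], [], [0], [0], [0], [0]], [[], [0], [0], [0], [0], [0], [0]]], [[[], [], [], [], [3], [3], [3]], [[], [], [], [], [3], [3], [3]], [[], [], [], [], [3], [3], [3]], [[], [], [], [],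 [3], [3], [3]], [[], [], [], [1], [1], [1], [1]], [[], [0], [], [0], [0], [0], [0]], [[], [0], [0], [0], [0], [0], [0]]], [[[], [], [], [1], [1], [1], [1]], [[], [], [], [1], [1], [1], [1]], [[], [], [], [1], [1], [1], [1]], [[], [], [], [1], [1], [1], [1]], [[], [], [], [1], [1], [1], [1]], [[], [0], [], [0], [0], [0], [0]], [[], [0], [0], [0], [0], [0], [0]]], [[[], [0], [], [0], [0], [0], [0]], [[], [0], [], [0], [0], [0], [0]], [[], [0], [], [0], [0], [0], [0]], [[], [0], [], [0], [0], [0], [0]], [[], [0], [], [0], [0], [0], [0]], [[], [0], [], [0], [0], [0], [0]], [[], [0], [0], [0], [0], [0], [0]]], [[[], [0], [0], [0], [0], [0], [0]], [[], [0], [0], [0], [0], [0], [0]], [[], [0], [0], [0], [0], [0], [0]], [[], [0], [0], [0], [0], [0], [0]], [[], [0], [0], [0], [0], [0], [0]], [[], [0], [0], [0], [0], [0], [0]], [[], [0], [0], [0], [0], [0], [0]]]]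

noncomputable def jpath (s t : Fin 7) (a : Fin 7) : List (Fin 7) :=
  (((jpathN.getD s.1 []).getD t.1 []).getD a.1 []).map (Fin.ofNat 7)

theorem hbot : ∀ a, lab 0 a = a := by decide +kernel

theorem h0 : ∀ t a, lab t (lab t a) = lab t a := by decide +kernel

theorem h1 : ∀ t i a, lab t (op i (lab t a)) = lab t (op i a) := by decide +kernel

theorem h2 : ∀ s t, mk7 (bitsOf 1023) s t = true ↔ ∀ a, lab t (lab s a) = lab t a := by
  decide +kernel

theorem h5 : ∀ s t, mk7 (bitsOf 1023) s t = true → mk7 (bitsOf 1023) t s = true → s = t := by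
  decide +kernel

theorem h3a : ∀ u : Fin 7, ∀ u', u = u' ∨
    Cert.hits op (move u u') u u' (cp (cls u u')).1 (cp (cls u u')).2 = true := by
  decide +kernel

theorem h3b : ∀ c : Fin 21, ∀ a,
    Cert.walk op (cp c).1 (cp c).2 (path c a) a = lab (typ c) a := by
  decide +kernel

theorem h3c : ∀ u : Fin 7, ∀ u', lab (typ (cls u u')) u = lab (typ (cls u u')) u' := by
  decide +kernel

theorem h4a : ∀ s t, mk7 (bitsOf 1023) s (jn s t) = true ∧ mk7 (bitsOf 1023) t (jn s t) = true := by
  decide +kernel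

theorem h4b : ∀ s : Fin 7, ∀ t a,
    Cert.jwalk lab s t (jpath s t a) a = lab (jn s t) a := by
  decide +kernel

theorem rep : RepTable 7 (mk7 (bitsOf 1023)) :=
  Cert.repTable_of_cert (by decide) _ op lab 0 cls cp move typ path jn jpath
    hbot h0 h1 h2 h5 h3a h3b h3c h4a h4b

end Vale.Agent.P183.Data.L52
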