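import Vale.Agent.P183.Cert
import Vale.Agent.P183.Mk7

/-!
# Certificates for seven element lattices, part 3
-/

namespace Vale.Agent.P183.Data.L01

noncomputable def g1 (l : List ℕ) (i : ℕ) : ℕ := l.getD i 0

noncomputable def g2 (l : List (List ℕ)) (i j : ℕ) : ℕ := (l.getD i []).getD j 0

noncomputable def opD : ℕ := 89389182536573346791979541700206188726605591946213905187716697136026884228986210270215210493464118637576936961527205979336761590610321479806566272823069687227260831324645023973234552113988354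

noncomputable def op (i : Fin 5) (x : Fin 16) : Fin 16 :=
  Fin.ofNat 16 ((opD >>> (8 * (16 * i.1 + x.1))) &&& 255)

noncomputable def labD : ℕ := 67018929239433996730439013634110089209530927018465853681202103650076934573702979478510889702934740546389004347255722043187989652099586624099893267240768779224542630882340929873692318657329170178057190343078153615617405411823583488

noncomputable def lab (t : Fin 7) (x : Fin 16) : Fin 16 :=
  Fin.ofNat 16 ((labD >>> (8 * (16 * t.1 + x.1))) &&& 255)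

noncomputable def clsR : List ℕ :=
  [7985854298009839486889422277652316160, 18676935430165973358269941269689139200, 29352055731762687296182663144793965057, 1339612827835675719449247876573561602, 41217063233607113605224815521165410562, 1532501247419978985103470481641701891, 58710155701393135473133866696966078464, 65382358974346654243825269911475783425, 69131278739450795384859681437114173442, 73119023811717623167931905950966941954, 80061206174841942882850304152365566467, 3998088863549130256417669563062356738, 2663688853316733859582052757350384388, 2674033040981619916553467856617999365, 60927147279597372927408162016514, 40724276783603440893941138198022]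

noncomputable def cls (u v : Fin 16) : Fin 61 :=
  Fin.ofNat 61 ((g1 clsR u.1 >>> (8 * v.1)) &&& 255)

noncomputable def cpA : List ℕ :=
  [0, 0, 0, 0, 0, 0, 0, 1, 1, 1, 1, 1, 1, 1, 1, 2, 2, 2, 2, 2, 2, 2, 2, 3, 3, 3, 4, 4, 4, 4, 4, 4, 5, 5, 5, 5, 5, 5, 5, 5, 6, 6, 6, 6, 6, 7, 7, 7, 7, 7, 8, 8, 8, 9, 9, 9, 10, 10, 10, 10, 10]

noncomputable def cpB : List ℕ :=
  [1, 2, 3, 5, 12, 13, 15, 7, 8, 9, 10, 11, 13, 14, 15, 6, 8, 9, 10, 11, 12, 14, 15, 6, 7, 10, 6, 7, 10, 12, 13, 15, 6, 7, 8, 9, 11, 12, 13, 14, 11, 12, 13, 14, 15, 11, 12, 13, 14, 15, 12, 13, 15, 12, 13, 15, 11, 12, 13, 14, 15]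

noncomputable def cp (c : Fin 61) : Fin 16 × Fin 16 :=
  (Fin.ofNat 16 (g1 cpA c.1), Fin.ofNat 16 (g1 cpB c.1))

noncomputable def moveR : List ℕ :=
  [48229565187907070245293668942189825309256217266177, 46790899861941109358402339398618063362345956018177, 46790977566100160488542349240298184461203590365185, 27138898696232831849538279418519928289029543520503809, 48435088855680640250806604410967323072668574435337, 3367322619529303477568808814662401750016287607752705, 46790899513492644571874374529632915523327827771404, 46790899513492717258818656332018252132185974769676, 48229565187769568164401107460509441858768409200652, 48229565187907153274684779823733477786471622510668, 46790899513491965679077529671315794237461127759884, 562952295799205233232775203345244289627505060481088, 24508195746189723750337283165906289608466619502299137, 27127023245871853963456881716915954689755421719136257, 3554395576591161344640524577772906032891011971156032,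 48510055657986181514351100971976062519583770150913]

noncomputable def dec : ℕ → ℕ → List (Fin 5)
  | 0, _ => []
  | f + 1, p => if p ≤ 1 then [] else Fin.ofNat 5 (p % 8) :: dec f (p / 8)

noncomputable def move (u v : Fin 16) : List (Fin 5) :=
  dec 4 ((g1 moveR u.1 >>> (11 * v.1)) &&& 2047)

noncomputable def typN : List ℕ :=
  [3, 4, 1, 5, 6, 6, 6, 6, 6, 6, 6, 6, 6, 6, 6, 6, 6, 6, 6, 6, 6, 6, 6, 6, 6, 6, 6, 6, 6, 6, 6, 6, 6, 6, 6, 6, 6, 6, 6, 6, 6, 2, 2, 6, 2, 6, 2, 2, 6, 2, 6, 6, 6, 6, 6, 6, 6, 2, 2, 6, 2]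

noncomputable def typ (c : Fin 61) : Fin 7 := Fin.ofNat 7 (g1 typN c.1)

set_option maxHeartbeats 0 in
noncomputable def pathN : List (List (List (List ℕ))) :=
  [[[], [[]], [], [[0]], [], [[0, 1]], [[2]], [], [[0, 2]], [], [[0, 1, 2]], [], [[3]], [[0, 3], [0]], [], [[0, 1, 3]]], [[], [], [[]], [], [[1, 0]], [[1]], [], [[2]], [], [[1, 0, 2]], [[1, 2]], [], [], [[3]], [[1, 0, 3]], [[1, 3]]], [[], [], [[0]], [[]], [[1, 1]], [[1, 0]], [], [[0, 2]], [[2]], [[1, 1, 2]], [[1, 0, 2]], [[3], []], [], [[0, 3]], [[1, 3], []], [[1, 0, 3]]], [[], [], [], [[1]], [[0]], [[]], [], [], [[1, 2]], [[0, 2]], [[2]], [], [[1, 3], [1]], [], [[0, 3]], [[3]]], [[], [[4]], [[0], [4]], [[0, 0]], [[1, 1]], [[1, 0], [4]], [[2]], [[0, 2], [2]], [[0, 0, 2]], [[1, 1, 2]], [[1, 0, 2], [2]], [[3], []], [[]], [[0, 3], []], [[1, 3], [0, 0]], [[1, 0, 3], []]], [[], [[0], [4]], [[4]], [[0, 0]], [[1, 1]], [[0, 1], [4]], [[0, 2], [2]], [[2]], [[0, 0, 2]],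 [[1, 1, 2]], [[0, 1, 2], [2]], [[3], []], [[0, 3], []], [[]], [[1, 3], [0, 0]], [[0, 1, 3], []]], [[], [[1, 0], [4]], [[0, 1], [4]], [[0, 0]], [[1, 1]], [[4]], [[1, 0, 2], [2]], [[0, 1, 2], [2]], [[0, 0, 2]], [[1, 1, 2]], [[2]], [[3], []], [[1, 0, 3], []], [[0, 1, 3], []], [[1, 3], [0, 0]], [[]]], [[], [[0, 0]], [[0], [4, 0]], [[4, 0]], [[4, 1, 0]], [[0, 1], [4, 1, 0]], [[0, 0, 2]], [[], [0, 0]], [[4, 0, 2]], [[4, 1, 0, 2]], [[0, 1, 2], [4, 1, 0, 2]], [[4, 0, 3], [4, 0]], [[3], [0, 3], [4, 0]], [[0, 3], [4, 0]], [[4, 0, 1, 3], [4, 0]], [[0, 1, 3], [4, 0, 1, 3], [4, 0]]], [[], [[0, 0]], [[0], [4], [0, 0]], [[4], [0, 0]], [[0, 1], [4, 1, 0]], [[4, 1, 0]], [[0, 0, 2]], [[0, 2], [], [0, 0]], [[], [0, 0]], [[0, 1, 2], [4, 1, 0, 2]], [[4, 1, 0, 2]], [[0, 0, 3], [3], [4], [0, 0]], [[3], [4], [0, 0]], [[0, 3], [4], [0, 0]], [[4, 1, 3], [0, 3], [4], [0, 0]], [[0, 1, 3], [4, 1, 3], [0, 3], [4], [0, 0]]], [[], [[0, 0]], [[4, 1]],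 [[0], [4, 1]], [[4], [0, 0]], [[0, 1], [4], [0, 0]], [[0, 0, 2]], [[4, 1, 2]], [[0, 2], [4, 1, 2]], [[], [0, 0]], [[0, 1, 2], [], [0, 0]], [[4, 1, 3], [0, 3], [0], [4, 1]], [[3], [0, 1, 3], [4, 0, 3], [0], [4, 1]], [[0, 3], [0], [4, 1]], [[0, 1, 3], [4, 0, 3], [0], [4, 1]], [[4, 0, 3], [0], [4, 1]]], [[], [[0, 0]], [[0], [4, 1, 0]], [[4, 1, 0]], [[4, 0, 1]], [[4], [0, 0]], [[0, 0, 2]], [[0, 2], [4, 1, 0, 2]], [[4, 1, 0, 2]], [[4, 0, 1, 2]], [[], [0, 0]], [[4, 1, 0, 3], [4, 1, 0]], [[0, 0, 3], [4, 1, 0, 3], [4, 1, 0]], [[0, 3], [4, 1, 0]], [[4, 0, 3], [4, 1, 0]], [[0, 1, 3], [4, 0, 3], [4, 1, 0]]], [[], [[4]], [[1], [4, 0, 1], [1, 0]], [[0], [4]], [[4, 0, 1], [1, 0]], [[1, 0]], [[2]], [[1, 2], [4, 0, 1, 2], [1, 0, 2]], [[0, 2], [2]], [[4, 0, 1, 2], [1, 0, 2]], [[1, 0, 2]], [[], [4]], [[3], [], [4]], [[4, 0, 3], [0], [4]], [[1, 3], [4, 0, 3], [0], [4]], [[1, 0, 3], [], [4]]], [[], [[0], [4, 0]], [[1], [4, 1, 0]], [[4,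 0]], [[4, 1, 0]], [[1, 0]], [[0, 2], [4, 0, 2]], [[1, 2], [4, 1, 0, 2]], [[4, 0, 2]], [[4, 1, 0, 2]], [[1, 0, 2]], [[4, 0, 3], [4, 0]], [[0, 3], [4, 0]], [[], [0], [4, 0]], [[4, 0, 1, 3], [4, 0]], [[1, 0, 3], [4, 0, 3], [4, 0]]], [[], [[0], [4, 0], [1, 0]], [[4, 1]], [[4, 0], [1, 0]], [[1], [4, 1]], [[1, 0]], [[2], [1, 2], [4, 1, 2]], [[4, 1, 2]], [[4, 0, 2], [1, 0, 2]], [[1, 2], [4, 1, 2]], [[1, 0, 2]], [[1, 0, 3], [4, 0, 3], [4, 0], [1, 0]], [[0, 3], [4, 0], [1, 0]], [[1, 3], [], [0], [4, 0], [1, 0]], [[], [0], [4, 0], [1, 0]], [[4, 0, 3], [4, 0], [1, 0]]], [[], [[0], [4, 1, 0]], [[1], [4, 0, 1]], [[4, 1, 0]], [[4, 0, 1]], [[1, 0]], [[2], [1, 0, 2]], [[1, 2], [4, 0, 1, 2]], [[4, 1, 0, 2]], [[4, 0, 1, 2]], [[1, 0, 2]], [[4, 1, 0, 3], [4, 1, 0]], [[0, 3], [4, 1, 0]], [[1, 3], [4, 0, 3], [4, 1, 0]], [[4, 0, 3], [4, 1, 0]], [[], [0], [4, 1, 0]]], [[], [[4], [0]], [[0]], [[4, 0]], [[4, 1, 0]], [[1], [4, 0]], [[], [0]],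 [[0, 2]], [[4, 0, 2]], [[4, 1, 0, 2]], [[1, 2], [4, 0, 2]], [[4, 0, 3], [4, 0]], [[1, 0, 3], [4, 0, 1, 3], [4, 0]], [[0, 3], [4, 0, 3], [4, 0]], [[4, 0, 1, 3], [4, 0]], [[1, 3], [4, 0]]], [[], [[4, 0]], [[0]], [[4], [0]], [[1, 0], [4, 0]], [[1], [4], [0]], [[4, 0, 2]], [[0, 2]], [[], [0]], [[1, 0, 2], [4, 0, 2]], [[1, 2], [], [0]], [[0, 3], [3], [4], [0]], [[1, 0, 3], [4, 1, 3], [1, 3], [4], [0]], [[3], [4], [0]], [[4, 1, 3], [1, 3], [4], [0]], [[1, 3], [4], [0]]], [[], [[1, 0], [4], [0]], [[0]], [[1], [4, 0]], [[4], [0]], [[4, 0]], [[1, 0, 2], [], [0]], [[0, 2]], [[1, 2], [4, 0, 2]], [[], [0]], [[4, 0, 2]], [[4, 0, 3], [1, 3], [1], [4, 0]], [[4, 0, 1, 3], [1], [4, 0]], [[3], [1, 0, 3], [4, 0, 1, 3], [1], [4, 0]], [[1, 0, 3], [4, 0, 1, 3], [1], [4, 0]], [[1, 3], [1], [4, 0]]], [[], [[1, 0], [4, 0]], [[0]], [[4, 0, 1]], [[4, 0]], [[1], [4, 0, 1]], [[1, 0, 2], [4, 0, 2]], [[0, 2]], [[4, 0, 1, 2]], [[4, 0, 2]], [[], [0]],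 [[4, 0, 1, 3], [4, 0, 1]], [[1, 0, 3], [4, 1, 0, 3], [4, 0, 1]], [[3], [1, 3], [4, 0, 1]], [[4, 1, 0, 3], [4, 0, 1]], [[1, 3], [4, 0, 1]]], [[], [[0]], [[4]], [[0, 0], [4]], [[4, 1, 0], [0]], [[1], [4, 1, 0], [0]], [[0, 2]], [[2]], [[0, 0, 2], [2]], [[4, 1, 0, 2], [0, 2]], [[1, 2], [4, 1, 0, 2], [0, 2]], [[], [4]], [[0, 3], [], [4]], [[3], [], [4]], [[1, 3], [4, 1, 3], [0, 0], [4]], [[4, 1, 3], [0, 0], [4]]], [[], [[0]], [[4], [0]], [[4, 0]], [[4, 1, 0]], [[1], [4, 1, 0]], [[0, 2]], [[2], [0, 2]], [[4, 0, 2]], [[4, 1, 0, 2]], [[1, 2], [4, 1, 0, 2]], [[4, 0, 3], [4, 0]], [[], [4], [0]], [[0, 0, 3], [4, 0]], [[4, 0, 1, 3], [4, 0]], [[1, 3], [4, 0, 1, 3], [4, 0]]], [[], [[0]], [[4], [1], [4, 0]], [[4, 0, 1], [0]], [[1], [4, 0]], [[4, 0]], [[0, 2]], [[2], [1, 2], [4, 0, 2]], [[4, 0, 1, 2], [0, 2]], [[1, 2], [4, 0, 2]], [[4, 0, 2]], [[0, 3], [4, 0, 1, 3], [4, 0, 1], [0]], [[4, 0, 1, 3], [4, 0, 1], [0]], [[0, 0, 3], [4, 0,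 1], [0]], [[], [4], [1], [4, 0]], [[1, 3], [], [4], [1], [4, 0]]], [[], [[0]], [[0, 0], [4, 0, 1]], [[4, 0, 1]], [[4, 0]], [[1], [4, 0]], [[0, 2]], [[0, 0, 2], [4, 0, 1, 2]], [[4, 0, 1, 2]], [[4, 0, 2]], [[1, 2], [4, 0, 2]], [[4, 0, 1, 3], [4, 0, 1]], [[0, 3], [4, 0, 1, 3], [4, 0, 1]], [[0, 0, 3], [4, 0, 1]], [[4, 1, 0, 3], [4, 0, 1]], [[], [0, 0], [4, 0, 1]]], [[], [[4], [0, 0]], [[0, 1], [4, 1, 0]], [[0, 0]], [[1, 1]], [[4, 1, 0]], [[], [0, 0]], [[0, 1, 2], [4, 1, 0, 2]], [[0, 0, 2]], [[1, 1, 2]], [[4, 1, 0, 2]], [[0, 0, 3], [0, 0]], [[3], [0, 0]], [[0, 3], [3], [0, 0]], [[1, 3], [0, 0]], [[1, 0, 3], [3], [0, 0]]], [[], [[4, 0]], [[0], [4, 0]], [[0, 0]], [[1, 1]], [[1, 0], [4, 0]], [[4, 0, 2]], [[], [0, 0]], [[0, 0, 2]], [[1, 1, 2]], [[1, 0, 2], [4, 0, 2]], [[0, 0, 3], [0, 0]], [[0, 3], [3], [0, 0]], [[3], [0, 0]], [[1, 3], [0, 0]], [[0, 1, 3], [3], [0, 0]]], [[], [[0], [4, 0, 1]], [[4, 0, 1]], [[0, 0]], [[1, 1]],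 [[4], [0, 0]], [[0, 2], [4, 0, 1, 2]], [[4, 0, 1, 2]], [[0, 0, 2]], [[1, 1, 2]], [[], [0, 0]], [[0, 0, 3], [0, 0]], [[1, 0, 3], [3], [0, 0]], [[0, 1, 3], [3], [0, 0]], [[1, 3], [0, 0]], [[3], [0, 0]]], [[], [[4], [0, 0]], [[4, 1]], [[1]], [[0, 0]], [[0], [4, 1]], [[], [0, 0]], [[4, 1, 2]], [[1, 2]], [[0, 0, 2]], [[0, 2], [4, 1, 2]], [[1, 3], [1]], [[3], [1, 1, 3], [1]], [[0, 3], [4, 0, 3], [1]], [[1, 1, 3], [1]], [[4, 0, 3], [1]]], [[], [[0, 1], [4, 0]], [[0], [4, 0]], [[1]], [[0, 0]], [[4, 0]], [[0, 1, 2], [4, 0, 2]], [[], [0, 0]], [[1, 2]], [[0, 0, 2]], [[4, 0, 2]], [[1, 3], [1]], [[4, 0, 1, 3], [1]], [[3], [1, 1, 3], [1]], [[1, 1, 3], [1]], [[0, 1, 3], [4, 0, 1, 3], [1]]], [[], [[4, 1]], [[1, 0], [4, 1]], [[1]], [[0, 0]], [[4], [0, 0]], [[4, 1, 2]], [[1, 0, 2], [4, 1, 2]], [[1, 2]], [[0, 0, 2]], [[], [0, 0]], [[1, 3], [1]], [[1, 0, 3], [4, 1, 0, 3], [1]], [[4, 1, 0, 3], [1]], [[1, 1, 3], [1]], [[3], [1, 1, 3], [1]]],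 [[], [[4], [1]], [[4, 1]], [[1, 1]], [[1]], [[1, 0], [4, 1]], [[2], [1, 2]], [[4, 1, 2]], [[1, 1, 2]], [[1, 2]], [[1, 0, 2], [4, 1, 2]], [[1, 1, 3], [1, 1]], [[], [1]], [[0, 1, 3], [], [1]], [[0, 0, 3], [1, 1]], [[4, 0, 3], [1, 1]]], [[], [[0], [4, 0]], [[4], [1]], [[1, 1]], [[1]], [[4, 0]], [[0, 2], [4, 0, 2]], [[2], [1, 2]], [[1, 1, 2]], [[1, 2]], [[4, 0, 2]], [[1, 1, 3], [1, 1]], [[4, 0, 1, 3], [1, 1]], [[], [1]], [[0, 0, 3], [1, 1]], [[0, 3], [4, 0, 1, 3], [1, 1]]], [[], [[4, 1]], [[0, 1], [4, 1]], [[1, 1]], [[1]], [[0], [4, 1]], [[4, 1, 2]], [[0, 1, 2], [4, 1, 2]], [[1, 1, 2]], [[1, 2]], [[2], [1, 2]], [[1, 1, 3], [1, 1]], [[0, 3], [], [1]], [[4, 1, 0, 3], [1, 1]], [[0, 0, 3], [1, 1]], [[], [1]]], [[], [[1], [4, 1, 0]], [[0], [4, 0, 1]], [[4, 1, 0]], [[4, 0, 1]], [[0, 0]], [[], [0, 0]], [[0, 2], [4, 0, 1, 2]], [[4, 1, 0, 2]], [[4, 0, 1, 2]], [[0, 0, 2]], [[4, 1, 0, 3], [4, 1, 0]], [[1, 3], [4, 1, 0]], [[0, 3],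 [4, 0, 3], [4, 1, 0]], [[4, 0, 3], [4, 1, 0]], [[3], [1, 3], [4, 1, 0]]], [[], [[1], [4, 0, 1]], [[0], [4, 0]], [[4, 0, 1]], [[4, 0]], [[0, 0]], [[1, 2], [4, 0, 1, 2]], [[], [0, 0]], [[4, 0, 1, 2]], [[4, 0, 2]], [[0, 0, 2]], [[4, 0, 1, 3], [4, 0, 1]], [[1, 3], [4, 0, 1]], [[0, 3], [4, 1, 0, 3], [4, 0, 1]], [[4, 1, 0, 3], [4, 0, 1]], [[0, 0, 3], [4, 0, 1, 3], [4, 0, 1]]], [[], [[1], [4], [0, 0]], [[4, 0, 1]], [[4], [0, 0]], [[0], [4, 0, 1]], [[0, 0]], [[1, 2], [], [0, 0]], [[4, 0, 1, 2]], [[], [0, 0]], [[0, 2], [4, 0, 1, 2]], [[0, 0, 2]], [[0, 0, 3], [3], [4], [0, 0]], [[1, 3], [4], [0, 0]], [[0, 3], [4, 0, 3], [1, 3], [4], [0, 0]], [[4, 0, 3], [1, 3], [4], [0, 0]], [[3], [4], [0, 0]]], [[], [[4, 1]], [[0], [4], [0, 0]], [[1], [4, 1]], [[4], [0, 0]], [[0, 0]], [[4, 1, 2]], [[0, 2], [], [0, 0]], [[1, 2], [4, 1, 2]], [[], [0, 0]], [[0, 0, 2]], [[4, 1, 3], [1, 3], [1], [4, 1]], [[1, 3], [1], [4, 1]], [[4, 1, 0, 3], [1],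 [4, 1]], [[0, 3], [4, 1, 0, 3], [1], [4, 1]], [[3], [0, 3], [4, 1, 0, 3], [1], [4, 1]]], [[], [[0], [4, 0], [0, 1]], [[0, 1]], [[0, 0], [4]], [[4, 0], [0, 1]], [[4]], [[0, 2], [4, 0, 2], [0, 1, 2]], [[0, 1, 2]], [[0, 0, 2], [2]], [[4, 0, 2], [0, 1, 2]], [[2]], [[], [4]], [[4, 1, 3], [0, 0], [4]], [[0, 1, 3], [], [4]], [[0, 3], [4, 1, 3], [0, 0], [4]], [[3], [], [4]]], [[], [[0], [4, 0, 1]], [[0, 1]], [[4, 1, 0]], [[4, 0, 1]], [[0, 0], [4, 1, 0]], [[0, 2], [4, 0, 1, 2]], [[0, 1, 2]], [[4, 1, 0, 2]], [[4, 0, 1, 2]], [[0, 0, 2], [4, 1, 0, 2]], [[4, 1, 0, 3], [4, 1, 0]], [[], [0, 0], [4, 1, 0]], [[0, 1, 3], [4, 1, 0, 3], [4, 1, 0]], [[4, 0, 3], [4, 1, 0]], [[0, 0, 3], [4, 1, 0]]], [[], [[0], [4, 0]], [[0, 1]], [[4, 0, 1]], [[4, 0]], [[4], [0, 1]], [[0, 2], [4, 0, 2]], [[0, 1, 2]], [[4, 0, 1, 2]], [[4, 0, 2]], [[2], [0, 1, 2]], [[4, 0, 1, 3], [4, 0, 1]], [[0, 3], [4, 1, 0, 3], [4, 0, 1]], [[], [4], [0, 1]], [[4, 1, 0, 3],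 [4, 0, 1]], [[0, 0, 3], [4, 0, 1]]], [[], [[4, 1]], [[0, 1]], [[4, 1, 0], [0, 1]], [[0], [4, 1]], [[4], [0], [4, 1]], [[4, 1, 2]], [[0, 1, 2]], [[4, 1, 0, 2], [0, 1, 2]], [[0, 2], [4, 1, 2]], [[2], [0, 2], [4, 1, 2]], [[0, 1, 3], [4, 1, 0, 3], [4, 1, 0], [0, 1]], [[0, 3], [], [4], [0], [4, 1]], [[4, 1, 0, 3], [4, 1, 0], [0, 1]], [[], [4], [0], [4, 1]], [[0, 0, 3], [4, 1, 0], [0, 1]]], [[], [[4]], [[0], [4]], [[0, 0]], [[1, 1]], [[1, 0], [4]], [[2]], [[0, 2], [2]], [[0, 0, 2]], [[1, 1, 2]], [[1, 0, 2], [2]], [[], [2]], [[3], [], [2]], [[4, 0, 3], [0, 0]], [[1, 3], [0, 0]], [[0, 1, 3], [4, 0, 3], [0, 0]]], [[], [], [[0]], [[0, 0]], [[1, 1]], [[1, 0]], [], [[0, 2]], [[0, 0, 2]], [[1, 1, 2]], [[1, 0, 2]], [[0, 0, 3], [0, 0]], [[]], [[0, 3], []], [[1, 3], [0, 0]], [[1, 0, 3], []]], [[], [], [[0]], [[0, 0]], [[1, 1]], [[1, 0]], [], [[2]], [[0, 0, 2]], [[1, 1, 2]], [[1, 0, 2]], [[0, 0, 3], [0, 0]], [[3], []], [[]], [[1, 3],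 [0, 0]], [[0, 1, 3], []]], [[], [[0], [4, 1]], [[4, 1]], [[0, 0]], [[1, 1]], [[0, 1], [4, 1]], [[2], [1, 1, 2]], [[4, 1, 2]], [[0, 0, 2]], [[1, 1, 2]], [[0, 1, 2], [4, 1, 2]], [[0, 0, 3], [0, 0]], [[3], [1, 3], [0, 0]], [[0, 1, 3], [4, 0, 3], [0, 0]], [[1, 3], [0, 0]], [[4, 0, 3], [0, 0]]], [[], [], [[0]], [[0, 0]], [[1, 1]], [[4]], [], [[0, 2]], [[0, 0, 2]], [[1, 1, 2]], [[2]], [[0, 0, 3], [0, 0]], [[3], []], [[0, 1, 3], []], [[1, 3], [0, 0]], [[]]], [[], [[0], [4]], [[4]], [[0, 0]], [[1, 1]], [[0, 1], [4]], [[0, 2], [2]], [[2]], [[0, 0, 2]], [[1, 1, 2]], [[0, 1, 2], [2]], [[], [2]], [[1, 0, 3], [4, 1, 3], [0, 0]], [[3], [], [2]], [[1, 3], [0, 0]], [[4, 1, 3], [0, 0]]], [[], [], [[0]], [[0, 0]], [[1, 1]], [[1, 0]], [], [[2]], [[0, 0, 2]], [[1, 1, 2]], [[1, 0, 2]], [[0, 0, 3], [0, 0]], [[], [2]], [[3], [], [2]], [[1, 3], [0, 0]], [[1, 0, 3], [], [2]]], [[], [], [[0]], [[0, 0]], [[1, 1]], [[1, 0]], [], [[0, 2]], [[0,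 0, 2]], [[1, 1, 2]], [[1, 0, 2]], [[0, 0, 3], [0, 0]], [[0, 3], [], [0, 2]], [[], [0, 2]], [[1, 3], [0, 0]], [[0, 1, 3], [], [0, 2]]], [[], [[1, 0], [4, 0]], [[4], [1, 1]], [[0, 0]], [[1, 1]], [[4, 0]], [[1, 0, 2], [4, 0, 2]], [[2], [1, 1, 2]], [[0, 0, 2]], [[1, 1, 2]], [[4, 0, 2]], [[0, 0, 3], [0, 0]], [[4, 0, 1, 3], [0, 0]], [[3], [1, 3], [0, 0]], [[1, 3], [0, 0]], [[1, 0, 3], [4, 0, 1, 3], [0, 0]]], [[], [], [[0]], [[0, 0]], [[1, 1]], [[1, 0]], [], [[0, 2]], [[0, 0, 2]], [[1, 1, 2]], [[1, 0, 2]], [[0, 0, 3], [0, 0]], [[1, 0, 3], [], [0, 2]], [[3], [], [0, 2]], [[1, 3], [0, 0]], [[], [0, 2]]], [[], [[4], [0, 0]], [[0, 1], [4, 1, 0]], [[0, 0]], [[1, 1]], [[4, 1, 0]], [[2], [0, 0, 2]], [[0, 1, 2], [4, 1, 0, 2]], [[0, 0, 2]], [[1, 1, 2]], [[4, 1, 0, 2]], [[0, 0, 3], [0, 0]], [[], [0, 0, 2]], [[0, 3], [], [0, 0, 2]], [[1, 3], [0, 0]], [[1, 0, 3], [], [0, 0, 2]]], [[], [[4, 0]], [[0], [4, 0]], [[0, 0]], [[1, 1]], [[1,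 0], [4, 0]], [[4, 0, 2]], [[2], [0, 0, 2]], [[0, 0, 2]], [[1, 1, 2]], [[1, 0, 2], [4, 0, 2]], [[0, 0, 3], [0, 0]], [[0, 3], [], [0, 0, 2]], [[], [0, 0, 2]], [[1, 3], [0, 0]], [[0, 1, 3], [], [0, 0, 2]]], [[], [[0], [4, 0, 1]], [[4, 0, 1]], [[0, 0]], [[1, 1]], [[4], [0, 0]], [[0, 2], [4, 0, 1, 2]], [[4, 0, 1, 2]], [[0, 0, 2]], [[1, 1, 2]], [[2], [0, 0, 2]], [[0, 0, 3], [0, 0]], [[1, 0, 3], [], [0, 0, 2]], [[0, 1, 3], [], [0, 0, 2]], [[1, 3], [0, 0]], [[], [0, 0, 2]]], [[], [[0], [4, 1]], [[4, 1]], [[0, 0]], [[1, 1]], [[0, 1], [4, 1]], [[2], [1, 1, 2]], [[4, 1, 2]], [[0, 0, 2]], [[1, 1, 2]], [[0, 1, 2], [4, 1, 2]], [[0, 0, 3], [0, 0]], [[], [1, 1, 2]], [[0, 3], [], [1, 1, 2]], [[1, 3], [0, 0]], [[4, 0, 3], [0, 0]]], [[], [[1, 0], [4, 0]], [[4], [1, 1]], [[0, 0]], [[1, 1]], [[4, 0]], [[1, 0, 2], [4, 0, 2]], [[2], [1, 1, 2]], [[0, 0, 2]], [[1, 1, 2]], [[4, 0, 2]], [[0, 0, 3], [0, 0]], [[4, 0, 1, 3], [0, 0]], [[], [1, 1,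 2]], [[1, 3], [0, 0]], [[0, 1, 3], [], [1, 1, 2]]], [[], [[4, 1]], [[0], [4, 1]], [[0, 0]], [[1, 1]], [[4], [1, 1]], [[4, 1, 2]], [[0, 2], [4, 1, 2]], [[0, 0, 2]], [[1, 1, 2]], [[2], [1, 1, 2]], [[0, 0, 3], [0, 0]], [[0, 3], [4, 1, 0, 3], [0, 0]], [[4, 1, 0, 3], [0, 0]], [[1, 3], [0, 0]], [[], [1, 1, 2]]], [[], [[1, 0], [4]], [[0, 1], [4]], [[0, 0]], [[1, 1]], [[4]], [[1, 0, 2], [2]], [[0, 1, 2], [2]], [[0, 0, 2]], [[1, 1, 2]], [[2]], [[], [2]], [[4, 1, 3], [0, 0]], [[0, 3], [4, 1, 3], [0, 0]], [[1, 3], [0, 0]], [[3], [], [2]]], [[], [], [[0]], [[0, 0]], [[1, 1]], [[4]], [], [[0, 2]], [[0, 0, 2]], [[1, 1, 2]], [[2]], [[0, 0, 3], [0, 0]], [[], [2]], [[0, 3], [], [2]], [[1, 3], [0, 0]], [[3], [], [2]]], [[], [], [[0]], [[0, 0]], [[1, 1]], [[1, 0]], [], [[0, 2]], [[0, 0, 2]], [[1, 1, 2]], [[1, 0, 2]], [[0, 0, 3], [0, 0]], [[0, 3], [], [1, 0, 2]], [[], [1, 0, 2]], [[1, 3], [0, 0]], [[3], [], [1, 0, 2]]], [[], [[4, 1]],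 [[0], [4, 1]], [[0, 0]], [[1, 1]], [[4], [1, 1]], [[4, 1, 2]], [[0, 2], [4, 1, 2]], [[0, 0, 2]], [[1, 1, 2]], [[2], [1, 1, 2]], [[0, 0, 3], [0, 0]], [[0, 3], [4, 1, 0, 3], [0, 0]], [[4, 1, 0, 3], [0, 0]], [[1, 3], [0, 0]], [[3], [1, 3], [0, 0]]], [[], [], [[0]], [[0, 0]], [[1, 1]], [[1, 0]], [], [[0, 2]], [[0, 0, 2]], [[1, 1, 2]], [[1, 0, 2]], [[0, 0, 3], [0, 0]], [[1, 0, 3], [], [1, 0, 2]], [[0, 1, 3], [], [1, 0, 2]], [[1, 3], [0, 0]], [[], [1, 0, 2]]]]

noncomputable def path (c : Fin 61) (a : Fin 16) : List (List (Fin 5)) :=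
  ((pathN.getD c.1 []).getD a.1 []).map fun w => w.map (Fin.ofNat 5)

noncomputable def jnN : List (List ℕ) :=
  [[0, 1, 2, 3, 4, 5, 6], [1, 1, 2, 6, 6, 6, 6], [2, 2, 2, 6, 6, 6, 6], [3, 6, 6, 3, 6, 6, 6], [4, 6, 6, 6, 4, 6, 6], [5, 6, 6, 6, 6, 5, 6], [6, 6, 6, 6, 6, 6, 6]]

noncomputable def jn (s t : Fin 7) : Fin 7 := Fin.ofNat 7 (g2 jnN s.1 t.1)

set_option maxHeartbeats 0 in
noncomputable def jpathN : List (List (List (List ℕ))) :=
  [[[[], [], [], [], [], [], [], [], [], [], [], [], [], [], [], []], [[], [], [1], [0], [0], [1], [], [6], [0], [0], [6], [0], [], [12], [0], [12]], [[], [], [1], [0], [0], [1], [], [6], [0], [0], [6], [0], [6], [6], [0], [6]], [[], [0], [], [2], [], [4], [0], [], [7], [], [9], [], [11], [2], [], [14]], [[], [], [0], [], [1], [3], [], [0], [], [6], [8], [], [], [11], [12], [3]], [[], [], [], [1], [2], [0], [], [], [6], [7], [0], [], [1], [], [13], [11]], [[], [0], [0], [0], [0], [0],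 [0], [0], [0], [0], [0], [0], [0], [0], [0], [0]]], [[[], [], [1], [0], [0], [1], [], [6], [0], [0], [6], [0], [], [12], [0], [12]], [[], [], [1], [0], [0], [1], [], [6], [0], [0], [6], [0], [], [12], [0], [12]], [[], [], [1], [0], [0], [1], [], [6], [0], [0], [6], [0], [6], [6], [0], [6]], [[], [0], [1, 0], [0], [0], [1, 0], [0], [6, 0], [0], [0], [6, 0], [0], [11, 0], [3, 0], [0], [14, 0]], [[], [2, 0], [0], [0], [0], [2, 0], [7, 0], [0], [0], [0], [7, 0], [0], [14, 0], [11, 0], [0], [3, 0]], [[], [3, 0], [4, 0], [0], [0], [0], [8, 0], [9, 0], [0], [0], [0], [0], [3, 0], [14, 0], [0], [11, 0]], [[], [0], [0], [0], [0], [0], [0], [0], [0], [0], [0], [0], [0], [0], [0], [0]]], [[[], [], [1], [0], [0], [1], [], [6], [0], [0], [6], [0], [6], [6], [0], [6]], [[], [], [1], [0], [0], [1], [], [6], [0], [0], [6], [0], [6], [6], [0], [6]], [[], [], [1], [0], [0], [1], [], [6], [0], [0], [6], [0], [6], [6], [0], [6]], [[],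 [0], [1, 0], [0], [0], [1, 0], [0], [6, 0], [0], [0], [6, 0], [0], [6, 0], [3, 0], [0], [6, 0]], [[], [2, 0], [0], [0], [0], [2, 0], [7, 0], [0], [0], [0], [7, 0], [0], [7, 0], [7, 0], [0], [3, 0]], [[], [3, 0], [4, 0], [0], [0], [0], [8, 0], [9, 0], [0], [0], [0], [0], [3, 0], [10, 0], [0], [10, 0]], [[], [0], [0], [0], [0], [0], [0], [0], [0], [0], [0], [0], [0], [0], [0], [0]]], [[[], [0], [], [2], [], [4], [0], [], [7], [], [9], [], [11], [2], [], [14]], [[], [0], [1, 0], [0], [0], [1, 0], [0], [6, 0], [0], [0], [6, 0], [0], [11, 0], [3, 0], [0], [14, 0]], [[], [0], [1, 0], [0], [0], [1, 0], [0], [6, 0], [0], [0], [6, 0], [0], [6, 0], [3, 0], [0], [6, 0]], [[], [0], [], [2], [], [4], [0], [], [7], [], [9], [], [11], [2], [], [14]], [[], [0], [0], [2, 0], [1, 0], [3, 2, 0], [0], [0], [7, 0], [6, 0], [8, 7, 0], [13, 2, 0], [11, 13, 2, 0], [2, 0], [15, 3, 2, 0], [3, 2, 0]], [[], [0], [3, 1, 0], [1, 0], [5, 0], [0],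 [0], [8, 6, 0], [6, 0], [10, 0], [0], [12, 1, 0], [1, 0], [3, 1, 0], [13, 3, 1, 0], [11, 12, 1, 0]], [[], [0], [0], [0], [0], [0], [0], [0], [0], [0], [0], [0], [0], [0], [0], [0]]], [[[], [], [0], [], [1], [3], [], [0], [], [6], [8], [], [], [11], [12], [3]], [[], [2, 0], [0], [0], [0], [2, 0], [7, 0], [0], [0], [0], [7, 0], [0], [14, 0], [11, 0], [0], [3, 0]], [[], [2, 0], [0], [0], [0], [2, 0], [7, 0], [0], [0], [0], [7, 0], [0], [7, 0], [7, 0], [0], [3, 0]], [[], [0], [0], [2, 0], [1, 0], [3, 2, 0], [0], [0], [7, 0], [6, 0], [8, 7, 0], [13, 2, 0], [11, 13, 2, 0], [2, 0], [15, 3, 2, 0], [3, 2, 0]], [[], [], [0], [], [1], [3], [], [0], [], [6], [8], [], [], [11], [12], [3]], [[], [3, 5, 0], [0], [5, 0], [2, 0], [0], [8, 10, 0], [0], [10, 0], [7, 0], [0], [15, 5, 0], [3, 5, 0], [11, 15, 5, 0], [12, 3, 5, 0], [5, 0]], [[], [0], [0], [0], [0], [0], [0], [0], [0], [0], [0], [0], [0], [0], [0], [0]]], [[[], [], [], [1],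 [2], [0], [], [], [6], [7], [0], [], [1], [], [13], [11]], [[], [3, 0], [4, 0], [0], [0], [0], [8, 0], [9, 0], [0], [0], [0], [0], [3, 0], [14, 0], [0], [11, 0]], [[], [3, 0], [4, 0], [0], [0], [0], [8, 0], [9, 0], [0], [0], [0], [0], [3, 0], [10, 0], [0], [10, 0]], [[], [0], [3, 1, 0], [1, 0], [5, 0], [0], [0], [8, 6, 0], [6, 0], [10, 0], [0], [12, 1, 0], [1, 0], [3, 1, 0], [13, 3, 1, 0], [11, 12, 1, 0]], [[], [3, 5, 0], [0], [5, 0], [2, 0], [0], [8, 10, 0], [0], [10, 0], [7, 0], [0], [15, 5, 0], [3, 5, 0], [11, 15, 5, 0], [12, 3, 5, 0], [5, 0]], [[], [], [], [1], [2], [0], [], [], [6], [7], [0], [], [1], [], [13], [11]], [[], [0], [0], [0], [0], [0], [0], [0], [0], [0], [0], [0], [0], [0], [0], [0]]], [[[], [0], [0], [0], [0], [0], [0], [0], [0], [0], [0], [0], [0], [0], [0], [0]], [[], [0], [0], [0], [0], [0], [0], [0], [0], [0], [0], [0], [0], [0], [0], [0]], [[], [0], [0], [0], [0], [0], [0], [0], [0], [0], [0],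 [0], [0], [0], [0], [0]], [[], [0], [0], [0], [0], [0], [0], [0], [0], [0], [0], [0], [0], [0], [0], [0]], [[], [0], [0], [0], [0], [0], [0], [0], [0], [0], [0], [0], [0], [0], [0], [0]], [[], [0], [0], [0], [0], [0], [0], [0], [0], [0], [0], [0], [0], [0], [0], [0]], [[], [0], [0], [0], [0], [0], [0], [0], [0], [0], [0], [0], [0], [0], [0], [0]]]]

noncomputable def jpath (s t : Fin 7) (a : Fin 16) : List (Fin 16) :=
  (((jpathN.getD s.1 []).getD t.1 []).getD a.1 []).map (Fin.ofNat 16)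

theorem hbot : ∀ a, lab 0 a = a := by decide +kernel

theorem h0 : ∀ t a, lab t (lab t a) = lab t a := by decide +kernel

theorem h1 : ∀ t i a, lab t (op i (lab t a)) = lab t (op i a) := by decide +kernel

theorem h2 : ∀ s t, mk7 (bitsOf 1) s t = true ↔ ∀ a, lab t (lab s a) = lab t a := by
  decide +kernel

theorem h5 : ∀ s t, mk7 (bitsOf 1) s t = true → mk7 (bitsOf 1) t s = true → s = t := by
  decide +kernel

theorem h3a : ∀ u : Fin 16, ∀ u', u = u' ∨
    Cert.hits op (move u u') u u' (cp (cls u u')).1 (cp (cls u u')).2 = true := by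
  decide +kernel

theorem h3b_0 : ∀ c : Fin 61, c.1 / 31 = 0 → ∀ a,
    Cert.walk op (cp c).1 (cp c).2 (path c a) a = lab (typ c) a := by
  decide +kernel

theorem h3b_1 : ∀ c : Fin 61, c.1 / 31 = 1 → ∀ a,
    Cert.walk op (cp c).1 (cp c).2 (path c a) a = lab (typ c) a := by
  decide +kernel

theorem h3b : ∀ c : Fin 61, ∀ a,
    Cert.walk op (cp c).1 (cp c).2 (path c a) a = lab (typ c) a := by
  intro c
  have hlt : c.1 / 31 < 2 := by
    have := c.2
    omega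
  generalize hk : c.1 / 31 = k at hlt
  interval_cases k
  · exact h3b_0 c hk
  · exact h3b_1 c hk

theorem h3c : ∀ u : Fin 16, ∀ u', lab (typ (cls u u')) u = lab (typ (cls u u')) u' := by
  decide +kernel

theorem h4a : ∀ s t, mk7 (bitsOf 1) s (jn s t) = true ∧ mk7 (bitsOf 1) t (jn s t) = true := by
  decide +kernel

theorem h4b : ∀ s : Fin 7, ∀ t a,
    Cert.jwalk lab s t (jpath s t a) a = lab (jn s t) a := by
  decide +kernel

theorem rep : RepTable 7 (mk7 (bitsOf 1)) :=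
  Cert.repTable_of_cert (by decide) _ op lab 0 cls cp move typ path jn jpath
    hbot h0 h1 h2 h5 h3a h3b h3c h4a h4b

end Vale.Agent.P183.Data.L01

namespace Vale.Agent.P183.Data.L07

noncomputable def g1 (l : List ℕ) (i : ℕ) : ℕ := l.getD i 0

noncomputable def g2 (l : List (List ℕ)) (i j : ℕ) : ℕ := (l.getD i []).getD j 0

noncomputable def opD : ℕ := 111298218840897813522449833904771799379492849326243921061526477996730129912523277987226230429679887008588345685229651351580497281280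

noncomputable def op (i : Fin 5) (x : Fin 11) : Fin 11 :=
  Fin.ofNat 11 ((opD >>> (8 * (11 * i.1 + x.1))) &&& 255)

noncomputable def labD : ℕ := 3553488304030995544291324780150081983370456040799824424193281118795106849063700695566869898529611828351543191350558018379421147191063805895356660854340845824

noncomputable def lab (t : Fin 7) (x : Fin 11) : Fin 11 :=
  Fin.ofNat 11 ((labD >>> (8 * (11 * t.1 + x.1))) &&& 255)

noncomputable def clsR : List ℕ :=
  [3631499969723424516931584, 4868760133757851702394880, 4840610400903874601812993, 15772704847669966425030656, 6049629174810410295035137, 21840946137319535102459904, 24183424595314879431247361, 4845166463534006756705282, 26695537802534512623222784, 387526040907147183873, 406122249310198563843]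

noncomputable def cls (u v : Fin 11) : Fin 23 :=
  Fin.ofNat 23 ((g1 clsR u.1 >>> (8 * v.1)) &&& 255)

noncomputable def cpA : List ℕ :=
  [0, 0, 0, 0, 1, 1, 1, 1, 2, 2, 2, 3, 3, 3, 4, 4, 5, 5, 5, 6, 6, 8, 8]

noncomputable def cpB : List ℕ :=
  [1, 2, 7, 10, 2, 4, 6, 9, 3, 5, 8, 7, 9, 10, 7, 8, 7, 9, 10, 7, 10, 9, 10]

noncomputable def cp (c : Fin 23) : Fin 11 × Fin 11 :=
  (Fin.ofNat 11 (g1 cpA c.1), Fin.ofNat 11 (g1 cpB c.1))

noncomputable def moveR : List ℕ :=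
  [1438971816226867476766227577950766310113281, 740106066689539294662504612624134777954385921, 11151053169359741194444893267215246138818561, 1393881988191803916668191647341214846730306, 11155987263512202994879441875657168800202818, 1393881988191803911654214873492418373926920, 1394477181180697623554151174344337055039496, 91991254851364571931054438941769405484269569, 1393881650713107429220865679335321353880083, 11150457675051874119862699325408386901623315, 1394477144855218936055496836830514775375873]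

noncomputable def dec : ℕ → ℕ → List (Fin 5)
  | 0, _ => []
  | f + 1, p => if p ≤ 1 then [] else Fin.ofNat 5 (p % 8) :: dec f (p / 8)

noncomputable def move (u v : Fin 11) : List (Fin 5) :=
  dec 5 ((g1 moveR u.1 >>> (14 * v.1)) &&& 16383)

noncomputable def typN : List ℕ :=
  [1, 2, 6, 6, 5, 6, 6, 6, 6, 6, 6, 6, 6, 6, 4, 6, 6, 6, 3, 6, 6, 6, 6]

noncomputable def typ (c : Fin 23) : Fin 7 := Fin.ofNat 7 (g1 typN c.1)

set_option maxHeartbeats 0 in
noncomputable def pathN : List (List (List (List ℕ))) :=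
  [[[], [[]], [], [[1]], [], [[2]], [], [], [[3], []], [], [[4]]], [[], [], [[]], [], [[1]], [], [[2]], [], [[3]], [[4], []], []], [[], [[3, 2, 0]], [[2, 0]], [[3, 1]], [[1]], [[3, 2]], [[2]], [[]], [[3], [3, 2, 0]], [[4], [2, 0]], [[3, 4], [4], [2, 0]]], [[], [[0]], [[3, 2, 0]], [[1]], [[3, 1]], [[2]], [[3, 2]], [[3], [0, 3], [0]], [[0, 3], [0]], [[4], []], [[]]], [[], [], [[]], [], [[1]], [], [[2]], [[3]], [], [], [[4], []]], [[], [[3, 2, 0]], [[2, 0], [3, 2, 0]], [[3, 1]], [[], [3, 2, 0]], [[3, 2]], [[2], [3, 2]], [[2, 0, 3], [3, 2, 0]], [[3], [3, 2, 0]], [[3, 4], [4], [2, 0], [3, 2, 0]], [[4], [2, 0], [3, 2, 0]]], [[], [[3, 2, 0]], [[0], [3, 2, 0]], [[3, 1]], [[1], [3, 1]], [[3, 2]], [[], [3, 2, 0]], [[0, 3], [3, 2, 0]], [[3], [3, 2, 0]], [[3, 4], [4], [0], [3, 2, 0]], [[4], [0], [3, 2, 0]]], [[], [[0]], [[3, 2, 0], [0]], [[1]], [[3, 1], [1]], [[2]], [[3, 2], [2]], [[3], [0]], [[0, 3], [0]], [[], [0]], [[4], [],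 [0]]], [[], [[2, 0], [3, 2, 0]], [[3, 2, 0]], [[], [3, 2, 0]], [[3, 1]], [[2], [3, 2]], [[3, 2]], [[2, 0, 3], [2, 0], [3, 2, 0]], [[3], [2, 0, 3], [2, 0], [3, 2, 0]], [[3, 4], [3, 2, 0]], [[4], [3, 2, 0]]], [[], [[0], [3, 2, 0]], [[3, 2, 0]], [[1], [3, 1]], [[3, 1]], [[], [3, 2, 0]], [[3, 2]], [[0, 3], [0], [3, 2, 0]], [[3], [0, 3], [0], [3, 2, 0]], [[3, 4], [3, 2, 0]], [[4], [3, 2, 0]]], [[], [[3, 2, 0], [2, 0]], [[2, 0]], [[3, 1], [1]], [[1]], [[3, 2], [2]], [[2]], [[3], [3, 2, 0], [2, 0]], [[], [2, 0]], [[4], [2, 0]], [[3, 4], [2, 0]]], [[], [[3, 2, 0]], [[2, 0], [3, 2, 0]], [[3, 1]], [[1], [3, 1]], [[3, 2]], [[2], [3, 2]], [[], [3, 1]], [[3], [3, 2, 0]], [[3, 4], [4], [2, 0], [3, 2, 0]], [[4], [2, 0], [3, 2, 0]]], [[], [[2, 0]], [[3, 2, 0]], [[0]], [[3, 1]], [[2]], [[3, 2]], [[3], [2, 0, 3], [2, 0]], [[2, 0, 3], [2, 0]], [[], [0]], [[4], [], [0]]], [[], [[0, 3, 2, 0]], [[3, 2, 0]], [[0, 3, 1]], [[3, 1]], [[0, 3,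 2]], [[3, 2]], [[3], [0, 3], [0, 3, 2, 0]], [[0, 3], [0, 3, 2, 0]], [[3, 4], [3, 2, 0]], [[], [0, 3, 1]]], [[], [[3, 2, 0]], [], [[3, 1]], [], [[3, 2]], [], [[]], [[3], [3, 2, 0]], [], [[3, 4]]], [[], [[3, 2, 0]], [[2, 0]], [[3, 1]], [[1]], [[3, 2]], [[2]], [[2, 0, 3], [], [1]], [[], [1]], [[4], [2, 0]], [[3, 4], [4], [2, 0]]], [[], [[3, 2, 0]], [[2, 0], [3, 2, 0]], [[3, 1]], [[1], [3, 1]], [[3, 2]], [[2], [3, 2]], [[], [3, 2]], [[3], [3, 2, 0]], [[3, 4], [4], [2, 0], [3, 2, 0]], [[4], [2, 0], [3, 2, 0]]], [[], [[0]], [[3, 2, 0]], [[1]], [[3, 1]], [[2]], [[3, 2]], [[3], [0, 3], [0]], [[0, 3], [0]], [[], [2]], [[4], [], [2]]], [[], [], [[3, 2, 0]], [], [[3, 1]], [], [[3, 2]], [], [[3]], [[3, 4], [3, 2, 0]], [[]]], [[], [[3, 2, 0]], [[0, 3, 2, 0], [3, 2, 0]], [[3, 1]], [[0, 3, 1], [3, 1]], [[3, 2]], [[0, 3, 2], [3, 2]], [[0, 3], [3, 2, 0]], [[3], [3, 2, 0]], [[3, 4], [0, 3, 4], [0, 3, 2, 0], [3, 2, 0]], [[0, 3, 4], [0,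 3, 2, 0], [3, 2, 0]]], [[], [[0], [3, 2, 0]], [[3, 2, 0]], [[1], [3, 1]], [[3, 1]], [[2], [3, 2]], [[3, 2]], [[0, 3], [0], [3, 2, 0]], [[3], [0, 3], [0], [3, 2, 0]], [[3, 4], [3, 2, 0]], [[], [3, 2]]], [[], [[0, 3, 2, 0]], [[3, 2, 0], [0, 3, 2, 0]], [[0, 3, 1]], [[3, 1], [0, 3, 1]], [[0, 3, 2]], [[3, 2], [0, 3, 2]], [[3], [0, 3, 2, 0]], [[0]], [[], [0]], [[3, 4], [3, 2, 0], [0, 3, 2, 0]]], [[], [[2, 0]], [[3, 2, 0], [2, 0]], [[1]], [[3, 1], [1]], [[2]], [[3, 2], [2]], [[3], [2, 0]], [[0], [2, 0]], [[4], [], [0], [2, 0]], [[], [0], [2, 0]]]]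

noncomputable def path (c : Fin 23) (a : Fin 11) : List (List (Fin 5)) :=
  ((pathN.getD c.1 []).getD a.1 []).map fun w => w.map (Fin.ofNat 5)

noncomputable def jnN : List (List ℕ) :=
  [[0, 1, 2, 3, 4, 5, 6], [1, 1, 6, 6, 4, 6, 6], [2, 6, 2, 3, 6, 6, 6], [3, 6, 3, 3, 6, 6, 6], [4, 4, 6, 6, 4, 6, 6], [5, 6, 6, 6, 6, 5, 6], [6, 6, 6, 6, 6, 6, 6]]

noncomputable def jn (s t : Fin 7) : Fin 7 := Fin.ofNat 7 (g2 jnN s.1 t.1)

set_option maxHeartbeats 0 in
noncomputable def jpathN : List (List (List (List ℕ))) :=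
  [[[[], [], [], [], [], [], [], [], [], [], []], [[], [0], [], [0], [], [0], [], [], [0], [], [9]], [[], [], [0], [], [0], [], [0], [], [7], [0], []], [[], [], [0], [], [0], [], [0], [], [7], [0], [5]], [[], [0], [], [0], [], [0], [], [4], [0], [], [9]], [[], [], [1], [], [3], [], [5], [1], [], [], [1]], [[], [0], [0], [0], [0], [0], [0], [0], [0], [0], [0]]], [[[], [0], [], [0], [], [0], [], [], [0], [], [9]], [[], [0], [], [0], [], [0], [], [], [0], [], [9]], [[], [0], [0], [0], [0], [0], [0], [8, 0], [0], [0], [9, 0]], [[], [0], [0], [0], [0], [0], [0], [8, 0], [0], [0], [5, 0]], [[], [0], [], [0], [], [0], [], [4], [0], [], [9]], [[], [0], [1, 0], [0], [3, 0], [0], [5, 0], [1, 0], [0], [10, 1, 0], [1, 0]], [[], [0], [0], [0], [0], [0], [0], [0], [0], [0], [0]]], [[[], [], [0], [], [0], [], [0], [], [7], [0], []], [[], [0], [0], [0], [0], [0], [0], [8, 0], [0], [0], [9, 0]], [[], [], [0], [], [0], [], [0], [], [7],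 [0], []], [[], [], [0], [], [0], [], [0], [], [7], [0], [5]], [[], [0], [0], [0], [0], [0], [0], [4, 0], [0], [0], [9, 0]], [[], [2, 0], [0], [4, 0], [0], [6, 0], [0], [2, 0], [7, 2, 0], [0], [2, 0]], [[], [0], [0], [0], [0], [0], [0], [0], [0], [0], [0]]], [[[], [], [0], [], [0], [], [0], [], [7], [0], [5]], [[], [0], [0], [0], [0], [0], [0], [8, 0], [0], [0], [5, 0]], [[], [], [0], [], [0], [], [0], [], [7], [0], [5]], [[], [], [0], [], [0], [], [0], [], [7], [0], [5]], [[], [0], [0], [0], [0], [0], [0], [4, 0], [0], [0], [5, 0]], [[], [2, 0], [0], [4, 0], [0], [6, 0], [0], [2, 0], [7, 2, 0], [0], [2, 0]], [[], [0], [0], [0], [0], [0], [0], [0], [0], [0], [0]]], [[[], [0], [], [0], [], [0], [], [4], [0], [], [9]], [[], [0], [], [0], [], [0], [], [4], [0], [], [9]], [[], [0], [0], [0], [0], [0], [0], [4, 0], [0], [0], [9, 0]], [[], [0], [0], [0], [0], [0], [0], [4, 0], [0], [0], [5, 0]], [[], [0], [], [0], [], [0],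 [], [4], [0], [], [9]], [[], [0], [1, 0], [0], [3, 0], [0], [5, 0], [1, 0], [0], [10, 1, 0], [1, 0]], [[], [0], [0], [0], [0], [0], [0], [0], [0], [0], [0]]], [[[], [], [1], [], [3], [], [5], [1], [], [], [1]], [[], [0], [1, 0], [0], [3, 0], [0], [5, 0], [1, 0], [0], [10, 1, 0], [1, 0]], [[], [2, 0], [0], [4, 0], [0], [6, 0], [0], [2, 0], [7, 2, 0], [0], [2, 0]], [[], [2, 0], [0], [4, 0], [0], [6, 0], [0], [2, 0], [7, 2, 0], [0], [2, 0]], [[], [0], [1, 0], [0], [3, 0], [0], [5, 0], [1, 0], [0], [10, 1, 0], [1, 0]], [[], [], [1], [], [3], [], [5], [1], [], [], [1]], [[], [0], [0], [0], [0], [0], [0], [0], [0], [0], [0]]], [[[], [0], [0], [0], [0], [0], [0], [0], [0], [0], [0]], [[], [0], [0], [0], [0], [0], [0], [0], [0], [0], [0]], [[], [0], [0], [0], [0], [0], [0], [0], [0], [0], [0]], [[], [0], [0], [0], [0], [0], [0], [0], [0], [0], [0]], [[], [0], [0], [0], [0], [0], [0], [0], [0], [0], [0]], [[], [0], [0], [0],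 [0], [0], [0], [0], [0], [0], [0]], [[], [0], [0], [0], [0], [0], [0], [0], [0], [0], [0]]]]

noncomputable def jpath (s t : Fin 7) (a : Fin 11) : List (Fin 11) :=
  (((jpathN.getD s.1 []).getD t.1 []).getD a.1 []).map (Fin.ofNat 11)

theorem hbot : ∀ a, lab 0 a = a := by decide +kernel

theorem h0 : ∀ t a, lab t (lab t a) = lab t a := by decide +kernel

theorem h1 : ∀ t i a, lab t (op i (lab t a)) = lab t (op i a) := by decide +kernel

theorem h2 : ∀ s t, mk7 (bitsOf 20) s t = true ↔ ∀ a, lab t (lab s a) = lab t a := by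
  decide +kernel

theorem h5 : ∀ s t, mk7 (bitsOf 20) s t = true → mk7 (bitsOf 20) t s = true → s = t := by
  decide +kernel

theorem h3a : ∀ u : Fin 11, ∀ u', u = u' ∨
    Cert.hits op (move u u') u u' (cp (cls u u')).1 (cp (cls u u')).2 = true := by
  decide +kernel

theorem h3b : ∀ c : Fin 23, ∀ a,
    Cert.walk op (cp c).1 (cp c).2 (path c a) a = lab (typ c) a := by
  decide +kernel

theorem h3c : ∀ u : Fin 11, ∀ u', lab (typ (cls u u')) u = lab (typ (cls u u')) u' := by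
  decide +kernel

theorem h4a : ∀ s t, mk7 (bitsOf 20) s (jn s t) = true ∧ mk7 (bitsOf 20) t (jn s t) = true := by
  decide +kernel

theorem h4b : ∀ s : Fin 7, ∀ t a,
    Cert.jwalk lab s t (jpath s t a) a = lab (jn s t) a := by
  decide +kernel

theorem rep : RepTable 7 (mk7 (bitsOf 20)) :=
  Cert.repTable_of_cert (by decide) _ op lab 0 cls cp move typ path jn jpath
    hbot h0 h1 h2 h5 h3a h3b h3c h4a h4b

end Vale.Agent.P183.Data.L07

namespace Vale.Agent.P183.Data.L14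

noncomputable def g1 (l : List ℕ) (i : ℕ) : ℕ := l.getD i 0

noncomputable def g2 (l : List (List ℕ)) (i j : ℕ) : ℕ := (l.getD i []).getD j 0

noncomputable def opD : ℕ := 217017207094379011

noncomputable def op (i : Fin 2) (x : Fin 4) : Fin 4 :=
  Fin.ofNat 4 ((opD >>> (8 * (4 * i.1 + x.1))) &&& 255)

noncomputable def labD : ℕ := 96155127185857796839217410294425129889851190152397056

noncomputable def lab (t : Fin 7) (x : Fin 4) : Fin 4 :=
  Fin.ofNat 4 ((labD >>> (8 * (4 * t.1 + x.1))) &&& 255)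

noncomputable def clsR : List ℕ :=
  [33619968, 67305472, 83886849, 328706]

noncomputable def cls (u v : Fin 4) : Fin 6 :=
  Fin.ofNat 6 ((g1 clsR u.1 >>> (8 * v.1)) &&& 255)

noncomputable def cpA : List ℕ :=
  [0, 0, 0, 1, 1, 2]

noncomputable def cpB : List ℕ :=
  [1, 2, 3, 2, 3, 3]

noncomputable def cp (c : Fin 6) : Fin 4 × Fin 4 :=
  (Fin.ofNat 4 (g1 cpA c.1), Fin.ofNat 4 (g1 cpB c.1))

noncomputable def moveR : List ℕ :=
  [85, 85, 85, 85]

noncomputable def dec : ℕ → ℕ → List (Fin 2)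
  | 0, _ => []
  | f + 1, p => if p ≤ 1 then [] else Fin.ofNat 2 (p % 8) :: dec f (p / 8)

noncomputable def move (u v : Fin 4) : List (Fin 2) :=
  dec 1 ((g1 moveR u.1 >>> (2 * v.1)) &&& 3)

noncomputable def typN : List ℕ :=
  [4, 3, 1, 5, 6, 2]

noncomputable def typ (c : Fin 6) : Fin 7 := Fin.ofNat 7 (g1 typN c.1)

set_option maxHeartbeats 0 in
noncomputable def pathN : List (List (List (List ℕ))) :=
  [[[], [[]], [], [[0]]], [[], [], [[]], [[1]]], [[], [], [], [[]]], [[], [], [[]], [[1]]], [[], [[], [1]], [[0], [1]], [[1]]], [[], [], [], [[]]]]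

noncomputable def path (c : Fin 6) (a : Fin 4) : List (List (Fin 2)) :=
  ((pathN.getD c.1 []).getD a.1 []).map fun w => w.map (Fin.ofNat 2)

noncomputable def jnN : List (List ℕ) :=
  [[0, 1, 2, 3, 4, 5, 6], [1, 1, 3, 3, 6, 5, 6], [2, 3, 2, 3, 4, 6, 6], [3, 3, 3, 3, 6, 6, 6], [4, 6, 4, 6, 4, 6, 6], [5, 5, 6, 6, 6, 5, 6], [6, 6, 6, 6, 6, 6, 6]]

noncomputable def jn (s t : Fin 7) : Fin 7 := Fin.ofNat 7 (g2 jnN s.1 t.1)

set_option maxHeartbeats 0 in
noncomputable def jpathN : List (List (List (List ℕ))) :=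
  [[[[], [], [], []], [[], [], [], [0]], [[], [], [], [2]], [[], [], [0], [0]], [[], [0], [], [2]], [[], [], [1], [0]], [[], [0], [0], [0]]], [[[], [], [], [0]], [[], [], [], [0]], [[], [], [3, 0], [0]], [[], [], [0], [0]], [[], [0], [3, 0], [0]], [[], [], [1], [0]], [[], [0], [0], [0]]], [[[], [], [], [2]], [[], [], [3, 0], [0]], [[], [], [], [2]], [[], [], [0], [0]], [[], [0], [], [2]], [[], [2, 3, 0], [3, 0], [0]], [[], [0], [0], [0]]], [[[], [], [0], [0]], [[], [], [0], [0]], [[], [], [0], [0]], [[], [], [0], [0]], [[], [0], [0], [0]], [[], [2, 0], [0], [0]], [[], [0], [0], [0]]], [[[], [0], [], [2]], [[], [0], [3, 0], [0]], [[], [0], [], [2]], [[], [0], [0], [0]], [[], [0], [], [2]], [[], [0], [1, 0], [0]], [[], [0], [0], [0]]], [[[], [], [1], [0]], [[], [], [1], [0]], [[], [2, 3, 0], [3, 0], [0]], [[], [2, 0], [0], [0]], [[], [0], [1, 0], [0]], [[], [], [1], [0]], [[], [0], [0], [0]]], [[[], [0], [0], [0]], [[],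 [0], [0], [0]], [[], [0], [0], [0]], [[], [0], [0], [0]], [[], [0], [0], [0]], [[], [0], [0], [0]], [[], [0], [0], [0]]]]

noncomputable def jpath (s t : Fin 7) (a : Fin 4) : List (Fin 4) :=
  (((jpathN.getD s.1 []).getD t.1 []).getD a.1 []).map (Fin.ofNat 4)

theorem hbot : ∀ a, lab 0 a = a := by decide +kernel

theorem h0 : ∀ t a, lab t (lab t a) = lab t a := by decide +kernel

theorem h1 : ∀ t i a, lab t (op i (lab t a)) = lab t (op i a) := by decide +kernel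

theorem h2 : ∀ s t, mk7 (bitsOf 58) s t = true ↔ ∀ a, lab t (lab s a) = lab t a := by
  decide +kernel

theorem h5 : ∀ s t, mk7 (bitsOf 58) s t = true → mk7 (bitsOf 58) t s = true → s = t := by
  decide +kernel

theorem h3a : ∀ u : Fin 4, ∀ u', u = u' ∨
    Cert.hits op (move u u') u u' (cp (cls u u')).1 (cp (cls u u')).2 = true := by
  decide +kernel

theorem h3b : ∀ c : Fin 6, ∀ a,
    Cert.walk op (cp c).1 (cp c).2 (path c a) a = lab (typ c) a := by
  decide +kernel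

theorem h3c : ∀ u : Fin 4, ∀ u', lab (typ (cls u u')) u = lab (typ (cls u u')) u' := by
  decide +kernel

theorem h4a : ∀ s t, mk7 (bitsOf 58) s (jn s t) = true ∧ mk7 (bitsOf 58) t (jn s t) = true := by
  decide +kernel

theorem h4b : ∀ s : Fin 7, ∀ t a,
    Cert.jwalk lab s t (jpath s t a) a = lab (jn s t) a := by
  decide +kernel

theorem rep : RepTable 7 (mk7 (bitsOf 58)) :=
  Cert.repTable_of_cert (by decide) _ op lab 0 cls cp move typ path jn jpath
    hbot h0 h1 h2 h5 h3a h3b h3c h4a h4b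

end Vale.Agent.P183.Data.L14

namespace Vale.Agent.P183.Data.L17

noncomputable def g1 (l : List ℕ) (i : ℕ) : ℕ := l.getD i 0

noncomputable def g2 (l : List (List ℕ)) (i j : ℕ) : ℕ := (l.getD i []).getD j 0

noncomputable def opD : ℕ := 524723395585380055552472746653865640199942

noncomputable def op (i : Fin 2) (x : Fin 9) : Fin 9 :=
  Fin.ofNat 9 ((opD >>> (8 * (9 * i.1 + x.1))) &&& 255)

noncomputable def labD : ℕ := 43324286102788850286316563639551208387308039842831149395262742201619215364602516669956906937603749237308408422980717915616182528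

noncomputable def lab (t : Fin 7) (x : Fin 9) : Fin 9 :=
  Fin.ofNat 9 ((labD >>> (8 * (9 * t.1 + x.1))) &&& 255)

noncomputable def clsR : List ℕ :=
  [92522518105617924096, 74292232704259129344, 166598293228464637441, 74003713126417368066, 148079488244918781699, 166310334440208402436, 18446749588481377026, 110680468870419449604, 432636969236366341]

noncomputable def cls (u v : Fin 9) : Fin 10 :=
  Fin.ofNat 10 ((g1 clsR u.1 >>> (8 * v.1)) &&& 255)

noncomputable def cpA : List ℕ :=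
  [0, 0, 0, 0, 0, 0, 1, 1, 1, 2]

noncomputable def cpB : List ℕ :=
  [1, 2, 3, 4, 5, 8, 2, 4, 5, 5]

noncomputable def cp (c : Fin 10) : Fin 9 × Fin 9 :=
  (Fin.ofNat 9 (g1 cpA c.1), Fin.ofNat 9 (g1 cpB c.1))

noncomputable def moveR : List ℕ :=
  [89839862103629486362170616198513886887937, 357508863999564435947396838513667943421837313, 5575228835253039504726211485302236626681857, 696903604406630241531157158934842024394753, 696903606967284453990114530948433448140801, 697239234759519396440805178238363328708609, 5575228834933593981124264871727061987754048, 5575186964571192077228908741858241365938184, 87154821552144227100354570713619760152577]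

noncomputable def dec : ℕ → ℕ → List (Fin 2)
  | 0, _ => []
  | f + 1, p => if p ≤ 1 then [] else Fin.ofNat 2 (p % 8) :: dec f (p / 8)

noncomputable def move (u v : Fin 9) : List (Fin 2) :=
  dec 6 ((g1 moveR u.1 >>> (17 * v.1)) &&& 131071)

noncomputable def typN : List ℕ :=
  [1, 2, 6, 6, 5, 6, 3, 6, 6, 6]

noncomputable def typ (c : Fin 10) : Fin 7 := Fin.ofNat 7 (g1 typN c.1)

set_option maxHeartbeats 0 in
noncomputable def pathN : List (List (List (List ℕ))) :=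
  [[[], [[]], [], [], [[0, 0]], [], [], [[0]], []], [[], [], [[]], [], [], [[0, 0]], [], [], [[0]]], [[], [[0, 1, 0], []], [[0, 0, 1], [0]], [[]], [[0, 1], [0]], [[0, 0, 1, 0, 0]], [[0]], [[0, 1, 0, 0]], [[0, 0, 1, 0], []]], [[], [[0], [0, 1], []], [[1], []], [[0, 0], [0, 1, 0, 0]], [[]], [[0, 0, 1, 0, 0]], [[0, 1], []], [[0, 1, 0, 0]], [[0, 0, 1, 0], [0, 0], [0, 1, 0, 0]]], [[], [], [], [[0, 1, 0]], [[1]], [[]], [[0]], [[0, 1, 0, 0]], [[1, 0]]], [[], [[0, 0, 1, 0], []], [[0, 0], [0, 1, 0], []], [[0, 1, 0], []], [[1], [0], [0, 1, 0, 0]], [[0, 1, 0, 0]], [[0], [0, 1, 0, 0]], [[1, 0, 0]], [[]]], [[], [], [[]], [], [], [[0, 0]], [], [], [[0]]], [[], [[0], [0, 1, 0, 0]], [[1], [0, 0], [0, 1, 0, 0]], [[0, 1, 0], [0], [0, 1, 0, 0]], [[0, 0], [0, 1, 0, 0]], [[0, 0, 1, 0, 0]], [[0, 1], [0, 0], [0, 1, 0, 0]], [[0, 1, 0, 0]], [[1, 0], [0], [0, 1, 0, 0]]], [[], [[], [0, 0, 1, 0, 0]], [[0], [0, 1, 0, 0]], [[0, 1, 0], [], [0, 0,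 1, 0, 0]], [[1], [0], [0, 1, 0, 0]], [[0, 0, 1, 0, 0]], [[0, 0, 1], [0], [0, 1, 0, 0]], [[0, 1, 0, 0]], [[1, 0], [], [0, 0, 1, 0, 0]]], [[], [[1, 0], [0, 0], [0, 0, 1, 0, 0]], [[], [0, 0, 1, 0, 0]], [[0, 0, 1, 0], [0, 0], [0, 0, 1, 0, 0]], [[1], [], [0, 0, 1, 0, 0]], [[0, 0, 1, 0, 0]], [[0, 0, 1], [], [0, 0, 1, 0, 0]], [[0, 1, 0, 0]], [[0, 0], [0, 0, 1, 0, 0]]]]

noncomputable def path (c : Fin 10) (a : Fin 9) : List (List (Fin 2)) :=
  ((pathN.getD c.1 []).getD a.1 []).map fun w => w.map (Fin.ofNat 2)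

noncomputable def jnN : List (List ℕ) :=
  [[0, 1, 2, 3, 4, 5, 6], [1, 1, 4, 4, 4, 6, 6], [2, 4, 2, 4, 4, 6, 6], [3, 4, 4, 3, 4, 6, 6], [4, 4, 4, 4, 4, 6, 6], [5, 6, 6, 6, 6, 5, 6], [6, 6, 6, 6, 6, 6, 6]]

noncomputable def jn (s t : Fin 7) : Fin 7 := Fin.ofNat 7 (g2 jnN s.1 t.1)

set_option maxHeartbeats 0 in
noncomputable def jpathN : List (List (List (List ℕ))) :=
  [[[[], [], [], [], [], [], [], [], []], [[], [0], [], [], [3], [], [], [6], []], [[], [], [0], [], [], [3], [], [], [6]], [[], [], [1], [], [], [4], [], [], [7]], [[], [0], [0], [], [3], [3], [], [6], [6]], [[], [], [], [1], [2], [0], [2], [0], [1]], [[], [0], [0], [0], [0], [0], [0], [0], [0]]], [[[], [0], [], [], [3], [], [], [6], []], [[], [0], [], [], [3], [], [], [6], []], [[], [0], [0], [], [3], [3], [], [6], [6]], [[], [0], [1, 0], [], [3], [4, 3], [], [6], [7, 6]], [[], [0], [0], [], [3], [3], [], [6], [6]], [[], [0], [6, 7, 0], [1, 0], [3, 1,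 0], [0], [7, 0], [0], [1, 0]], [[], [0], [0], [0], [0], [0], [0], [0], [0]]], [[[], [], [0], [], [], [3], [], [], [6]], [[], [0], [0], [], [3], [3], [], [6], [6]], [[], [], [0], [], [], [3], [], [], [6]], [[], [2, 0], [0], [], [5, 3], [3], [], [8, 6], [6]], [[], [0], [0], [], [3], [3], [], [6], [6]], [[], [3, 5, 0], [0], [5, 0], [2, 0], [0], [2, 0], [0], [3, 5, 0]], [[], [0], [0], [0], [0], [0], [0], [0], [0]]], [[[], [], [1], [], [], [4], [], [], [7]], [[], [0], [1, 0], [], [3], [4, 3], [], [6], [7, 6]], [[], [2, 0], [0], [], [5, 3], [3], [], [8, 6], [6]], [[], [], [1], [], [], [4], [], [], [7]], [[], [0], [0], [], [3], [3], [], [6], [6]], [[], [8, 7, 0], [4, 5, 0], [8, 7, 0], [5, 0], [0], [4, 5, 0], [0], [7, 0]], [[], [0], [0], [0], [0], [0], [0], [0], [0]]], [[[], [0], [0], [], [3], [3], [], [6], [6]], [[], [0], [0], [], [3], [3], [], [6], [6]], [[], [0], [0], [], [3], [3], [], [6], [6]], [[], [0], [0], [], [3],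 [3], [], [6], [6]], [[], [0], [0], [], [3], [3], [], [6], [6]], [[], [0], [0], [1, 0], [2, 0], [0], [2, 0], [0], [1, 0]], [[], [0], [0], [0], [0], [0], [0], [0], [0]]], [[[], [], [], [1], [2], [0], [2], [0], [1]], [[], [0], [6, 7, 0], [1, 0], [3, 1, 0], [0], [7, 0], [0], [1, 0]], [[], [3, 5, 0], [0], [5, 0], [2, 0], [0], [2, 0], [0], [3, 5, 0]], [[], [8, 7, 0], [4, 5, 0], [8, 7, 0], [5, 0], [0], [4, 5, 0], [0], [7, 0]], [[], [0], [0], [1, 0], [2, 0], [0], [2, 0], [0], [1, 0]], [[], [], [], [1], [2], [0], [2], [0], [1]], [[], [0], [0], [0], [0], [0], [0], [0], [0]]], [[[], [0], [0], [0], [0], [0], [0], [0], [0]], [[], [0], [0], [0], [0], [0], [0], [0], [0]], [[], [0], [0], [0], [0], [0], [0], [0], [0]], [[], [0], [0], [0], [0], [0], [0], [0], [0]], [[], [0], [0], [0], [0], [0], [0], [0], [0]], [[], [0], [0], [0], [0], [0], [0], [0], [0]], [[], [0], [0], [0], [0], [0], [0], [0], [0]]]]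

noncomputable def jpath (s t : Fin 7) (a : Fin 9) : List (Fin 9) :=
  (((jpathN.getD s.1 []).getD t.1 []).getD a.1 []).map (Fin.ofNat 9)

theorem hbot : ∀ a, lab 0 a = a := by decide +kernel

theorem h0 : ∀ t a, lab t (lab t a) = lab t a := by decide +kernel

theorem h1 : ∀ t i a, lab t (op i (lab t a)) = lab t (op i a) := by decide +kernel

theorem h2 : ∀ s t, mk7 (bitsOf 164) s t = true ↔ ∀ a, lab t (lab s a) = lab t a := by
  decide +kernel

theorem h5 : ∀ s t, mk7 (bitsOf 164) s t = true → mk7 (bitsOf 164) t s = true → s = t := by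
  decide +kernel

theorem h3a : ∀ u : Fin 9, ∀ u', u = u' ∨
    Cert.hits op (move u u') u u' (cp (cls u u')).1 (cp (cls u u')).2 = true := by
  decide +kernel

theorem h3b : ∀ c : Fin 10, ∀ a,
    Cert.walk op (cp c).1 (cp c).2 (path c a) a = lab (typ c) a := by
  decide +kernel

theorem h3c : ∀ u : Fin 9, ∀ u', lab (typ (cls u u')) u = lab (typ (cls u u')) u' := by
  decide +kernel

theorem h4a : ∀ s t, mk7 (bitsOf 164) s (jn s t) = true ∧ mk7 (bitsOf 164) t (jn s t) = true := by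
  decide +kernel

theorem h4b : ∀ s : Fin 7, ∀ t a,
    Cert.jwalk lab s t (jpath s t a) a = lab (jn s t) a := by
  decide +kernel

theorem rep : RepTable 7 (mk7 (bitsOf 164)) :=
  Cert.repTable_of_cert (by decide) _ op lab 0 cls cp move typ path jn jpath
    hbot h0 h1 h2 h5 h3a h3b h3c h4a h4b

end Vale.Agent.P183.Data.L17

namespace Vale.Agent.P183.Data.L25

noncomputable def g1 (l : List ℕ) (i : ℕ) : ℕ := l.getD i 0

noncomputable def g2 (l : List (List ℕ)) (i j : ℕ) : ℕ := (l.getD i []).getD j 0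

noncomputable def opD : ℕ := 147601101670952626471675340699117046107361073605648844292

noncomputable def op (i : Fin 3) (x : Fin 8) : Fin 8 :=
  Fin.ofNat 8 ((opD >>> (8 * (8 * i.1 + x.1))) &&& 255)

noncomputable def labD : ℕ := 618070685289733094116370983940410331913454099175745750199586525880177277671531249800914475017220001791844609556736

noncomputable def lab (t : Fin 7) (x : Fin 8) : Fin 8 :=
  Fin.ofNat 8 ((labD >>> (8 * (8 * t.1 + x.1))) &&& 255)

noncomputable def clsR : List ℕ :=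
  [144682540370755584, 144681445154095104, 145526978185789440, 432910721794179072, 33817089, 33817348, 33882626, 100794882]

noncomputable def cls (u v : Fin 8) : Fin 7 :=
  Fin.ofNat 7 ((g1 clsR u.1 >>> (8 * v.1)) &&& 255)

noncomputable def cpA : List ℕ :=
  [0, 0, 0, 1, 2, 2, 3]

noncomputable def cpB : List ℕ :=
  [1, 4, 6, 5, 4, 6, 7]

noncomputable def cp (c : Fin 7) : Fin 8 × Fin 8 :=
  (Fin.ofNat 8 (g1 cpA c.1), Fin.ofNat 8 (g1 cpB c.1))

noncomputable def moveR : List ℕ :=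
  [9822596359593746187159553, 9823112616349376224167937, 9822596359593743701152338, 189503699247540010631240, 1403873677138630075760641, 11226393332689539346466824, 1360136745602407204929537, 151782476527800131127361]

noncomputable def dec : ℕ → ℕ → List (Fin 3)
  | 0, _ => []
  | f + 1, p => if p ≤ 1 then [] else Fin.ofNat 3 (p % 8) :: dec f (p / 8)

noncomputable def move (u v : Fin 8) : List (Fin 3) :=
  dec 4 ((g1 moveR u.1 >>> (11 * v.1)) &&& 2047)

noncomputable def typN : List ℕ :=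
  [5, 1, 6, 3, 6, 2, 4]

noncomputable def typ (c : Fin 7) : Fin 7 := Fin.ofNat 7 (g1 typN c.1)

set_option maxHeartbeats 0 in
noncomputable def pathN : List (List (List (List ℕ))) :=
  [[[], [[]], [[0, 2, 0]], [[2, 0]], [], [[0, 2]], [[0]], [[2]]], [[], [], [], [], [[]], [], [], []], [[], [[2, 2, 1]], [[2, 0]], [[2, 2, 0]], [[0]], [[2], [0]], [[]], [[2, 2], [0]]], [[], [], [], [], [[0, 0]], [[]], [[0]], []], [[], [[2, 2, 1]], [[2, 0]], [[2, 2, 0]], [[0]], [[2], [0]], [[2, 2, 2], [0]], [[2, 2], [0]]], [[], [], [], [], [[0]], [], [[]], []], [[], [], [], [], [[1, 0, 0]], [[1]], [[1, 0]], [[]]]]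

noncomputable def path (c : Fin 7) (a : Fin 8) : List (List (Fin 3)) :=
  ((pathN.getD c.1 []).getD a.1 []).map fun w => w.map (Fin.ofNat 3)

noncomputable def jnN : List (List ℕ) :=
  [[0, 1, 2, 3, 4, 5, 6], [1, 1, 2, 3, 4, 6, 6], [2, 2, 2, 3, 4, 6, 6], [3, 3, 3, 3, 4, 6, 6], [4, 4, 4, 4, 4, 6, 6], [5, 6, 6, 6, 6, 5, 6], [6, 6, 6, 6, 6, 6, 6]]

noncomputable def jn (s t : Fin 7) : Fin 7 := Fin.ofNat 7 (g2 jnN s.1 t.1)

set_option maxHeartbeats 0 in
noncomputable def jpathN : List (List (List (List ℕ))) :=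
  [[[[], [], [], [], [], [], [], []], [[], [], [], [], [0], [], [], []], [[], [], [], [], [0], [], [2], []], [[], [], [], [], [0], [1], [2], []], [[], [], [], [], [0], [1], [2], [3]], [[], [0], [0], [0], [], [4], [4], [4]], [[], [0], [0], [0], [0], [0], [0], [0]]], [[[], [], [], [], [0], [], [], []], [[], [], [], [], [0], [], [], []], [[], [], [], [], [0], [], [2], []], [[], [], [], [], [0], [1], [2], []], [[], [], [], [], [0], [1], [2], [3]], [[], [0], [0], [0], [0], [4, 0], [4, 0], [4, 0]], [[], [0], [0], [0], [0], [0], [0], [0]]], [[[], [], [], [], [0], [], [2], []], [[], [], [], [], [0], [], [2], []], [[], [], [], [], [0], [], [2], []], [[], [], [], [], [0], [1], [2], []], [[], [], [], [], [0], [1], [2], [3]], [[], [0], [0], [0], [0], [4, 0], [2, 0], [4, 0]], [[], [0], [0], [0], [0], [0], [0], [0]]], [[[], [], [], [], [0], [1], [2], []], [[], [], [], [], [0], [1], [2], []], [[], [], [], [], [0], [1], [2], []], [[],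 [], [], [], [0], [1], [2], []], [[], [], [], [], [0], [1], [2], [3]], [[], [0], [0], [0], [0], [1, 0], [2, 0], [4, 0]], [[], [0], [0], [0], [0], [0], [0], [0]]], [[[], [], [], [], [0], [1], [2], [3]], [[], [], [], [], [0], [1], [2], [3]], [[], [], [], [], [0], [1], [2], [3]], [[], [], [], [], [0], [1], [2], [3]], [[], [], [], [], [0], [1], [2], [3]], [[], [0], [0], [0], [0], [1, 0], [2, 0], [3, 0]], [[], [0], [0], [0], [0], [0], [0], [0]]], [[[], [0], [0], [0], [], [4], [4], [4]], [[], [0], [0], [0], [0], [4, 0], [4, 0], [4, 0]], [[], [0], [0], [0], [0], [4, 0], [2, 0], [4, 0]], [[], [0], [0], [0], [0], [1, 0], [2, 0], [4, 0]], [[], [0], [0], [0], [0], [1, 0], [2, 0], [3, 0]], [[], [0], [0], [0], [], [4], [4], [4]], [[], [0], [0], [0], [0], [0], [0], [0]]], [[[], [0], [0], [0], [0], [0], [0], [0]], [[], [0], [0], [0], [0], [0], [0], [0]], [[], [0], [0], [0], [0], [0], [0], [0]], [[], [0], [0], [0], [0], [0], [0], [0]],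 [[], [0], [0], [0], [0], [0], [0], [0]], [[], [0], [0], [0], [0], [0], [0], [0]], [[], [0], [0], [0], [0], [0], [0], [0]]]]

noncomputable def jpath (s t : Fin 7) (a : Fin 8) : List (Fin 8) :=
  (((jpathN.getD s.1 []).getD t.1 []).getD a.1 []).map (Fin.ofNat 8)

theorem hbot : ∀ a, lab 0 a = a := by decide +kernel

theorem h0 : ∀ t a, lab t (lab t a) = lab t a := by decide +kernel

theorem h1 : ∀ t i a, lab t (op i (lab t a)) = lab t (op i a) := by decide +kernel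

theorem h2 : ∀ s t, mk7 (bitsOf 183) s t = true ↔ ∀ a, lab t (lab s a) = lab t a := by
  decide +kernel

theorem h5 : ∀ s t, mk7 (bitsOf 183) s t = true → mk7 (bitsOf 183) t s = true → s = t := by
  decide +kernel

theorem h3a : ∀ u : Fin 8, ∀ u', u = u' ∨
    Cert.hits op (move u u') u u' (cp (cls u u')).1 (cp (cls u u')).2 = true := by
  decide +kernel

theorem h3b : ∀ c : Fin 7, ∀ a,
    Cert.walk op (cp c).1 (cp c).2 (path c a) a = lab (typ c) a := by
  decide +kernel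

theorem h3c : ∀ u : Fin 8, ∀ u', lab (typ (cls u u')) u = lab (typ (cls u u')) u' := by
  decide +kernel

theorem h4a : ∀ s t, mk7 (bitsOf 183) s (jn s t) = true ∧ mk7 (bitsOf 183) t (jn s t) = true := by
  decide +kernel

theorem h4b : ∀ s : Fin 7, ∀ t a,
    Cert.jwalk lab s t (jpath s t a) a = lab (jn s t) a := by
  decide +kernel

theorem rep : RepTable 7 (mk7 (bitsOf 183)) :=
  Cert.repTable_of_cert (by decide) _ op lab 0 cls cp move typ path jn jpath
    hbot h0 h1 h2 h5 h3a h3b h3c h4a h4b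

end Vale.Agent.P183.Data.L25

namespace Vale.Agent.P183.Data.L29

noncomputable def g1 (l : List ℕ) (i : ℕ) : ℕ := l.getD i 0

noncomputable def g2 (l : List (List ℕ)) (i j : ℕ) : ℕ := (l.getD i []).getD j 0

noncomputable def opD : ℕ := 8059896710204749131967773486130383363548074976240642585331719

noncomputable def op (i : Fin 3) (x : Fin 9) : Fin 9 :=
  Fin.ofNat 9 ((opD >>> (8 * (9 * i.1 + x.1))) &&& 255)

noncomputable def labD : ℕ := 43661424646871877071726852435180386989422399650230502104043217016790894828094624628105814856481829457443754036460085331034767616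

noncomputable def lab (t : Fin 7) (x : Fin 9) : Fin 9 :=
  Fin.ofNat 9 ((labD >>> (8 * (9 * t.1 + x.1))) &&& 255)

noncomputable def clsR : List ℕ :=
  [37398173880290838784, 18952276460498780169, 111042730438160287495, 18448722125192691975, 147647988205250217728, 129633019079298581249, 129631617201973167105, 166022674689099630343, 650496402136629506]

noncomputable def cls (u v : Fin 9) : Fin 10 :=
  Fin.ofNat 10 ((g1 clsR u.1 >>> (8 * v.1)) &&& 255)

noncomputable def cpA : List ℕ :=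
  [0, 0, 0, 1, 1, 2, 2, 3, 4, 7]

noncomputable def cpB : List ℕ :=
  [4, 5, 8, 5, 6, 7, 8, 4, 8, 8]

noncomputable def cp (c : Fin 10) : Fin 9 × Fin 9 :=
  (Fin.ofNat 9 (g1 cpA c.1), Fin.ofNat 9 (g1 cpB c.1))

noncomputable def moveR : List ℕ :=
  [319464550827316302890156033, 25148226089183279977162868744, 309640997878532773816338498, 200547651278097024654866810946, 310996757679921693545498625, 2485854380701537995753261057, 2485853790693958013199321168, 309640997867308959120001090, 309636716132860790697003009]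

noncomputable def dec : ℕ → ℕ → List (Fin 3)
  | 0, _ => []
  | f + 1, p => if p ≤ 1 then [] else Fin.ofNat 3 (p % 8) :: dec f (p / 8)

noncomputable def move (u v : Fin 9) : List (Fin 3) :=
  dec 4 ((g1 moveR u.1 >>> (11 * v.1)) &&& 2047)

noncomputable def typN : List ℕ :=
  [2, 5, 3, 4, 4, 1, 6, 6, 3, 6]

noncomputable def typ (c : Fin 10) : Fin 7 := Fin.ofNat 7 (g1 typN c.1)

set_option maxHeartbeats 0 in
noncomputable def pathN : List (List (List (List ℕ))) :=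
  [[[], [], [], [[0], [0, 2, 1]], [[]], [], [[0, 2]], [[0, 2, 1]], []], [[], [], [], [[0, 0]], [[0, 0, 2, 1]], [[]], [[0, 0, 2]], [[0], [0, 0, 2, 1]], [[0, 0, 0]]], [[], [], [], [[0], [0, 2, 1]], [[2]], [], [[0, 2]], [[0, 2, 1]], [[]]], [[], [], [], [[2, 0], [2, 0, 2, 1]], [[2]], [[]], [[2, 0, 2], []], [[2, 0, 2, 1]], [[0], [2]]], [[], [], [], [[2, 0], [1]], [[2]], [[1, 2], []], [[]], [[1]], [[0], [2]]], [[], [], [], [], [], [], [[2]], [[]], []], [[], [[0], [1, 0], [0, 1], [1]], [[2, 1], [1]], [[1, 0], [0, 1], [1]], [[1]], [[0, 1, 2]], [[2]], [[0, 1], [1]], [[], [2, 1], [1]]], [[], [[0], [], [1]], [[2, 1], [1]], [[], [1]], [[1]], [[0, 1, 2]], [[2]], [[0, 1], [1]], [[0, 0, 0], [], [1]]], [[], [], [], [[1, 0], [1, 0, 2, 1]], [[1]], [], [[1, 0, 2]], [[1, 0, 2, 1]], [[], [1]]], [[], [[0], [1, 0], [0, 1], [1]], [[0, 2, 1], [1]], [[1, 0], [0, 1], [1]], [[1]], [[2]], [[0, 2]], [[0, 1], [1]], [[], [0, 1], [1]]]]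

noncomputable def path (c : Fin 10) (a : Fin 9) : List (List (Fin 3)) :=
  ((pathN.getD c.1 []).getD a.1 []).map fun w => w.map (Fin.ofNat 3)

noncomputable def jnN : List (List ℕ) :=
  [[0, 1, 2, 3, 4, 5, 6], [1, 1, 2, 3, 4, 5, 6], [2, 2, 2, 3, 4, 6, 6], [3, 3, 3, 3, 4, 6, 6], [4, 4, 4, 4, 4, 6, 6], [5, 5, 6, 6, 6, 5, 6], [6, 6, 6, 6, 6, 6, 6]]

noncomputable def jn (s t : Fin 7) : Fin 7 := Fin.ofNat 7 (g2 jnN s.1 t.1)

set_option maxHeartbeats 0 in
noncomputable def jpathN : List (List (List (List ℕ))) :=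
  [[[[], [], [], [], [], [], [], [], []], [[], [], [], [], [], [], [5], [2], []], [[], [], [], [2], [0], [], [5], [2], []], [[], [], [], [2], [0], [], [5], [2], [0]], [[], [], [], [2], [0], [1], [1], [2], [0]], [[], [], [], [1], [2], [0], [0], [2], [1]], [[], [0], [0], [0], [0], [0], [0], [0], [0]]], [[[], [], [], [], [], [], [5], [2], []], [[], [], [], [], [], [], [5], [2], []], [[], [], [], [2], [0], [], [5], [2], []], [[], [], [], [2], [0], [], [5], [2], [0]], [[], [], [], [2], [0], [1], [1], [2], [0]], [[], [], [], [1], [2], [0], [0], [2], [1]], [[], [0], [0], [0], [0], [0], [0], [0], [0]]], [[[], [], [], [2], [0], [], [5], [2], []], [[], [], [], [2], [0], [], [5], [2], []], [[], [], [], [2], [0], [], [5], [2], []], [[], [], [], [2], [0], [], [5], [2], [0]], [[], [], [], [2], [0], [1], [1], [2], [0]], [[], [3, 2, 4, 0], [4, 0], [2, 4, 0], [0], [0], [0], [4, 0], [3, 2, 4, 0]], [[], [0], [0], [0], [0], [0], [0], [0],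 [0]]], [[[], [], [], [2], [0], [], [5], [2], [0]], [[], [], [], [2], [0], [], [5], [2], [0]], [[], [], [], [2], [0], [], [5], [2], [0]], [[], [], [], [2], [0], [], [5], [2], [0]], [[], [], [], [2], [0], [1], [1], [2], [0]], [[], [8, 0], [4, 0], [8, 0], [0], [0], [0], [4, 0], [0]], [[], [0], [0], [0], [0], [0], [0], [0], [0]]], [[[], [], [], [2], [0], [1], [1], [2], [0]], [[], [], [], [2], [0], [1], [1], [2], [0]], [[], [], [], [2], [0], [1], [1], [2], [0]], [[], [], [], [2], [0], [1], [1], [2], [0]], [[], [], [], [2], [0], [1], [1], [2], [0]], [[], [5, 0], [4, 0], [8, 0], [0], [0], [0], [4, 0], [0]], [[], [0], [0], [0], [0], [0], [0], [0], [0]]], [[[], [], [], [1], [2], [0], [0], [2], [1]], [[], [], [], [1], [2], [0], [0], [2], [1]], [[], [3, 2, 4, 0], [4, 0], [2, 4, 0], [0], [0], [0], [4, 0], [3, 2, 4, 0]], [[], [8, 0], [4, 0], [8, 0], [0], [0], [0], [4, 0], [0]], [[], [5, 0], [4, 0], [8, 0], [0], [0], [0], [4, 0],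 [0]], [[], [], [], [1], [2], [0], [0], [2], [1]], [[], [0], [0], [0], [0], [0], [0], [0], [0]]], [[[], [0], [0], [0], [0], [0], [0], [0], [0]], [[], [0], [0], [0], [0], [0], [0], [0], [0]], [[], [0], [0], [0], [0], [0], [0], [0], [0]], [[], [0], [0], [0], [0], [0], [0], [0], [0]], [[], [0], [0], [0], [0], [0], [0], [0], [0]], [[], [0], [0], [0], [0], [0], [0], [0], [0]], [[], [0], [0], [0], [0], [0], [0], [0], [0]]]]

noncomputable def jpath (s t : Fin 7) (a : Fin 9) : List (Fin 9) :=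
  (((jpathN.getD s.1 []).getD t.1 []).getD a.1 []).map (Fin.ofNat 9)

theorem hbot : ∀ a, lab 0 a = a := by decide +kernel

theorem h0 : ∀ t a, lab t (lab t a) = lab t a := by decide +kernel

theorem h1 : ∀ t i a, lab t (op i (lab t a)) = lab t (op i a) := by decide +kernel

theorem h2 : ∀ s t, mk7 (bitsOf 191) s t = true ↔ ∀ a, lab t (lab s a) = lab t a := by
  decide +kernel

theorem h5 : ∀ s t, mk7 (bitsOf 191) s t = true → mk7 (bitsOf 191) t s = true → s = t := by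
  decide +kernel

theorem h3a : ∀ u : Fin 9, ∀ u', u = u' ∨
    Cert.hits op (move u u') u u' (cp (cls u u')).1 (cp (cls u u')).2 = true := by
  decide +kernel

theorem h3b : ∀ c : Fin 10, ∀ a,
    Cert.walk op (cp c).1 (cp c).2 (path c a) a = lab (typ c) a := by
  decide +kernel

theorem h3c : ∀ u : Fin 9, ∀ u', lab (typ (cls u u')) u = lab (typ (cls u u')) u' := by
  decide +kernel

theorem h4a : ∀ s t, mk7 (bitsOf 191) s (jn s t) = true ∧ mk7 (bitsOf 191) t (jn s t) = true := by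
  decide +kernel

theorem h4b : ∀ s : Fin 7, ∀ t a,
    Cert.jwalk lab s t (jpath s t a) a = lab (jn s t) a := by
  decide +kernel

theorem rep : RepTable 7 (mk7 (bitsOf 191)) :=
  Cert.repTable_of_cert (by decide) _ op lab 0 cls cp move typ path jn jpath
    hbot h0 h1 h2 h5 h3a h3b h3c h4a h4b

end Vale.Agent.P183.Data.L29

namespace Vale.Agent.P183.Data.L30

noncomputable def g1 (l : List ℕ) (i : ℕ) : ℕ := l.getD i 0

noncomputable def g2 (l : List (List ℕ)) (i j : ℕ) : ℕ := (l.getD i []).getD j 0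

noncomputable def opD : ℕ := 24616089638509386794050279319130902502290111738277069572

noncomputable def op (i : Fin 4) (x : Fin 6) : Fin 6 :=
  Fin.ofNat 6 ((opD >>> (8 * (6 * i.1 + x.1))) &&& 255)

noncomputable def labD : ℕ := 5850861256082505537639824800663002618168194749059972689679390373183962471922072158464

noncomputable def lab (t : Fin 7) (x : Fin 6) : Fin 6 :=
  Fin.ofNat 6 ((labD >>> (8 * (6 * t.1 + x.1))) &&& 255)

noncomputable def clsR : List ℕ :=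
  [4410965032960, 7705272320000, 2216320566529, 5497558599170, 1099511890435, 4378986244]

noncomputable def cls (u v : Fin 6) : Fin 8 :=
  Fin.ofNat 8 ((g1 clsR u.1 >>> (8 * v.1)) &&& 255)

noncomputable def cpA : List ℕ :=
  [0, 0, 0, 0, 0, 1, 1, 1]

noncomputable def cpB : List ℕ :=
  [1, 2, 3, 4, 5, 2, 3, 5]

noncomputable def cp (c : Fin 8) : Fin 6 × Fin 6 :=
  (Fin.ofNat 6 (g1 cpA c.1), Fin.ofNat 6 (g1 cpB c.1))

noncomputable def moveR : List ℕ :=
  [1103823438081, 1133888209153, 73701773082881, 8830470062337, 8800522733569, 1134009975041]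

noncomputable def dec : ℕ → ℕ → List (Fin 4)
  | 0, _ => []
  | f + 1, p => if p ≤ 1 then [] else Fin.ofNat 4 (p % 8) :: dec f (p / 8)

noncomputable def move (u v : Fin 6) : List (Fin 4) :=
  dec 3 ((g1 moveR u.1 >>> (8 * v.1)) &&& 255)

noncomputable def typN : List ℕ :=
  [1, 2, 3, 4, 6, 5, 4, 6]

noncomputable def typ (c : Fin 8) : Fin 7 := Fin.ofNat 7 (g1 typN c.1)

set_option maxHeartbeats 0 in
noncomputable def pathN : List (List (List (List ℕ))) :=
  [[[], [[]], [], [], [[0]], []], [[], [], [[]], [], [], [[0]]], [[], [], [], [[]], [[0]], [[2]]], [[], [[3], []], [], [[3, 0]], [[]], [[2]]], [[], [[3], [0], [1, 0]], [[1, 0]], [[3, 0]], [[0], [1, 0]], [[]]], [[], [[], [1, 0]], [[1, 0]], [], [[1], [0]], [[0]]], [[], [[], [3, 0]], [], [[3, 0]], [[3], [], [3, 0]], [[2]]], [[], [[], [2], [1, 0]], [[1, 0]], [[3, 0]], [[1], [2], [1, 0]], [[2], [1, 0]]]]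

noncomputable def path (c : Fin 8) (a : Fin 6) : List (List (Fin 4)) :=
  ((pathN.getD c.1 []).getD a.1 []).map fun w => w.map (Fin.ofNat 4)

noncomputable def jnN : List (List ℕ) :=
  [[0, 1, 2, 3, 4, 5, 6], [1, 1, 5, 4, 4, 5, 6], [2, 5, 2, 6, 6, 5, 6], [3, 4, 6, 3, 4, 6, 6], [4, 4, 6, 4, 4, 6, 6], [5, 5, 5, 6, 6, 5, 6], [6, 6, 6, 6, 6, 6, 6]]

noncomputable def jn (s t : Fin 7) : Fin 7 := Fin.ofNat 7 (g2 jnN s.1 t.1)

set_option maxHeartbeats 0 in
noncomputable def jpathN : List (List (List (List ℕ))) :=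
  [[[[], [], [], [], [], []], [[], [0], [], [], [3], []], [[], [], [0], [], [], [4]], [[], [], [], [0], [1], [2]], [[], [0], [], [0], [0], [2]], [[], [0], [0], [], [3], [3]], [[], [0], [0], [0], [0], [0]]], [[[], [0], [], [], [3], []], [[], [0], [], [], [3], []], [[], [0], [0], [], [3], [4, 3]], [[], [0], [], [0], [1, 0], [2]], [[], [0], [], [0], [0], [2]], [[], [0], [0], [], [3], [3]], [[], [0], [0], [0], [0], [0]]], [[[], [], [0], [], [], [4]], [[], [0], [0], [], [3], [4, 3]], [[], [], [0], [], [], [4]], [[], [4, 5, 2, 0], [0], [0], [5, 2, 0], [2, 0]], [[], [0], [0], [0], [0], [2, 0]], [[], [0], [0], [], [3], [3]], [[], [0], [0], [0], [0], [0]]], [[[], [], [], [0], [1], [2]], [[], [0], [], [0], [1, 0], [2]], [[], [4, 5, 2, 0], [0], [0], [5, 2, 0], [2, 0]], [[], [], [], [0], [1], [2]], [[], [0], [], [0], [0], [2]], [[], [0], [0], [0], [1, 0], [2, 0]], [[], [0], [0], [0], [0], [0]]], [[[], [0], [], [0], [0], [2]], [[],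 [0], [], [0], [0], [2]], [[], [0], [0], [0], [0], [2, 0]], [[], [0], [], [0], [0], [2]], [[], [0], [], [0], [0], [2]], [[], [0], [0], [0], [0], [2, 0]], [[], [0], [0], [0], [0], [0]]], [[[], [0], [0], [], [3], [3]], [[], [0], [0], [], [3], [3]], [[], [0], [0], [], [3], [3]], [[], [0], [0], [0], [1, 0], [2, 0]], [[], [0], [0], [0], [0], [2, 0]], [[], [0], [0], [], [3], [3]], [[], [0], [0], [0], [0], [0]]], [[[], [0], [0], [0], [0], [0]], [[], [0], [0], [0], [0], [0]], [[], [0], [0], [0], [0], [0]], [[], [0], [0], [0], [0], [0]], [[], [0], [0], [0], [0], [0]], [[], [0], [0], [0], [0], [0]], [[], [0], [0], [0], [0], [0]]]]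

noncomputable def jpath (s t : Fin 7) (a : Fin 6) : List (Fin 6) :=
  (((jpathN.getD s.1 []).getD t.1 []).getD a.1 []).map (Fin.ofNat 6)

theorem hbot : ∀ a, lab 0 a = a := by decide +kernel

theorem h0 : ∀ t a, lab t (lab t a) = lab t a := by decide +kernel

theorem h1 : ∀ t i a, lab t (op i (lab t a)) = lab t (op i a) := by decide +kernel

theorem h2 : ∀ s t, mk7 (bitsOf 204) s t = true ↔ ∀ a, lab t (lab s a) = lab t a := by
  decide +kernel

theorem h5 : ∀ s t, mk7 (bitsOf 204) s t = true → mk7 (bitsOf 204) t s = true → s = t := by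
  decide +kernel

theorem h3a : ∀ u : Fin 6, ∀ u', u = u' ∨
    Cert.hits op (move u u') u u' (cp (cls u u')).1 (cp (cls u u')).2 = true := by
  decide +kernel

theorem h3b : ∀ c : Fin 8, ∀ a,
    Cert.walk op (cp c).1 (cp c).2 (path c a) a = lab (typ c) a := by
  decide +kernel

theorem h3c : ∀ u : Fin 6, ∀ u', lab (typ (cls u u')) u = lab (typ (cls u u')) u' := by
  decide +kernel

theorem h4a : ∀ s t, mk7 (bitsOf 204) s (jn s t) = true ∧ mk7 (bitsOf 204) t (jn s t) = true := by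
  decide +kernel

theorem h4b : ∀ s : Fin 7, ∀ t a,
    Cert.jwalk lab s t (jpath s t a) a = lab (jn s t) a := by
  decide +kernel

theorem rep : RepTable 7 (mk7 (bitsOf 204)) :=
  Cert.repTable_of_cert (by decide) _ op lab 0 cls cp move typ path jn jpath
    hbot h0 h1 h2 h5 h3a h3b h3c h4a h4b

end Vale.Agent.P183.Data.L30

namespace Vale.Agent.P183.Data.L31

noncomputable def g1 (l : List ℕ) (i : ℕ) : ℕ := l.getD i 0

noncomputable def g2 (l : List (List ℕ)) (i j : ℕ) : ℕ := (l.getD i []).getD j 0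

noncomputable def opD : ℕ := 15597173916085756616905723423753219

noncomputable def op (i : Fin 3) (x : Fin 5) : Fin 5 :=
  Fin.ofNat 5 ((opD >>> (8 * (5 * i.1 + x.1))) &&& 255)

noncomputable def labD : ℕ := 6928706704840130955421458656195477175211928694401582286804788577435904

noncomputable def lab (t : Fin 7) (x : Fin 5) : Fin 5 :=
  Fin.ofNat 5 ((labD >>> (8 * (5 * t.1 + x.1))) &&& 255)

noncomputable def clsR : List ℕ :=
  [33619968, 17230331904, 21474836993, 12884902658, 50660352]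

noncomputable def cls (u v : Fin 5) : Fin 6 :=
  Fin.ofNat 6 ((g1 clsR u.1 >>> (8 * v.1)) &&& 255)

noncomputable def cpA : List ℕ :=
  [0, 0, 0, 1, 1, 2]

noncomputable def cpB : List ℕ :=
  [1, 2, 3, 3, 4, 4]

noncomputable def cp (c : Fin 6) : Fin 5 × Fin 5 :=
  (Fin.ofNat 5 (g1 cpA c.1), Fin.ofNat 5 (g1 cpB c.1))

noncomputable def moveR : List ℕ :=
  [352204161281, 4312400129, 4462807553, 42967105793, 4462805330]

noncomputable def dec : ℕ → ℕ → List (Fin 3)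
  | 0, _ => []
  | f + 1, p => if p ≤ 1 then [] else Fin.ofNat 3 (p % 8) :: dec f (p / 8)

noncomputable def move (u v : Fin 5) : List (Fin 3) :=
  dec 3 ((g1 moveR u.1 >>> (8 * v.1)) &&& 255)

noncomputable def typN : List ℕ :=
  [6, 5, 3, 2, 1, 4]

noncomputable def typ (c : Fin 6) : Fin 7 := Fin.ofNat 7 (g1 typN c.1)

set_option maxHeartbeats 0 in
noncomputable def pathN : List (List (List (List ℕ))) :=
  [[[], [[]], [[1], []], [[1, 2]], [[0], [1, 2]]], [[], [], [[]], [[0, 2]], [[0], [0, 2]]], [[], [], [[1]], [[]], []], [[], [], [], [[]], [[0], []]], [[], [], [], [], [[]]], [[], [], [[1]], [[2]], [[], [1]]]]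

noncomputable def path (c : Fin 6) (a : Fin 5) : List (List (Fin 3)) :=
  ((pathN.getD c.1 []).getD a.1 []).map fun w => w.map (Fin.ofNat 3)

noncomputable def jnN : List (List ℕ) :=
  [[0, 1, 2, 3, 4, 5, 6], [1, 1, 2, 4, 4, 5, 6], [2, 2, 2, 6, 6, 5, 6], [3, 4, 6, 3, 4, 6, 6], [4, 4, 6, 4, 4, 6, 6], [5, 5, 5, 6, 6, 5, 6], [6, 6, 6, 6, 6, 6, 6]]

noncomputable def jn (s t : Fin 7) : Fin 7 := Fin.ofNat 7 (g2 jnN s.1 t.1)

set_option maxHeartbeats 0 in
noncomputable def jpathN : List (List (List (List ℕ))) :=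
  [[[[], [], [], [], []], [[], [], [], [], [1]], [[], [], [], [1], [1]], [[], [], [1], [0], []], [[], [], [1], [0], [1]], [[], [], [0], [1], [1]], [[], [0], [0], [0], [0]]], [[[], [], [], [], [1]], [[], [], [], [], [1]], [[], [], [], [1], [1]], [[], [], [1], [0], [1]], [[], [], [1], [0], [1]], [[], [], [0], [1], [1]], [[], [0], [0], [0], [0]]], [[[], [], [], [1], [1]], [[], [], [], [1], [1]], [[], [], [], [1], [1]], [[], [3, 0], [1, 3, 0], [0], [3, 0]], [[], [3, 0], [1, 3, 0], [0], [3, 0]], [[], [], [0], [1], [1]], [[], [0], [0], [0], [0]]], [[[], [], [1], [0], []], [[], [], [1], [0], [1]], [[], [3, 0], [1, 3, 0], [0], [3, 0]], [[], [], [1], [0], []], [[], [], [1], [0], [1]], [[], [2, 0], [0], [0], [3, 0]], [[], [0], [0], [0], [0]]], [[[], [], [1], [0], [1]], [[], [], [1], [0], [1]], [[], [3, 0], [1, 3, 0], [0], [3, 0]], [[], [], [1], [0], [1]], [[], [], [1], [0], [1]], [[], [2, 0], [0], [0], [2, 0]], [[], [0], [0],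 [0], [0]]], [[[], [], [0], [1], [1]], [[], [], [0], [1], [1]], [[], [], [0], [1], [1]], [[], [2, 0], [0], [0], [3, 0]], [[], [2, 0], [0], [0], [2, 0]], [[], [], [0], [1], [1]], [[], [0], [0], [0], [0]]], [[[], [0], [0], [0], [0]], [[], [0], [0], [0], [0]], [[], [0], [0], [0], [0]], [[], [0], [0], [0], [0]], [[], [0], [0], [0], [0]], [[], [0], [0], [0], [0]], [[], [0], [0], [0], [0]]]]

noncomputable def jpath (s t : Fin 7) (a : Fin 5) : List (Fin 5) :=
  (((jpathN.getD s.1 []).getD t.1 []).getD a.1 []).map (Fin.ofNat 5)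

theorem hbot : ∀ a, lab 0 a = a := by decide +kernel

theorem h0 : ∀ t a, lab t (lab t a) = lab t a := by decide +kernel

theorem h1 : ∀ t i a, lab t (op i (lab t a)) = lab t (op i a) := by decide +kernel

theorem h2 : ∀ s t, mk7 (bitsOf 205) s t = true ↔ ∀ a, lab t (lab s a) = lab t a := by
  decide +kernel

theorem h5 : ∀ s t, mk7 (bitsOf 205) s t = true → mk7 (bitsOf 205) t s = true → s = t := by
  decide +kernel

theorem h3a : ∀ u : Fin 5, ∀ u', u = u' ∨
    Cert.hits op (move u u') u u' (cp (cls u u')).1 (cp (cls u u')).2 = true := by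
  decide +kernel

theorem h3b : ∀ c : Fin 6, ∀ a,
    Cert.walk op (cp c).1 (cp c).2 (path c a) a = lab (typ c) a := by
  decide +kernel

theorem h3c : ∀ u : Fin 5, ∀ u', lab (typ (cls u u')) u = lab (typ (cls u u')) u' := by
  decide +kernel

theorem h4a : ∀ s t, mk7 (bitsOf 205) s (jn s t) = true ∧ mk7 (bitsOf 205) t (jn s t) = true := by
  decide +kernel

theorem h4b : ∀ s : Fin 7, ∀ t a,
    Cert.jwalk lab s t (jpath s t a) a = lab (jn s t) a := by
  decide +kernel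

theorem rep : RepTable 7 (mk7 (bitsOf 205)) :=
  Cert.repTable_of_cert (by decide) _ op lab 0 cls cp move typ path jn jpath
    hbot h0 h1 h2 h5 h3a h3b h3c h4a h4b

end Vale.Agent.P183.Data.L31

namespace Vale.Agent.P183.Data.L32

noncomputable def g1 (l : List ℕ) (i : ℕ) : ℕ := l.getD i 0

noncomputable def g2 (l : List (List ℕ)) (i j : ℕ) : ℕ := (l.getD i []).getD j 0

noncomputable def opD : ℕ := 1638348551779693133066006813530350738434042858230051636510725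

noncomputable def op (i : Fin 3) (x : Fin 9) : Fin 9 :=
  Fin.ofNat 9 ((opD >>> (8 * (9 * i.1 + x.1))) &&& 255)

noncomputable def labD : ℕ := 43324286102788850286279651945179844641468067803638698878222109163285894490338506310506502691822618380382634392758496005772673280

noncomputable def lab (t : Fin 7) (x : Fin 9) : Fin 9 :=
  Fin.ofNat 9 ((labD >>> (8 * (9 * t.1 + x.1))) &&& 255)

noncomputable def clsR : List ℕ :=
  [74003713126484280320, 18734974458468237316, 92378121455500526594, 55629592903823982852, 36895179196336570880, 73859033897533440001, 73931091508751040514, 73787540344370496515, 289360682745659652]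

noncomputable def cls (u v : Fin 9) : Fin 7 :=
  Fin.ofNat 7 ((g1 clsR u.1 >>> (8 * v.1)) &&& 255)

noncomputable def cpA : List ℕ :=
  [0, 0, 0, 0, 1, 2, 4]

noncomputable def cpB : List ℕ :=
  [4, 5, 6, 7, 2, 3, 6]

noncomputable def cp (c : Fin 7) : Fin 9 × Fin 9 :=
  (Fin.ofNat 9 (g1 cpA c.1), Fin.ofNat 9 (g1 cpB c.1))

noncomputable def moveR : List ℕ :=
  [181358366944858689819382007809, 3105882138955257166797211721, 2795042492807118333010774080, 2564434559273585171408900682, 2485551559202906244451942401, 2786574604543700220678113281, 2795036569024246992745807873, 181358371593691506281042561025, 398039490515303288732144202]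

noncomputable def dec : ℕ → ℕ → List (Fin 3)
  | 0, _ => []
  | f + 1, p => if p ≤ 1 then [] else Fin.ofNat 3 (p % 8) :: dec f (p / 8)

noncomputable def move (u v : Fin 9) : List (Fin 3) :=
  dec 4 ((g1 moveR u.1 >>> (11 * v.1)) &&& 2047)

noncomputable def typN : List ℕ :=
  [3, 2, 6, 1, 6, 4, 5]

noncomputable def typ (c : Fin 7) : Fin 7 := Fin.ofNat 7 (g1 typN c.1)

set_option maxHeartbeats 0 in
noncomputable def pathN : List (List (List (List ℕ))) :=
  [[[], [], [], [], [[]], [[2]], [[2, 1]], [[1, 0]], [[1]]], [[], [], [], [[1]], [], [[]], [[1, 1]], [[1, 0]], [[1, 1, 2, 1]]], [[], [[2], [1, 2]], [[1, 1], []], [[1], [2], [1, 2]], [[2, 1, 0]], [[1, 2]], [[]], [[1, 0]], [[0, 1], [2], [1, 2]]], [[], [], [], [], [], [], [], [[]], [[1]]], [[], [[0, 2], [1, 2]], [[], [0, 2], [1, 2]], [[1], [0, 0], [1, 2]], [[0]], [[1, 2]], [[0, 0], [1, 2]], [[0, 1, 0]], [[2, 1], [0, 2], [1, 2]]], [[], [], [], [[]], [[0, 0, 0]], [[0,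 2]], [[0, 2, 1]], [[2]], [[2, 1], []]], [[], [], [], [[1, 1, 1]], [[], [1, 1]], [[1, 2]], [[1, 1]], [[1, 1, 1, 0]], [[1]]]]

noncomputable def path (c : Fin 7) (a : Fin 9) : List (List (Fin 3)) :=
  ((pathN.getD c.1 []).getD a.1 []).map fun w => w.map (Fin.ofNat 3)

noncomputable def jnN : List (List ℕ) :=
  [[0, 1, 2, 3, 4, 5, 6], [1, 1, 2, 3, 4, 5, 6], [2, 2, 2, 6, 6, 5, 6], [3, 3, 6, 3, 4, 6, 6], [4, 4, 6, 4, 4, 6, 6], [5, 5, 5, 6, 6, 5, 6], [6, 6, 6, 6, 6, 6, 6]]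

noncomputable def jn (s t : Fin 7) : Fin 7 := Fin.ofNat 7 (g2 jnN s.1 t.1)

set_option maxHeartbeats 0 in
noncomputable def jpathN : List (List (List (List ℕ))) :=
  [[[[], [], [], [], [], [], [], [], []], [[], [], [], [], [], [], [], [0], [3]], [[], [], [], [1], [], [0], [2], [0], [1]], [[], [], [], [], [0], [1], [1], [0], [3]], [[], [], [], [2], [0], [1], [1], [0], [2]], [[], [], [], [1], [2], [0], [2], [0], [1]], [[], [0], [0], [0], [0], [0], [0], [0], [0]]], [[[], [], [], [], [], [], [], [0], [3]], [[], [], [], [], [], [], [], [0], [3]], [[], [], [], [1], [], [0], [2], [0], [1]], [[], [], [], [], [0], [1], [1], [0], [3]], [[], [], [], [2], [0], [1], [1], [0], [2]], [[], [], [], [1], [2], [0], [2], [0], [1]], [[], [0], [0], [0], [0], [0], [0], [0], [0]]], [[[], [], [], [1], [], [0], [2], [0], [1]], [[], [], [], [1], [], [0], [2], [0], [1]], [[], [], [], [1], [], [0], [2], [0], [1]], [[], [5, 0], [6, 5, 0], [1, 5,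 0], [0], [0], [5, 0], [0], [1, 5, 0]], [[], [5, 0], [6, 5, 0], [1, 5, 0], [0], [0], [5, 0], [0], [1, 5, 0]], [[], [], [], [1], [2], [0], [2], [0], [1]], [[], [0], [0], [0], [0], [0], [0], [0], [0]]], [[[], [], [], [], [0], [1], [1], [0], [3]], [[], [], [], [], [0], [1], [1], [0], [3]], [[], [5, 0], [6, 5, 0], [1, 5, 0], [0], [0], [5, 0], [0], [1, 5, 0]], [[], [], [], [], [0], [1], [1], [0], [3]], [[], [], [], [2], [0], [1], [1], [0], [2]], [[], [5, 0], [4, 0], [1, 5, 0], [0], [0], [4, 0], [0], [1, 5, 0]], [[], [0], [0], [0], [0], [0], [0], [0], [0]]], [[[], [], [], [2], [0], [1], [1], [0], [2]], [[], [], [], [2], [0], [1], [1], [0], [2]], [[], [5, 0], [6, 5, 0], [1, 5, 0], [0], [0], [5, 0], [0], [1, 5, 0]], [[], [], [], [2], [0], [1], [1], [0], [2]], [[], [], [], [2], [0], [1], [1], [0], [2]], [[], [5, 0], [4, 0], [1, 5, 0], [0], [0], [4, 0], [0], [1, 5, 0]], [[], [0], [0], [0], [0], [0], [0], [0], [0]]], [[[], [],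 [], [1], [2], [0], [2], [0], [1]], [[], [], [], [1], [2], [0], [2], [0], [1]], [[], [], [], [1], [2], [0], [2], [0], [1]], [[], [5, 0], [4, 0], [1, 5, 0], [0], [0], [4, 0], [0], [1, 5, 0]], [[], [5, 0], [4, 0], [1, 5, 0], [0], [0], [4, 0], [0], [1, 5, 0]], [[], [], [], [1], [2], [0], [2], [0], [1]], [[], [0], [0], [0], [0], [0], [0], [0], [0]]], [[[], [0], [0], [0], [0], [0], [0], [0], [0]], [[], [0], [0], [0], [0], [0], [0], [0], [0]], [[], [0], [0], [0], [0], [0], [0], [0], [0]], [[], [0], [0], [0], [0], [0], [0], [0], [0]], [[], [0], [0], [0], [0], [0], [0], [0], [0]], [[], [0], [0], [0], [0], [0], [0], [0], [0]], [[], [0], [0], [0], [0], [0], [0], [0], [0]]]]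

noncomputable def jpath (s t : Fin 7) (a : Fin 9) : List (Fin 9) :=
  (((jpathN.getD s.1 []).getD t.1 []).getD a.1 []).map (Fin.ofNat 9)

theorem hbot : ∀ a, lab 0 a = a := by decide +kernel

theorem h0 : ∀ t a, lab t (lab t a) = lab t a := by decide +kernel

theorem h1 : ∀ t i a, lab t (op i (lab t a)) = lab t (op i a) := by decide +kernel

theorem h2 : ∀ s t, mk7 (bitsOf 207) s t = true ↔ ∀ a, lab t (lab s a) = lab t a := by
  decide +kernel

theorem h5 : ∀ s t, mk7 (bitsOf 207) s t = true → mk7 (bitsOf 207) t s = true → s = t := by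
  decide +kernel

theorem h3a : ∀ u : Fin 9, ∀ u', u = u' ∨
    Cert.hits op (move u u') u u' (cp (cls u u')).1 (cp (cls u u')).2 = true := by
  decide +kernel

theorem h3b : ∀ c : Fin 7, ∀ a,
    Cert.walk op (cp c).1 (cp c).2 (path c a) a = lab (typ c) a := by
  decide +kernel

theorem h3c : ∀ u : Fin 9, ∀ u', lab (typ (cls u u')) u = lab (typ (cls u u')) u' := by
  decide +kernel

theorem h4a : ∀ s t, mk7 (bitsOf 207) s (jn s t) = true ∧ mk7 (bitsOf 207) t (jn s t) = true := by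
  decide +kernel

theorem h4b : ∀ s : Fin 7, ∀ t a,
    Cert.jwalk lab s t (jpath s t a) a = lab (jn s t) a := by
  decide +kernel

theorem rep : RepTable 7 (mk7 (bitsOf 207)) :=
  Cert.repTable_of_cert (by decide) _ op lab 0 cls cp move typ path jn jpath
    hbot h0 h1 h2 h5 h3a h3b h3c h4a h4b

end Vale.Agent.P183.Data.L32

namespace Vale.Agent.P183.Data.L36

noncomputable def g1 (l : List ℕ) (i : ℕ) : ℕ := l.getD i 0

noncomputable def g2 (l : List (List ℕ)) (i j : ℕ) : ℕ := (l.getD i []).getD j 0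

noncomputable def opD : ℕ := 10425318235387211461839681310818562

noncomputable def op (i : Fin 3) (x : Fin 5) : Fin 5 :=
  Fin.ofNat 5 ((opD >>> (8 * (5 * i.1 + x.1))) &&& 255)

noncomputable def labD : ℕ := 6928812017125522315091787216048332449371170467373140975221474387427584

noncomputable def lab (t : Fin 7) (x : Fin 5) : Fin 5 :=
  Fin.ofNat 5 ((labD >>> (8 * (5 * t.1 + x.1))) &&& 255)

noncomputable def clsR : List ℕ :=
  [12918521856, 21542207488, 30165435393, 34360132610, 134677763]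

noncomputable def cls (u v : Fin 5) : Fin 9 :=
  Fin.ofNat 9 ((g1 clsR u.1 >>> (8 * v.1)) &&& 255)

noncomputable def cpA : List ℕ :=
  [0, 0, 0, 0, 1, 1, 2, 2, 3]

noncomputable def cpB : List ℕ :=
  [1, 2, 3, 4, 2, 4, 3, 4, 4]

noncomputable def cp (c : Fin 9) : Fin 5 × Fin 5 :=
  (Fin.ofNat 5 (g1 cpA c.1), Fin.ofNat 5 (g1 cpB c.1))

noncomputable def moveR : List ℕ :=
  [1082401, 1311777, 1082401, 1082625, 1082401]

noncomputable def dec : ℕ → ℕ → List (Fin 3)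
  | 0, _ => []
  | f + 1, p => if p ≤ 1 then [] else Fin.ofNat 3 (p % 8) :: dec f (p / 8)

noncomputable def move (u v : Fin 5) : List (Fin 3) :=
  dec 2 ((g1 moveR u.1 >>> (5 * v.1)) &&& 31)

noncomputable def typN : List ℕ :=
  [6, 4, 4, 4, 5, 5, 1, 2, 3]

noncomputable def typ (c : Fin 9) : Fin 7 := Fin.ofNat 7 (g1 typN c.1)

set_option maxHeartbeats 0 in
noncomputable def pathN : List (List (List (List ℕ))) :=
  [[[], [[]], [[0], []], [[0, 1], [0], []], [[0, 2], [0], []]], [[], [], [[]], [[1], []], [[2], []]], [[], [], [[1], []], [[]], [[2], [1], []]], [[], [], [[0], []], [[1], [0], []], [[]]], [[], [], [[]], [[1], []], [[2], []]], [[], [], [[2], []], [[1], [2], []], [[]]], [[], [], [], [[]], []], [[], [], [], [], [[]]], [[], [], [], [[], [0]], [[0]]]]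

noncomputable def path (c : Fin 9) (a : Fin 5) : List (List (Fin 3)) :=
  ((pathN.getD c.1 []).getD a.1 []).map fun w => w.map (Fin.ofNat 3)

noncomputable def jnN : List (List ℕ) :=
  [[0, 1, 2, 3, 4, 5, 6], [1, 1, 3, 3, 4, 5, 6], [2, 3, 2, 3, 4, 5, 6], [3, 3, 3, 3, 4, 5, 6], [4, 4, 4, 4, 4, 6, 6], [5, 5, 5, 5, 6, 5, 6], [6, 6, 6, 6, 6, 6, 6]]

noncomputable def jn (s t : Fin 7) : Fin 7 := Fin.ofNat 7 (g2 jnN s.1 t.1)

set_option maxHeartbeats 0 in
noncomputable def jpathN : List (List (List (List ℕ))) :=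
  [[[[], [], [], [], []], [[], [], [], [2], []], [[], [], [], [], [2]], [[], [], [], [2], [2]], [[], [], [0], [0], [0]], [[], [], [1], [1], [1]], [[], [0], [0], [0], [0]]], [[[], [], [], [2], []], [[], [], [], [2], []], [[], [], [], [2], [2]], [[], [], [], [2], [2]], [[], [], [0], [0], [0]], [[], [], [1], [1], [1]], [[], [0], [0], [0], [0]]], [[[], [], [], [], [2]], [[], [], [], [2], [2]], [[], [], [], [], [2]], [[], [], [], [2], [2]], [[], [], [0], [0], [0]], [[], [], [1], [1], [1]], [[], [0], [0], [0], [0]]], [[[], [], [], [2], [2]], [[], [], [], [2], [2]], [[], [], [], [2], [2]], [[], [], [], [2], [2]], [[], [], [0], [0], [0]], [[], [], [1], [1], [1]], [[], [0], [0], [0], [0]]], [[[], [], [0], [0], [0]], [[], [], [0], [0], [0]], [[], [], [0], [0], [0]], [[], [], [0], [0], [0]], [[], [], [0], [0], [0]], [[], [2, 0], [0], [0], [0]], [[], [0], [0], [0], [0]]], [[[], [], [1], [1], [1]], [[], [], [1], [1], [1]], [[],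 [], [1], [1], [1]], [[], [], [1], [1], [1]], [[], [2, 0], [0], [0], [0]], [[], [], [1], [1], [1]], [[], [0], [0], [0], [0]]], [[[], [0], [0], [0], [0]], [[], [0], [0], [0], [0]], [[], [0], [0], [0], [0]], [[], [0], [0], [0], [0]], [[], [0], [0], [0], [0]], [[], [0], [0], [0], [0]], [[], [0], [0], [0], [0]]]]

noncomputable def jpath (s t : Fin 7) (a : Fin 5) : List (Fin 5) :=
  (((jpathN.getD s.1 []).getD t.1 []).getD a.1 []).map (Fin.ofNat 5)

theorem hbot : ∀ a, lab 0 a = a := by decide +kernel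

theorem h0 : ∀ t a, lab t (lab t a) = lab t a := by decide +kernel

theorem h1 : ∀ t i a, lab t (op i (lab t a)) = lab t (op i a) := by decide +kernel

theorem h2 : ∀ s t, mk7 (bitsOf 510) s t = true ↔ ∀ a, lab t (lab s a) = lab t a := by
  decide +kernel

theorem h5 : ∀ s t, mk7 (bitsOf 510) s t = true → mk7 (bitsOf 510) t s = true → s = t := by
  decide +kernel

theorem h3a : ∀ u : Fin 5, ∀ u', u = u' ∨
    Cert.hits op (move u u') u u' (cp (cls u u')).1 (cp (cls u u')).2 = true := by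
  decide +kernel

theorem h3b : ∀ c : Fin 9, ∀ a,
    Cert.walk op (cp c).1 (cp c).2 (path c a) a = lab (typ c) a := by
  decide +kernel

theorem h3c : ∀ u : Fin 5, ∀ u', lab (typ (cls u u')) u = lab (typ (cls u u')) u' := by
  decide +kernel

theorem h4a : ∀ s t, mk7 (bitsOf 510) s (jn s t) = true ∧ mk7 (bitsOf 510) t (jn s t) = true := by
  decide +kernel

theorem h4b : ∀ s : Fin 7, ∀ t a,
    Cert.jwalk lab s t (jpath s t a) a = lab (jn s t) a := by
  decide +kernel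

theorem rep : RepTable 7 (mk7 (bitsOf 510)) :=
  Cert.repTable_of_cert (by decide) _ op lab 0 cls cp move typ path jn jpath
    hbot h0 h1 h2 h5 h3a h3b h3c h4a h4b

end Vale.Agent.P183.Data.L36

namespace Vale.Agent.P183.Data.L47

noncomputable def g1 (l : List ℕ) (i : ℕ) : ℕ := l.getD i 0

noncomputable def g2 (l : List (List ℕ)) (i j : ℕ) : ℕ := (l.getD i []).getD j 0

noncomputable def opD : ℕ := 18907914082935814357248

noncomputable def op (i : Fin 2) (x : Fin 6) : Fin 6 :=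
  Fin.ofNat 6 ((opD >>> (8 * (6 * i.1 + x.1))) &&& 255)

noncomputable def labD : ℕ := 88928324534313074738264102482671080566996742932834888217427076201314004582400256

noncomputable def lab (t : Fin 7) (x : Fin 6) : Fin 6 :=
  Fin.ofNat 6 ((labD >>> (8 * (6 * t.1 + x.1))) &&& 255)

noncomputable def clsR : List ℕ :=
  [4410965032960, 30165762048, 1138300552449, 2233383519746, 10995251087107, 42983292932]

noncomputable def cls (u v : Fin 6) : Fin 11 :=
  Fin.ofNat 11 ((g1 clsR u.1 >>> (8 * v.1)) &&& 255)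

noncomputable def cpA : List ℕ :=
  [0, 0, 0, 0, 0, 1, 1, 1, 2, 2, 4]

noncomputable def cpB : List ℕ :=
  [1, 2, 3, 4, 5, 2, 3, 4, 3, 4, 5]

noncomputable def cp (c : Fin 11) : Fin 6 × Fin 6 :=
  (Fin.ofNat 6 (g1 cpA c.1), Fin.ofNat 6 (g1 cpB c.1))

noncomputable def moveR : List ℕ :=
  [34636833, 269517857, 269517857, 276857889, 34866209, 34873601]

noncomputable def dec : ℕ → ℕ → List (Fin 2)
  | 0, _ => []
  | f + 1, p => if p ≤ 1 then [] else Fin.ofNat 2 (p % 8) :: dec f (p / 8)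

noncomputable def move (u v : Fin 6) : List (Fin 2) :=
  dec 2 ((g1 moveR u.1 >>> (5 * v.1)) &&& 31)

noncomputable def typN : List ℕ :=
  [2, 3, 6, 5, 1, 3, 6, 5, 6, 4, 5]

noncomputable def typ (c : Fin 11) : Fin 7 := Fin.ofNat 7 (g1 typN c.1)

set_option maxHeartbeats 0 in
noncomputable def pathN : List (List (List (List ℕ))) :=
  [[[], [[]], [], [], [], [[1]]], [[], [[1, 0]], [[]], [], [], [[1, 0, 1]]], [[], [[1, 0, 1, 0]], [[1, 0]], [[]], [[1], [1, 0, 1, 0, 1]], [[1, 0, 1, 0, 1]]], [[], [[0, 1, 0]], [[0]], [], [[]], [[1]]], [[], [], [], [], [], [[]]], [[], [[1]], [[], [1]], [], [], [[1, 1]]], [[], [[1, 0, 1, 0]], [[1, 0]], [[], [1, 0, 1, 0]], [[1]], [[1, 1]]], [[], [[0, 1]], [[0], [0, 1]], [], [[], [0, 1]], [[0, 1, 1]]], [[], [[1, 0, 1]], [[1, 0], [1, 0, 1]], [[], [1, 0], [1, 0, 1]], [[1], [1, 0, 1]], [[1, 0, 1, 1]]], [[], [[1]], [], [], [[]], [[1, 1]]], [[], [[0, 1, 0]], [[0]], [], [[], [0, 1, 0, 1]], [[0, 1,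 0, 1]]]]

noncomputable def path (c : Fin 11) (a : Fin 6) : List (List (Fin 2)) :=
  ((pathN.getD c.1 []).getD a.1 []).map fun w => w.map (Fin.ofNat 2)

noncomputable def jnN : List (List ℕ) :=
  [[0, 1, 2, 3, 4, 5, 6], [1, 1, 2, 3, 4, 5, 6], [2, 2, 2, 3, 4, 5, 6], [3, 3, 3, 3, 5, 5, 6], [4, 4, 4, 5, 4, 5, 6], [5, 5, 5, 5, 5, 5, 6], [6, 6, 6, 6, 6, 6, 6]]

noncomputable def jn (s t : Fin 7) : Fin 7 := Fin.ofNat 7 (g2 jnN s.1 t.1)

set_option maxHeartbeats 0 in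
noncomputable def jpathN : List (List (List (List ℕ))) :=
  [[[[], [], [], [], [], []], [[], [], [], [], [], [0]], [[], [0], [], [], [], [0]], [[], [0], [0], [], [], [0]], [[], [0], [], [], [2], [0]], [[], [0], [0], [], [0], [0]], [[], [0], [0], [0], [0], [0]]], [[[], [], [], [], [], [0]], [[], [], [], [], [], [0]], [[], [0], [], [], [], [0]], [[], [0], [0], [], [], [0]], [[], [0], [], [], [2], [0]], [[], [0], [0], [], [0], [0]], [[], [0], [0], [0], [0], [0]]], [[[], [0], [], [], [], [0]], [[], [0], [], [], [], [0]], [[], [0], [], [], [], [0]], [[], [0], [0], [], [], [0]], [[], [0], [], [], [2], [0]], [[], [0], [0], [], [0], [0]], [[], [0], [0], [0], [0], [0]]], [[[], [0], [0], [], [], [0]], [[], [0], [0], [], [], [0]], [[], [0], [0], [], [], [0]], [[], [0], [0], [], [], [0]], [[], [0], [0], [], [2, 0], [0]], [[], [0], [0], [], [0], [0]], [[], [0], [0], [0], [0], [0]]], [[[], [0], [], [], [2], [0]], [[], [0], [], [],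 [2], [0]], [[], [0], [], [], [2], [0]], [[], [0], [0], [], [2, 0], [0]], [[], [0], [], [], [2], [0]], [[], [0], [0], [], [0], [0]], [[], [0], [0], [0], [0], [0]]], [[[], [0], [0], [], [0], [0]], [[], [0], [0], [], [0], [0]], [[], [0], [0], [], [0], [0]], [[], [0], [0], [], [0], [0]], [[], [0], [0], [], [0], [0]], [[], [0], [0], [], [0], [0]], [[], [0], [0], [0], [0], [0]]], [[[], [0], [0], [0], [0], [0]], [[], [0], [0], [0], [0], [0]], [[], [0], [0], [0], [0], [0]], [[], [0], [0], [0], [0], [0]], [[], [0], [0], [0], [0], [0]], [[], [0], [0], [0], [0], [0]], [[], [0], [0], [0], [0], [0]]]]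

noncomputable def jpath (s t : Fin 7) (a : Fin 6) : List (Fin 6) :=
  (((jpathN.getD s.1 []).getD t.1 []).getD a.1 []).map (Fin.ofNat 6)

theorem hbot : ∀ a, lab 0 a = a := by decide +kernel

theorem h0 : ∀ t a, lab t (lab t a) = lab t a := by decide +kernel

theorem h1 : ∀ t i a, lab t (op i (lab t a)) = lab t (op i a) := by decide +kernel

theorem h2 : ∀ s t, mk7 (bitsOf 895) s t = true ↔ ∀ a, lab t (lab s a) = lab t a := by
  decide +kernel

theorem h5 : ∀ s t, mk7 (bitsOf 895) s t = true → mk7 (bitsOf 895) t s = true → s = t := by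
  decide +kernel

theorem h3a : ∀ u : Fin 6, ∀ u', u = u' ∨
    Cert.hits op (move u u') u u' (cp (cls u u')).1 (cp (cls u u')).2 = true := by
  decide +kernel

theorem h3b : ∀ c : Fin 11, ∀ a,
    Cert.walk op (cp c).1 (cp c).2 (path c a) a = lab (typ c) a := by
  decide +kernel

theorem h3c : ∀ u : Fin 6, ∀ u', lab (typ (cls u u')) u = lab (typ (cls u u')) u' := by
  decide +kernel

theorem h4a : ∀ s t, mk7 (bitsOf 895) s (jn s t) = true ∧ mk7 (bitsOf 895) t (jn s t) = true := by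
  decide +kernel

theorem h4b : ∀ s : Fin 7, ∀ t a,
    Cert.jwalk lab s t (jpath s t a) a = lab (jn s t) a := by
  decide +kernel

theorem rep : RepTable 7 (mk7 (bitsOf 895)) :=
  Cert.repTable_of_cert (by decide) _ op lab 0 cls cp move typ path jn jpath
    hbot h0 h1 h2 h5 h3a h3b h3c h4a h4b

end Vale.Agent.P183.Data.L47

namespace Vale.Agent.P183.Data.L48

noncomputable def g1 (l : List ℕ) (i : ℕ) : ℕ := l.getD i 0

noncomputable def g2 (l : List (List ℕ)) (i j : ℕ) : ℕ := (l.getD i []).getD j 0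

noncomputable def opD : ℕ := 4759332313401810748419

noncomputable def op (i : Fin 2) (x : Fin 5) : Fin 5 :=
  Fin.ofNat 5 ((opD >>> (8 * (5 * i.1 + x.1))) &&& 255)

noncomputable def labD : ℕ := 6928812017131873072394106785896168280186696828525290025119343219704064

noncomputable def lab (t : Fin 7) (x : Fin 5) : Fin 5 :=
  Fin.ofNat 5 ((labD >>> (8 * (5 * t.1 + x.1))) &&& 255)

noncomputable def clsR : List ℕ :=
  [12918521856, 25853952000, 34477179905, 38655165698, 151520771]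

noncomputable def cls (u v : Fin 5) : Fin 10 :=
  Fin.ofNat 10 ((g1 clsR u.1 >>> (8 * v.1)) &&& 255)

noncomputable def cpA : List ℕ :=
  [0, 0, 0, 0, 1, 1, 1, 2, 2, 3]

noncomputable def cpB : List ℕ :=
  [1, 2, 3, 4, 2, 3, 4, 3, 4, 4]

noncomputable def cp (c : Fin 10) : Fin 5 × Fin 5 :=
  (Fin.ofNat 5 (g1 cpA c.1), Fin.ofNat 5 (g1 cpB c.1))

noncomputable def moveR : List ℕ :=
  [341, 341, 341, 341, 341]

noncomputable def dec : ℕ → ℕ → List (Fin 2)
  | 0, _ => []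
  | f + 1, p => if p ≤ 1 then [] else Fin.ofNat 2 (p % 8) :: dec f (p / 8)

noncomputable def move (u v : Fin 5) : List (Fin 2) :=
  dec 1 ((g1 moveR u.1 >>> (2 * v.1)) &&& 3)

noncomputable def typN : List ℕ :=
  [6, 6, 6, 6, 1, 5, 2, 5, 3, 5]

noncomputable def typ (c : Fin 10) : Fin 7 := Fin.ofNat 7 (g1 typN c.1)

set_option maxHeartbeats 0 in
noncomputable def pathN : List (List (List (List ℕ))) :=
  [[[], [[]], [[0, 1], []], [[1], []], [[0, 0], []]], [[], [[0, 1], []], [[]], [[1], [0, 1], []], [[0, 0], [0, 1], []]], [[], [[0], []], [[1], []], [[]], [[0, 0], [0], []]], [[], [[0, 0], []], [[0, 1], [0, 0], []], [[0], []], [[]]], [[], [], [[]], [], []], [[], [], [[1]], [[]], [[0]]], [[], [], [], [], [[]]], [[], [], [[1]], [[], [1]], [[0]]], [[], [], [], [], [[]]], [[], [], [[1]], [[], [0]], [[0]]]]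

noncomputable def path (c : Fin 10) (a : Fin 5) : List (List (Fin 2)) :=
  ((pathN.getD c.1 []).getD a.1 []).map fun w => w.map (Fin.ofNat 2)

noncomputable def jnN : List (List ℕ) :=
  [[0, 1, 2, 3, 4, 5, 6], [1, 1, 4, 4, 4, 5, 6], [2, 4, 2, 4, 4, 5, 6], [3, 4, 4, 3, 4, 5, 6], [4, 4, 4, 4, 4, 5, 6], [5, 5, 5, 5, 5, 5, 6], [6, 6, 6, 6, 6, 6, 6]]

noncomputable def jn (s t : Fin 7) : Fin 7 := Fin.ofNat 7 (g2 jnN s.1 t.1)

set_option maxHeartbeats 0 in
noncomputable def jpathN : List (List (List (List ℕ))) :=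
  [[[[], [], [], [], []], [[], [], [1], [], []], [[], [], [], [], [1]], [[], [], [], [], [2]], [[], [], [1], [], [1]], [[], [], [1], [1], [1]], [[], [0], [0], [0], [0]]], [[[], [], [1], [], []], [[], [], [1], [], []], [[], [], [1], [], [1]], [[], [], [1], [], [2, 1]], [[], [], [1], [], [1]], [[], [], [1], [1], [1]], [[], [0], [0], [0], [0]]], [[[], [], [], [], [1]], [[], [], [1], [], [1]], [[], [], [], [], [1]], [[], [], [4, 1], [], [1]], [[], [], [1], [], [1]], [[], [], [1], [1], [1]], [[], [0], [0], [0], [0]]], [[[], [], [], [], [2]], [[], [], [1], [], [2, 1]], [[], [], [4, 1], [], [1]], [[], [], [], [], [2]], [[], [], [1], [], [1]], [[], [], [1], [1], [1]], [[], [0], [0], [0], [0]]], [[[], [], [1], [], [1]], [[], [], [1], [], [1]], [[], [], [1], [], [1]], [[], [], [1], [], [1]], [[], [], [1], [], [1]], [[], [], [1], [1], [1]], [[], [0], [0], [0], [0]]], [[[], [], [1], [1], [1]], [[], [], [1], [1], [1]], [[], [],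 [1], [1], [1]], [[], [], [1], [1], [1]], [[], [], [1], [1], [1]], [[], [], [1], [1], [1]], [[], [0], [0], [0], [0]]], [[[], [0], [0], [0], [0]], [[], [0], [0], [0], [0]], [[], [0], [0], [0], [0]], [[], [0], [0], [0], [0]], [[], [0], [0], [0], [0]], [[], [0], [0], [0], [0]], [[], [0], [0], [0], [0]]]]

noncomputable def jpath (s t : Fin 7) (a : Fin 5) : List (Fin 5) :=
  (((jpathN.getD s.1 []).getD t.1 []).getD a.1 []).map (Fin.ofNat 5)

theorem hbot : ∀ a, lab 0 a = a := by decide +kernel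

theorem h0 : ∀ t a, lab t (lab t a) = lab t a := by decide +kernel

theorem h1 : ∀ t i a, lab t (op i (lab t a)) = lab t (op i a) := by decide +kernel

theorem h2 : ∀ s t, mk7 (bitsOf 1004) s t = true ↔ ∀ a, lab t (lab s a) = lab t a := by
  decide +kernel

theorem h5 : ∀ s t, mk7 (bitsOf 1004) s t = true → mk7 (bitsOf 1004) t s = true → s = t := by
  decide +kernel

theorem h3a : ∀ u : Fin 5, ∀ u', u = u' ∨
    Cert.hits op (move u u') u u' (cp (cls u u')).1 (cp (cls u u')).2 = true := by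
  decide +kernel

theorem h3b : ∀ c : Fin 10, ∀ a,
    Cert.walk op (cp c).1 (cp c).2 (path c a) a = lab (typ c) a := by
  decide +kernel

theorem h3c : ∀ u : Fin 5, ∀ u', lab (typ (cls u u')) u = lab (typ (cls u u')) u' := by
  decide +kernel

theorem h4a : ∀ s t, mk7 (bitsOf 1004) s (jn s t) = true ∧ mk7 (bitsOf 1004) t (jn s t) = true := by
  decide +kernel

theorem h4b : ∀ s : Fin 7, ∀ t a,
    Cert.jwalk lab s t (jpath s t a) a = lab (jn s t) a := by
  decide +kernel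

theorem rep : RepTable 7 (mk7 (bitsOf 1004)) :=
  Cert.repTable_of_cert (by decide) _ op lab 0 cls cp move typ path jn jpath
    hbot h0 h1 h2 h5 h3a h3b h3c h4a h4b

end Vale.Agent.P183.Data.L48
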