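import Vale.Agent.P183.Cert
import Vale.Agent.P183.Mk7

/-!
# Certificates for seven element lattices, part 4
-/

namespace Vale.Agent.P183.Data.L06

noncomputable def g1 (l : List ℕ) (i : ℕ) : ℕ := l.getD i 0

noncomputable def g2 (l : List (List ℕ)) (i j : ℕ) : ℕ := (l.getD i []).getD j 0

noncomputable def opD : ℕ := 323787490930552567137658643404410579131193225034978658974820495615711950463980921976034886929858938863873

noncomputable def op (i : Fin 4) (x : Fin 11) : Fin 11 :=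
  Fin.ofNat 11 ((opD >>> (8 * (11 * i.1 + x.1))) &&& 255)

noncomputable def labD : ℕ := 17189019878560046736369824373324788574686660530095475757835278112156049903314334381855243208534226210776287442076899784346773281627341976649057188391346635008

noncomputable def lab (t : Fin 7) (x : Fin 11) : Fin 11 :=
  Fin.ofNat 11 ((labD >>> (8 * (11 * t.1 + x.1))) &&& 255)

noncomputable def clsR : List ℕ :=
  [2427314891278140364029952, 1213722262148594739970048, 7277277864319504642736128, 9704592611763931907620864, 7291426517586989822246912, 6077796778233564711878656, 10903962727755405309838081, 13345426127621788984017921, 15772704125130302690821121, 1209147902534560011059458, 4962969328160539541762]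

noncomputable def cls (u v : Fin 11) : Fin 14 :=
  Fin.ofNat 14 ((g1 clsR u.1 >>> (8 * v.1)) &&& 255)

noncomputable def cpA : List ℕ :=
  [0, 0, 0, 1, 1, 2, 2, 4, 4, 6, 7, 7, 8, 8]

noncomputable def cpB : List ℕ :=
  [2, 6, 9, 6, 8, 6, 8, 6, 9, 10, 9, 10, 9, 10]

noncomputable def cp (c : Fin 14) : Fin 11 × Fin 11 :=
  (Fin.ofNat 11 (g1 cpA c.1), Fin.ofNat 11 (g1 cpB c.1))

noncomputable def moveR : List ℕ :=
  [15331847441335340014045086269950750608228353, 101747915608817323111913959422195327085593162, 12544934814694196725920624717620658883936257, 15332528006069182046393695340974255186788425, 12544254291498729712428309441199057085284361, 101747915660740291851919779600970385150066699, 1443650984533751364939231208737092801675265, 1393905992180192098320127335970482147213385, 1393881652178205790515689643276349795745801, 6535512224820165099757011296910989949912891393, 1792692584723847850754804912196448475561995]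

noncomputable def dec : ℕ → ℕ → List (Fin 4)
  | 0, _ => []
  | f + 1, p => if p ≤ 1 then [] else Fin.ofNat 4 (p % 8) :: dec f (p / 8)

noncomputable def move (u v : Fin 11) : List (Fin 4) :=
  dec 5 ((g1 moveR u.1 >>> (14 * v.1)) &&& 16383)

noncomputable def typN : List ℕ :=
  [1, 4, 6, 6, 6, 5, 6, 6, 6, 6, 6, 3, 2, 6]

noncomputable def typ (c : Fin 14) : Fin 7 := Fin.ofNat 7 (g1 typN c.1)

set_option maxHeartbeats 0 in
noncomputable def pathN : List (List (List (List ℕ))) :=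
  [[[], [[0, 3], []], [[]], [[2]], [[0, 1]], [[0], [0, 3], []], [], [], [], [], []], [[], [], [], [], [], [], [[]], [[2]], [[0, 1]], [[0, 3]], [[0]]], [[], [[0, 3], []], [[2, 1, 1]], [[2]], [[2, 1]], [[2, 0], [0, 3], []], [[1]], [[1, 2]], [[0, 1]], [[]], [[0], [0, 3], []]], [[], [[], [1]], [[2, 1, 1], [1]], [[2], [1, 2]], [[2, 1], [0, 1]], [[2, 0], [0], [], [1]], [[1]], [[1, 2]], [[0, 1]], [[0, 3], [], [1]], [[0], [], [1]]], [[], [[], [0, 1]], [[2, 1, 1]], [[2]], [[2, 1]], [[2, 0], [], [0, 1]], [[1]], [[1, 2]], [[0, 1]], [[0, 3], [], [0, 1]], [[0], [], [0, 1]]], [[], [], [], [], [], [], [[]], [[2]], [[0, 1]], [[0, 3]], [[0]]], [[], [[2, 0, 3], [2, 1, 1]], [[2, 1, 1]], [[2]], [[2, 1]], [[2, 0], [2, 0, 3], [2, 1, 1]], [[1], [2, 1, 1]], [[1, 2], [2]], [[], [2, 1, 1]], [[0, 3], [2, 1, 1]], [[0], [2, 0], [2, 0, 3], [2, 1, 1]]], [[], [[2, 0, 3], [0, 3], [1], [2, 1, 1]], [[1], [2, 1, 1]], [[1, 2], [2]], [[], [2, 1, 1]], [[0], [2, 0],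 [2, 0, 3], [0, 3], [1], [2, 1, 1]], [[2, 1, 1]], [[2]], [[2, 1]], [[0, 3], [1], [2, 1, 1]], [[2, 0], [2, 0, 3], [0, 3], [1], [2, 1, 1]]], [[], [[2, 0, 3], [2, 1, 1]], [[2, 1, 1]], [[2]], [[2, 1]], [[2, 0], [2, 0, 3], [2, 1, 1]], [[1], [2, 1, 1]], [[1, 2], [2]], [[0, 1], [2, 1]], [[], [2, 1]], [[0], [2, 0], [2, 0, 3], [2, 1, 1]]], [[], [[1, 2, 0], [], [1, 2, 1, 1]], [[2, 1, 1], [1, 2, 1, 1]], [[2], [1, 2]], [[2, 1], [1, 2, 1]], [[2, 0], [], [1, 2, 1, 1]], [[1, 2, 1, 1]], [[1, 2]], [[1, 2, 1]], [[3], [1, 2, 1, 1]], [[], [1, 2, 1, 1]]], [[], [[2, 0, 3], [2, 1, 1]], [[2, 1, 1]], [[2]], [[2, 1]], [[2, 0], [2, 0, 3], [2, 1, 1]], [[1, 2, 1, 1]], [[1, 2]], [[1, 2, 1]], [[], [1, 2]], [[1, 2, 0], [2, 0, 3], [2, 1, 1]]], [[], [[2, 0, 3], [2, 1, 1]], [[2, 1, 1]], [[2]], [[2, 1]], [[2, 0], [2, 0, 3], [2, 1, 1]], [], [], [], [[3]], [[]]], [[], [[2, 0, 3], [2, 1, 1]], [[2, 1, 1]], [[2]], [[2, 1]], [[2, 0], [2, 0, 3], [2, 1, 1]], [], [], [],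 [[]], []], [[], [[2, 0, 3], [2, 1, 1]], [[2, 1, 1]], [[2]], [[2, 1]], [[2, 0], [2, 0, 3], [2, 1, 1]], [[1, 2, 1, 1]], [[1, 2]], [[1, 2, 1]], [[3], [1, 2, 1]], [[], [1, 2, 1]]]]

noncomputable def path (c : Fin 14) (a : Fin 11) : List (List (Fin 4)) :=
  ((pathN.getD c.1 []).getD a.1 []).map fun w => w.map (Fin.ofNat 4)

noncomputable def jnN : List (List ℕ) :=
  [[0, 1, 2, 3, 4, 5, 6], [1, 1, 2, 3, 6, 6, 6], [2, 2, 2, 3, 6, 6, 6], [3, 3, 3, 3, 6, 6, 6], [4, 6, 6, 6, 4, 6, 6], [5, 6, 6, 6, 6, 5, 6], [6, 6, 6, 6, 6, 6, 6]]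

noncomputable def jn (s t : Fin 7) : Fin 7 := Fin.ofNat 7 (g2 jnN s.1 t.1)

set_option maxHeartbeats 0 in
noncomputable def jpathN : List (List (List (List ℕ))) :=
  [[[[], [], [], [], [], [], [], [], [], [], []], [[], [0], [0], [0], [0], [0], [], [], [], [], []], [[], [0], [0], [0], [0], [0], [], [], [], [8], []], [[], [0], [0], [0], [0], [0], [], [], [], [8], [7]], [[], [], [], [], [], [], [0], [0], [0], [1], [1]], [[], [], [], [], [], [], [2], [3], [4], [2], [5]], [[], [0], [0], [0], [0], [0], [0], [0], [0], [0], [0]]], [[[], [0], [0], [0], [0], [0], [], [], [], [], []], [[], [0], [0], [0], [0], [0], [], [], [], [], []], [[], [0], [0], [0], [0], [0], [], [], [], [8], []], [[], [0], [0], [0], [0], [0], [], [], [], [8], [7]], [[], [0], [0], [0], [0], [0], [0], [0], [0], [1, 0], [1, 0]], [[], [0], [0], [0], [0], [0], [2, 0], [3, 0], [4, 0], [2, 0], [5, 0]], [[], [0], [0], [0], [0], [0], [0], [0], [0], [0], [0]]], [[[], [0],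 [0], [0], [0], [0], [], [], [], [8], []], [[], [0], [0], [0], [0], [0], [], [], [], [8], []], [[], [0], [0], [0], [0], [0], [], [], [], [8], []], [[], [0], [0], [0], [0], [0], [], [], [], [8], [7]], [[], [0], [0], [0], [0], [0], [0], [0], [0], [1, 0], [1, 0]], [[], [0], [0], [0], [0], [0], [2, 0], [3, 0], [4, 0], [2, 0], [5, 0]], [[], [0], [0], [0], [0], [0], [0], [0], [0], [0], [0]]], [[[], [0], [0], [0], [0], [0], [], [], [], [8], [7]], [[], [0], [0], [0], [0], [0], [], [], [], [8], [7]], [[], [0], [0], [0], [0], [0], [], [], [], [8], [7]], [[], [0], [0], [0], [0], [0], [], [], [], [8], [7]], [[], [0], [0], [0], [0], [0], [0], [0], [0], [1, 0], [1, 0]], [[], [0], [0], [0], [0], [0], [2, 0], [3, 0], [4, 0], [2, 0], [5, 0]], [[], [0], [0], [0], [0], [0], [0], [0], [0], [0], [0]]], [[[], [], [], [], [], [], [0], [0], [0], [1], [1]], [[], [0], [0], [0], [0], [0], [0], [0], [0], [1, 0], [1, 0]], [[], [0], [0], [0], [0], [0], [0],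 [0], [0], [1, 0], [1, 0]], [[], [0], [0], [0], [0], [0], [0], [0], [0], [1, 0], [1, 0]], [[], [], [], [], [], [], [0], [0], [0], [1], [1]], [[], [9, 6, 0], [6, 0], [7, 0], [8, 0], [10, 9, 6, 0], [0], [0], [0], [6, 0], [9, 6, 0]], [[], [0], [0], [0], [0], [0], [0], [0], [0], [0], [0]]], [[[], [], [], [], [], [], [2], [3], [4], [2], [5]], [[], [0], [0], [0], [0], [0], [2, 0], [3, 0], [4, 0], [2, 0], [5, 0]], [[], [0], [0], [0], [0], [0], [2, 0], [3, 0], [4, 0], [2, 0], [5, 0]], [[], [0], [0], [0], [0], [0], [2, 0], [3, 0], [4, 0], [2, 0], [5, 0]], [[], [9, 6, 0], [6, 0], [7, 0], [8, 0], [10, 9, 6, 0], [0], [0], [0], [6, 0], [9, 6, 0]], [[], [], [], [], [], [], [2], [3], [4], [2], [5]], [[], [0], [0], [0], [0], [0], [0], [0], [0], [0], [0]]], [[[], [0], [0], [0], [0], [0], [0], [0], [0], [0], [0]], [[], [0], [0], [0], [0], [0], [0], [0], [0], [0], [0]], [[], [0], [0], [0], [0], [0], [0], [0], [0], [0], [0]], [[], [0], [0], [0],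 [0], [0], [0], [0], [0], [0], [0]], [[], [0], [0], [0], [0], [0], [0], [0], [0], [0], [0]], [[], [0], [0], [0], [0], [0], [0], [0], [0], [0], [0]], [[], [0], [0], [0], [0], [0], [0], [0], [0], [0], [0]]]]

noncomputable def jpath (s t : Fin 7) (a : Fin 11) : List (Fin 11) :=
  (((jpathN.getD s.1 []).getD t.1 []).getD a.1 []).map (Fin.ofNat 11)

theorem hbot : ∀ a, lab 0 a = a := by decide +kernel

theorem h0 : ∀ t a, lab t (lab t a) = lab t a := by decide +kernel

theorem h1 : ∀ t i a, lab t (op i (lab t a)) = lab t (op i a) := by decide +kernel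

theorem h2 : ∀ s t, mk7 (bitsOf 19) s t = true ↔ ∀ a, lab t (lab s a) = lab t a := by
  decide +kernel

theorem h5 : ∀ s t, mk7 (bitsOf 19) s t = true → mk7 (bitsOf 19) t s = true → s = t := by
  decide +kernel

theorem h3a : ∀ u : Fin 11, ∀ u', u = u' ∨
    Cert.hits op (move u u') u u' (cp (cls u u')).1 (cp (cls u u')).2 = true := by
  decide +kernel

theorem h3b : ∀ c : Fin 14, ∀ a,
    Cert.walk op (cp c).1 (cp c).2 (path c a) a = lab (typ c) a := by
  decide +kernel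

theorem h3c : ∀ u : Fin 11, ∀ u', lab (typ (cls u u')) u = lab (typ (cls u u')) u' := by
  decide +kernel

theorem h4a : ∀ s t, mk7 (bitsOf 19) s (jn s t) = true ∧ mk7 (bitsOf 19) t (jn s t) = true := by
  decide +kernel

theorem h4b : ∀ s : Fin 7, ∀ t a,
    Cert.jwalk lab s t (jpath s t a) a = lab (jn s t) a := by
  decide +kernel

theorem rep : RepTable 7 (mk7 (bitsOf 19)) :=
  Cert.repTable_of_cert (by decide) _ op lab 0 cls cp move typ path jn jpath
    hbot h0 h1 h2 h5 h3a h3b h3c h4a h4b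

end Vale.Agent.P183.Data.L06

namespace Vale.Agent.P183.Data.L11

noncomputable def g1 (l : List ℕ) (i : ℕ) : ℕ := l.getD i 0

noncomputable def g2 (l : List (List ℕ)) (i j : ℕ) : ℕ := (l.getD i []).getD j 0

noncomputable def opD : ℕ := 50331906

noncomputable def op (i : Fin 1) (x : Fin 4) : Fin 4 :=
  Fin.ofNat 4 ((opD >>> (8 * (4 * i.1 + x.1))) &&& 255)

noncomputable def labD : ℕ := 374161546129024947826994523034110464435641250873600

noncomputable def lab (t : Fin 7) (x : Fin 4) : Fin 4 :=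
  Fin.ofNat 4 ((labD >>> (8 * (4 * t.1 + x.1))) &&& 255)

noncomputable def clsR : List ℕ :=
  [33619968, 50331648, 33554433, 131842]

noncomputable def cls (u v : Fin 4) : Fin 4 :=
  Fin.ofNat 4 ((g1 clsR u.1 >>> (8 * v.1)) &&& 255)

noncomputable def cpA : List ℕ :=
  [0, 0, 0, 1]

noncomputable def cpB : List ℕ :=
  [1, 2, 3, 3]

noncomputable def cp (c : Fin 4) : Fin 4 × Fin 4 :=
  (Fin.ofNat 4 (g1 cpA c.1), Fin.ofNat 4 (g1 cpB c.1))

noncomputable def moveR : List ℕ :=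
  [33825, 40993, 263425, 40993]

noncomputable def dec : ℕ → ℕ → List (Fin 1)
  | 0, _ => []
  | f + 1, p => if p ≤ 1 then [] else Fin.ofNat 1 (p % 8) :: dec f (p / 8)

noncomputable def move (u v : Fin 4) : List (Fin 1) :=
  dec 2 ((g1 moveR u.1 >>> (5 * v.1)) &&& 31)

noncomputable def typN : List ℕ :=
  [4, 1, 5, 2]

noncomputable def typ (c : Fin 4) : Fin 7 := Fin.ofNat 7 (g1 typN c.1)

set_option maxHeartbeats 0 in
noncomputable def pathN : List (List (List (List ℕ))) :=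
  [[[], [[]], [[0], []], []], [[], [], [[]], []], [[], [], [[0], []], [[]]], [[], [], [], [[]]]]

noncomputable def path (c : Fin 4) (a : Fin 4) : List (List (Fin 1)) :=
  ((pathN.getD c.1 []).getD a.1 []).map fun w => w.map (Fin.ofNat 1)

noncomputable def jnN : List (List ℕ) :=
  [[0, 1, 2, 3, 4, 5, 6], [1, 1, 3, 3, 4, 5, 6], [2, 3, 2, 3, 6, 6, 6], [3, 3, 3, 3, 6, 6, 6], [4, 4, 6, 6, 4, 6, 6], [5, 5, 6, 6, 6, 5, 6], [6, 6, 6, 6, 6, 6, 6]]

noncomputable def jn (s t : Fin 7) : Fin 7 := Fin.ofNat 7 (g2 jnN s.1 t.1)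

set_option maxHeartbeats 0 in
noncomputable def jpathN : List (List (List (List ℕ))) :=
  [[[[], [], [], []], [[], [], [0], []], [[], [], [], [1]], [[], [], [0], [1]], [[], [0], [0], []], [[], [], [0], [0]], [[], [0], [0], [0]]], [[[], [], [0], []], [[], [], [0], []], [[], [], [0], [1]], [[], [], [0], [1]], [[], [0], [0], []], [[], [], [0], [0]], [[], [0], [0], [0]]], [[[], [], [], [1]], [[], [], [0], [1]], [[], [], [], [1]], [[], [], [0], [1]], [[], [0], [0], [1, 0]], [[], [3, 0], [0], [0]], [[], [0], [0], [0]]], [[[], [], [0], [1]], [[], [], [0], [1]], [[], [], [0], [1]], [[], [], [0], [1]], [[], [0], [0], [1, 0]], [[], [3, 0], [0], [0]], [[], [0], [0], [0]]], [[[], [0], [0], []], [[], [0], [0], []], [[], [0], [0], [1, 0]], [[], [0], [0], [1, 0]], [[], [0], [0], []], [[], [0], [0], [0]], [[], [0], [0], [0]]], [[[], [], [0], [0]], [[], [], [0], [0]], [[], [3, 0], [0], [0]], [[], [3, 0], [0], [0]], [[], [0], [0], [0]], [[],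 [], [0], [0]], [[], [0], [0], [0]]], [[[], [0], [0], [0]], [[], [0], [0], [0]], [[], [0], [0], [0]], [[], [0], [0], [0]], [[], [0], [0], [0]], [[], [0], [0], [0]], [[], [0], [0], [0]]]]

noncomputable def jpath (s t : Fin 7) (a : Fin 4) : List (Fin 4) :=
  (((jpathN.getD s.1 []).getD t.1 []).getD a.1 []).map (Fin.ofNat 4)

theorem hbot : ∀ a, lab 0 a = a := by decide +kernel

theorem h0 : ∀ t a, lab t (lab t a) = lab t a := by decide +kernel

theorem h1 : ∀ t i a, lab t (op i (lab t a)) = lab t (op i a) := by decide +kernel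

theorem h2 : ∀ s t, mk7 (bitsOf 30) s t = true ↔ ∀ a, lab t (lab s a) = lab t a := by
  decide +kernel

theorem h5 : ∀ s t, mk7 (bitsOf 30) s t = true → mk7 (bitsOf 30) t s = true → s = t := by
  decide +kernel

theorem h3a : ∀ u : Fin 4, ∀ u', u = u' ∨
    Cert.hits op (move u u') u u' (cp (cls u u')).1 (cp (cls u u')).2 = true := by
  decide +kernel

theorem h3b : ∀ c : Fin 4, ∀ a,
    Cert.walk op (cp c).1 (cp c).2 (path c a) a = lab (typ c) a := by
  decide +kernel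

theorem h3c : ∀ u : Fin 4, ∀ u', lab (typ (cls u u')) u = lab (typ (cls u u')) u' := by
  decide +kernel

theorem h4a : ∀ s t, mk7 (bitsOf 30) s (jn s t) = true ∧ mk7 (bitsOf 30) t (jn s t) = true := by
  decide +kernel

theorem h4b : ∀ s : Fin 7, ∀ t a,
    Cert.jwalk lab s t (jpath s t a) a = lab (jn s t) a := by
  decide +kernel

theorem rep : RepTable 7 (mk7 (bitsOf 30)) :=
  Cert.repTable_of_cert (by decide) _ op lab 0 cls cp move typ path jn jpath
    hbot h0 h1 h2 h5 h3a h3b h3c h4a h4b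

end Vale.Agent.P183.Data.L11

namespace Vale.Agent.P183.Data.L12

noncomputable def g1 (l : List ℕ) (i : ℕ) : ℕ := l.getD i 0

noncomputable def g2 (l : List (List ℕ)) (i j : ℕ) : ℕ := (l.getD i []).getD j 0

noncomputable def opD : ℕ := 122695805721181417236299938470896578981186457436688745223

noncomputable def op (i : Fin 3) (x : Fin 8) : Fin 8 :=
  Fin.ofNat 8 ((opD >>> (8 * (8 * i.1 + x.1))) &&& 255)

noncomputable def labD : ℕ := 612997243735640837102803846188323057828509232762381805228447031639723631624018835082430695704038251866951385344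

noncomputable def lab (t : Fin 7) (x : Fin 8) : Fin 8 :=
  Fin.ofNat 8 ((labD >>> (8 * (8 * t.1 + x.1))) &&& 255)

noncomputable def clsR : List ℕ :=
  [216735736362237952, 1125921381941248, 73191194921796609, 2251816993947648, 74882239476860161, 281513631875072, 792634677012988930, 3096229038850051]

noncomputable def cls (u v : Fin 8) : Fin 12 :=
  Fin.ofNat 12 ((g1 clsR u.1 >>> (8 * v.1)) &&& 255)

noncomputable def cpA : List ℕ :=
  [0, 0, 0, 0, 1, 1, 2, 2, 3, 4, 4, 6]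

noncomputable def cpB : List ℕ :=
  [1, 2, 6, 7, 2, 4, 3, 5, 6, 5, 6, 7]

noncomputable def cp (c : Fin 12) : Fin 8 × Fin 8 :=
  (Fin.ofNat 8 (g1 cpA c.1), Fin.ofNat 8 (g1 cpB c.1))

noncomputable def moveR : List ℕ :=
  [151192180717509876385793, 11183228238499374425966593, 11187876531023991225190401, 89611700490328193852657673, 89611700201957149229713417, 11183227950268439928522826, 151189838704897733707777, 151192190996363354460161]

noncomputable def dec : ℕ → ℕ → List (Fin 3)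
  | 0, _ => []
  | f + 1, p => if p ≤ 1 then [] else Fin.ofNat 3 (p % 8) :: dec f (p / 8)

noncomputable def move (u v : Fin 8) : List (Fin 3) :=
  dec 4 ((g1 moveR u.1 >>> (11 * v.1)) &&& 2047)

noncomputable def typN : List ℕ :=
  [2, 4, 6, 1, 5, 6, 6, 6, 6, 6, 3, 6]

noncomputable def typ (c : Fin 12) : Fin 7 := Fin.ofNat 7 (g1 typN c.1)

set_option maxHeartbeats 0 in
noncomputable def pathN : List (List (List (List ℕ))) :=
  [[[], [[]], [], [[0], [0, 1], []], [], [[2], []], [], [[0, 1], []]], [[], [], [[]], [], [[0], [0, 0]], [], [[2]], [[0, 0]]], [[], [[2, 1]], [[1]], [[0], [1, 0, 0]], [[1, 0], [1, 0, 0]], [[2], [2, 1]], [[]], [[1, 0, 0]]], [[], [], [], [], [], [], [], [[]]], [[], [], [[]], [], [[0]], [], [[2]], [[0, 0]]], [[], [[0, 1]], [[1], [0, 1]], [[0]], [[], [0, 1]], [[2], [0, 1]], [[1, 2], [0, 1]], [[1, 0, 0]]], [[], [[1], [2, 1]], [[2, 1]], [[], [2, 1]], [[0], [0, 0]], [[2], [1, 2], [1], [2, 1]], [[1, 2], [1], [2,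 1]], [[0, 0]]], [[], [[0, 1], [1]], [[1]], [[0], [1, 0], [0, 0]], [[1, 0], [0, 0]], [[], [1]], [[2], [0, 1], [1]], [[0, 0]]], [[], [[2, 1]], [[1], [2, 1]], [[0], [1, 0, 0]], [[1, 0], [0], [1, 0, 0]], [[2], [2, 1]], [[1, 2], [2, 1]], [[1, 0, 0]]], [[], [[0, 1]], [[1]], [[0]], [[1, 0], [1, 0, 0]], [[2], [0, 1]], [[1, 2], [2], [0, 1]], [[1, 0, 0]]], [[], [[0, 1]], [], [[0]], [], [[2], [0, 1]], [[]], [[0, 1, 0], [0]]], [[], [[2, 1]], [[1, 2, 1]], [[0], [1, 0, 0]], [[1, 0], [1, 0, 0]], [[2], [2, 1]], [[], [1, 0, 0]], [[1, 0, 0]]]]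

noncomputable def path (c : Fin 12) (a : Fin 8) : List (List (Fin 3)) :=
  ((pathN.getD c.1 []).getD a.1 []).map fun w => w.map (Fin.ofNat 3)

noncomputable def jnN : List (List ℕ) :=
  [[0, 1, 2, 3, 4, 5, 6], [1, 1, 2, 3, 4, 5, 6], [2, 2, 2, 3, 6, 6, 6], [3, 3, 3, 3, 6, 6, 6], [4, 4, 6, 6, 4, 6, 6], [5, 5, 6, 6, 6, 5, 6], [6, 6, 6, 6, 6, 6, 6]]

noncomputable def jn (s t : Fin 7) : Fin 7 := Fin.ofNat 7 (g2 jnN s.1 t.1)

set_option maxHeartbeats 0 in
noncomputable def jpathN : List (List (List (List ℕ))) :=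
  [[[[], [], [], [], [], [], [], []], [[], [], [], [], [], [], [], [0]], [[], [0], [], [0], [], [0], [], [0]], [[], [0], [], [0], [], [0], [4], [0]], [[], [], [0], [], [0], [], [5], [0]], [[], [], [1], [], [3], [], [1], [0]], [[], [0], [0], [0], [0], [0], [0], [0]]], [[[], [], [], [], [], [], [], [0]], [[], [], [], [], [], [], [], [0]], [[], [0], [], [0], [], [0], [], [0]], [[], [0], [], [0], [], [0], [4], [0]], [[], [], [0], [], [0], [], [5], [0]], [[], [], [1], [], [3], [], [1], [0]], [[], [0], [0], [0], [0], [0], [0], [0]]], [[[], [0], [], [0], [], [0], [], [0]], [[], [0], [], [0], [], [0], [], [0]], [[], [0], [], [0], [], [0], [], [0]], [[], [0], [], [0], [], [0], [4], [0]], [[], [0], [0], [0], [0], [0], [5, 0], [0]], [[], [0], [1, 0], [0], [3, 0], [0], [1, 0], [0]], [[], [0], [0], [0], [0], [0], [0], [0]]], [[[], [0], [], [0], [], [0], [4], [0]], [[], [0], [], [0], [], [0], [4], [0]], [[], [0], [], [0], [], [0], [4], [0]],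 [[], [0], [], [0], [], [0], [4], [0]], [[], [0], [0], [0], [0], [0], [4, 0], [0]], [[], [0], [1, 0], [0], [3, 0], [0], [1, 0], [0]], [[], [0], [0], [0], [0], [0], [0], [0]]], [[[], [], [0], [], [0], [], [5], [0]], [[], [], [0], [], [0], [], [5], [0]], [[], [0], [0], [0], [0], [0], [5, 0], [0]], [[], [0], [0], [0], [0], [0], [4, 0], [0]], [[], [], [0], [], [0], [], [5], [0]], [[], [2, 0], [0], [4, 0], [0], [6, 2, 0], [2, 0], [0]], [[], [0], [0], [0], [0], [0], [0], [0]]], [[[], [], [1], [], [3], [], [1], [0]], [[], [], [1], [], [3], [], [1], [0]], [[], [0], [1, 0], [0], [3, 0], [0], [1, 0], [0]], [[], [0], [1, 0], [0], [3, 0], [0], [1, 0], [0]], [[], [2, 0], [0], [4, 0], [0], [6, 2, 0], [2, 0], [0]], [[], [], [1], [], [3], [], [1], [0]], [[], [0], [0], [0], [0], [0], [0], [0]]], [[[], [0], [0], [0], [0], [0], [0], [0]], [[], [0], [0], [0], [0], [0], [0], [0]], [[], [0], [0], [0], [0], [0], [0], [0]], [[], [0], [0], [0], [0], [0],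 [0], [0]], [[], [0], [0], [0], [0], [0], [0], [0]], [[], [0], [0], [0], [0], [0], [0], [0]], [[], [0], [0], [0], [0], [0], [0], [0]]]]

noncomputable def jpath (s t : Fin 7) (a : Fin 8) : List (Fin 8) :=
  (((jpathN.getD s.1 []).getD t.1 []).getD a.1 []).map (Fin.ofNat 8)

theorem hbot : ∀ a, lab 0 a = a := by decide +kernel

theorem h0 : ∀ t a, lab t (lab t a) = lab t a := by decide +kernel

theorem h1 : ∀ t i a, lab t (op i (lab t a)) = lab t (op i a) := by decide +kernel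

theorem h2 : ∀ s t, mk7 (bitsOf 31) s t = true ↔ ∀ a, lab t (lab s a) = lab t a := by
  decide +kernel

theorem h5 : ∀ s t, mk7 (bitsOf 31) s t = true → mk7 (bitsOf 31) t s = true → s = t := by
  decide +kernel

theorem h3a : ∀ u : Fin 8, ∀ u', u = u' ∨
    Cert.hits op (move u u') u u' (cp (cls u u')).1 (cp (cls u u')).2 = true := by
  decide +kernel

theorem h3b : ∀ c : Fin 12, ∀ a,
    Cert.walk op (cp c).1 (cp c).2 (path c a) a = lab (typ c) a := by
  decide +kernel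

theorem h3c : ∀ u : Fin 8, ∀ u', lab (typ (cls u u')) u = lab (typ (cls u u')) u' := by
  decide +kernel

theorem h4a : ∀ s t, mk7 (bitsOf 31) s (jn s t) = true ∧ mk7 (bitsOf 31) t (jn s t) = true := by
  decide +kernel

theorem h4b : ∀ s : Fin 7, ∀ t a,
    Cert.jwalk lab s t (jpath s t a) a = lab (jn s t) a := by
  decide +kernel

theorem rep : RepTable 7 (mk7 (bitsOf 31)) :=
  Cert.repTable_of_cert (by decide) _ op lab 0 cls cp move typ path jn jpath
    hbot h0 h1 h2 h5 h3a h3b h3c h4a h4b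

end Vale.Agent.P183.Data.L12

namespace Vale.Agent.P183.Data.L13

noncomputable def g1 (l : List ℕ) (i : ℕ) : ℕ := l.getD i 0

noncomputable def g2 (l : List (List ℕ)) (i j : ℕ) : ℕ := (l.getD i []).getD j 0

noncomputable def opD : ℕ := 309035342680842995923912918250368407961667758420108845451003038475710493228903927825364816340739103854391518823170

noncomputable def op (i : Fin 3) (x : Fin 16) : Fin 16 :=
  Fin.ofNat 16 ((opD >>> (8 * (16 * i.1 + x.1))) &&& 255)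

noncomputable def labD : ℕ := 85236101617234487154265234287948786199801713233326670224455021444167689026599997031000540966614757347230057613558103833173405264888365710688658653523204058433955811135039871240599837469168028003554736965515792595249111263384568064

noncomputable def lab (t : Fin 7) (x : Fin 16) : Fin 16 :=
  Fin.ofNat 16 ((labD >>> (8 * (16 * t.1 + x.1))) &&& 255)

noncomputable def clsR : List ℕ :=
  [1386546800855420238630665172004438016, 2720927005287816039735568731262681088, 4024192406039533412668817786116507649, 5384655393700392155065788550745164802, 6677435976490475067752902611886475011, 8048324123306585566170078485753761028, 4008575266628897690493717593314231813, 9372380262790614502856055223035891206, 1339693957445066623674631326047470595, 10696395758227221511617023154837654791, 10716941360063291840775991144235598337, 25349037999161091751253882161227828232, 1370766375915681699053901487131397897, 2720763557588549112407113250093139978,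 244028330673630287006043921124363, 40649937294208651520059893809665]

noncomputable def cls (u v : Fin 16) : Fin 20 :=
  Fin.ofNat 20 ((g1 clsR u.1 >>> (8 * v.1)) &&& 255)

noncomputable def cpA : List ℕ :=
  [0, 0, 0, 0, 0, 0, 0, 0, 0, 0, 0, 0, 1, 1, 1, 1, 10, 11, 11, 11]

noncomputable def cpB : List ℕ :=
  [1, 2, 3, 4, 5, 6, 7, 9, 11, 12, 13, 14, 3, 5, 7, 12, 14, 12, 14, 15]

noncomputable def cp (c : Fin 20) : Fin 16 × Fin 16 :=
  (Fin.ofNat 16 (g1 cpA c.1), Fin.ofNat 16 (g1 cpB c.1))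

noncomputable def moveR : List ℕ :=
  [16296289753346633591071282235651615780075738464867750362325674886052088485442537492438843393, 16296303837697954901034855255853884361300079870213085136991642488479416128527098991856320513, 16359945245645207430809651136839927459587132765161598800475234943481705817175337204166164481, 16296303837694712720769363337603640044136539153720807431650865792947175790843917538518106113, 16304244990047458805042656817665869124571988309606442515234722052253268781689256980999307265, 16296303837694712720769363337603646223158559885021748936697665486144156381994293342709481473, 1042963414530678265442387157388656684239644007769216524808102360505403833323669778891521654785, 16297282458097740226821782527769111832688465880522884954169157519519131525686119658882596865, 130370426816334783180298394673582085529955408896548914434527528577767620619759120749955121216, 16296412141604025404544173241532017074656543100587337224584204207255671866380284458648469505,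 534000833054122873284555249671155525546070124138837905901568196059401523288546138570035092783112, 2037037919018199701186741830673408699583651830148991651744692695392878097700941543201832961, 16805547290426733269913793409031154799917856147030465664008790355281311904339357368369283073, 16296303352029342337764892666864940474016951454686447668423668099760949217302566273235812353, 16296289753360065471655963849531117214990854904770246235662466368036430647302244387864444929, 2037051517700445293658168141594971731442523393023904047820262881856549202257491352096866312]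

noncomputable def dec : ℕ → ℕ → List (Fin 3)
  | 0, _ => []
  | f + 1, p => if p ≤ 1 then [] else Fin.ofNat 3 (p % 8) :: dec f (p / 8)

noncomputable def move (u v : Fin 16) : List (Fin 3) :=
  dec 7 ((g1 moveR u.1 >>> (20 * v.1)) &&& 1048575)

noncomputable def typN : List ℕ :=
  [5, 6, 3, 3, 4, 4, 3, 6, 1, 2, 6, 2, 6, 3, 4, 6, 6, 2, 2, 6]

noncomputable def typ (c : Fin 20) : Fin 7 := Fin.ofNat 7 (g1 typN c.1)

set_option maxHeartbeats 0 in
noncomputable def pathN : List (List (List (List ℕ))) :=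
  [[[], [[]], [], [[0]], [], [[0, 0]], [], [[0, 0, 0]], [], [[0, 0, 0, 0]], [], [[0, 0, 0, 0, 0]], [], [[0, 0, 0, 0, 0, 1]], [], [[0, 0, 0, 0, 1]]], [[], [[0, 0, 0, 1, 2], []], [[]], [[0, 0, 0, 1, 2, 0], [0], []], [[0], []], [[0, 0, 0, 1, 2, 0, 0], [0, 0], [0], []], [[0, 0], [0], []], [[0, 0, 0, 1, 2, 0, 0, 0], [0, 0, 0, 0], [0, 0, 0, 0, 0]], [[0, 0, 0, 0], [0, 0, 0, 0, 0]], [[0, 0, 0, 1, 2, 0, 0, 0, 0], [0, 0, 0, 0, 0]], [[0, 0, 0, 0, 0]], [[0, 0, 0, 1, 2, 0, 0, 0, 0, 0]], [[0, 0, 0, 0, 0, 1], []], [[0, 0, 0, 1, 2, 0, 0, 0, 0, 0, 1], []], [[0, 0, 0, 1, 2, 0, 0, 0, 0, 1], [0, 0, 0, 0, 0, 1], []], [[0, 0, 0, 1], [0, 0, 0, 0], [0, 0, 0, 0, 0]]], [[], [], [[0, 0, 0, 1, 2]], [[]], [[0, 0, 0, 1, 2, 0], []], [[0], [0, 0, 0, 1, 2]], [[0, 0, 0], [0, 0, 0, 1, 2, 0, 0, 0, 0], [0, 0, 0, 0, 0]], [[0, 0], [0, 0, 0, 1, 2, 0], []], [[0, 0, 0, 0], [0, 0, 0, 1, 2, 0, 0, 0, 0, 0]], [[0, 0, 0, 1, 2, 0, 0, 0, 0], [0, 0, 0, 0, 0]], [[0, 0, 0, 0,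 0]], [[0, 0, 0, 1, 2, 0, 0, 0, 0, 0]], [[0, 0, 0, 0, 0, 1], []], [[0, 0, 0, 1, 2, 0, 0, 0, 0, 0, 1], [0, 0, 0, 1, 2]], [[0, 0, 0, 1], [0, 0, 0, 0], [0, 0, 0, 1, 2, 0, 0, 0, 0, 0]], [[0, 0, 0, 0, 1], [0, 0, 0, 1, 2, 0, 0, 0, 0, 0, 1], [0, 0, 0, 1, 2]]], [[], [], [[0, 0, 1, 2]], [[0, 0, 1, 2, 0], []], [[]], [[0, 0, 1, 2, 0, 0], [0], [0, 0, 1, 2]], [[0], [0, 0, 1, 2]], [[0, 0, 1, 2, 0, 0, 0], [0, 0, 0, 0]], [[0, 0, 0, 0]], [[0, 0, 1, 2, 0, 0, 0, 0], [0, 0, 0, 0, 0], [0, 0, 1, 2]], [[0, 0, 0, 0, 0], [0, 0, 1, 2]], [[0, 0, 1, 2, 0, 0, 0, 0, 0]], [[0, 0, 0, 1], [0, 0, 0, 0]], [[0, 0, 1, 2, 0, 0, 0, 0, 0, 1], [0, 0, 1, 2]], [[0, 0, 1, 2, 0, 0, 0, 0, 1], [0, 0, 0, 1], [0, 0, 0, 0]], [[0, 0, 0, 0, 1], [0, 0, 1, 2]]], [[], [], [[0, 0, 1, 2]], [], [[0, 0, 1, 2, 0]], [[]], [[0, 0, 0], [0, 0, 1, 2, 0, 0, 0, 0, 0]], [[0], [0, 0, 1, 2]], [[0, 0, 0, 0]], [[0, 0], [0, 0, 1, 2, 0]], [[0, 0, 0, 0, 0]], [[0, 0, 1, 2, 0, 0, 0, 0, 0]], [[0, 0, 0,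 0, 0, 1], []], [[0, 0, 0, 1], [0, 0, 0, 0]], [[0, 0, 1], [0, 0, 0], [0, 0, 1, 2, 0, 0, 0, 0, 0]], [[0, 0, 0, 0, 1]]], [[], [], [[0, 1, 2]], [], [[0, 1, 2, 0]], [[0, 1, 2, 0, 0], []], [[]], [[0, 1, 2, 0, 0, 0], [0], [0, 1, 2]], [[0], [0, 1, 2]], [[0, 1, 2, 0, 0, 0, 0], [0, 0], [0, 1, 2, 0]], [[0, 0], [0, 1, 2, 0]], [[0, 1, 2, 0, 0, 0, 0, 0]], [[0, 0, 1], []], [[0, 1, 2, 0, 0, 0, 0, 0, 1], [0, 1, 2]], [[0, 1, 2, 0, 0, 0, 0, 1], [0, 0, 1], []], [[0, 1], [0, 1, 2, 0]]], [[], [], [[0, 1, 2]], [[0, 0, 0, 0], [0, 1, 2, 0, 0, 0], []], [[0, 0], [0, 1, 2, 0, 0, 0, 0, 0]], [[0, 1, 2, 0, 0], [0, 0, 0]], [[0, 0, 0]], [[]], [[0, 1, 2, 0, 0, 0], []], [[0], [0, 1, 2]], [[0, 0, 0, 0, 0], [0, 1, 2, 0, 0], [0, 0, 0]], [[0, 1, 2, 0, 0, 0, 0, 0]], [[0, 0, 0, 0, 0, 1], []], [[0, 0, 1], [0, 0, 0]], [[0, 1], [0, 0], [0, 1, 2, 0, 0, 0, 0, 0]], [[0, 0, 0, 0, 1], [0, 1, 2, 0, 0], [0, 0, 0]]], [[], [[1, 2], [0], [1, 2, 0, 0, 0, 0, 0]], [[0], [1, 2, 0, 0,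 0, 0, 0]], [[1, 2, 0], [0, 0], [1, 2], [0], [1, 2, 0, 0, 0, 0, 0]], [[0, 0], [1, 2], [0], [1, 2, 0, 0, 0, 0, 0]], [[0, 0, 0, 0], [1, 2, 0, 0, 0], [0, 0, 0, 0, 0], [1, 2, 0, 0, 0, 0], []], [[0, 0, 0], [1, 2, 0], [0, 0], [1, 2], [0], [1, 2, 0, 0, 0, 0, 0]], [[0, 0, 0, 0, 0], [1, 2, 0, 0, 0, 0], []], [[1, 2, 0, 0, 0], [0, 0, 0, 0, 0], [1, 2, 0, 0, 0, 0], []], [[]], [[1, 2, 0, 0, 0, 0], []], [[1, 2, 0, 0, 0, 0, 0]], [[0, 0, 0, 0, 0, 1], []], [[1, 2, 0, 0, 0, 0, 0, 1], [0], [1, 2, 0, 0, 0, 0, 0]], [[1], [0], [1, 2, 0, 0, 0, 0, 0]], [[1, 2, 0, 0, 0, 1], []]], [[], [], [[0]], [], [[0, 0]], [], [[0, 0, 0]], [], [[0, 0, 0, 0]], [], [[0, 0, 0, 0, 0]], [[]], [], [[1], [0]], [[0, 0, 0, 0, 0, 1]], [[0, 0, 0, 0, 1]]], [[], [], [[2]], [], [[2, 0]], [], [[2, 0, 0]], [], [[2, 0, 0, 0]], [], [[2, 0, 0, 0, 0]], [[2, 0, 0, 0, 0, 0]], [[]], [[2, 0, 0, 0, 0, 0, 1], [2]], [[2, 0, 0, 0, 0, 1], []], [[2, 0, 0, 0, 1]]], [[], [[0, 0, 0, 0, 0, 0]], [[2],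 [0, 0, 0, 0, 0, 0]], [[0], [2], [0, 0, 0, 0, 0, 0]], [[2, 0], [0], [2], [0, 0, 0, 0, 0, 0]], [[0, 0], [2, 0], [0], [2], [0, 0, 0, 0, 0, 0]], [[0, 0, 0], [2, 0, 0, 0], [0, 0, 0, 0], [2, 0, 0, 0, 0], [0, 0, 0, 0, 0], [2, 0, 0, 0, 0, 0]], [[2, 0, 0, 0], [0, 0, 0, 0], [2, 0, 0, 0, 0], [0, 0, 0, 0, 0], [2, 0, 0, 0, 0, 0]], [[0, 0, 0, 0], [2, 0, 0, 0, 0], [0, 0, 0, 0, 0], [2, 0, 0, 0, 0, 0]], [[2, 0, 0, 0, 0], [0, 0, 0, 0, 0], [2, 0, 0, 0, 0, 0]], [[0, 0, 0, 0, 0], [2, 0, 0, 0, 0, 0]], [[2, 0, 0, 0, 0, 0]], [[0, 0, 0, 0, 0, 1], []], [[]], [[2, 0, 0, 0, 0, 1], [0, 0, 0, 0, 0, 1], []], [[0, 0, 0, 0, 1], [2, 0, 0, 0, 0, 1], [0, 0, 0, 0, 0, 1], []]], [[], [], [[0]], [], [[0, 0]], [], [[0, 0, 0]], [], [[0, 0, 0, 0]], [], [[0, 0, 0, 0, 0]], [[0, 0, 0, 0, 0, 0]], [[0, 0, 0, 0, 0, 1], []], [[1], [0]], [[]], [[0, 0, 0, 0, 1]]], [[], [[0, 0, 0, 0, 0], [0, 0, 0, 1, 2, 0, 0, 0, 0, 0]], [[0, 0, 0, 1, 2], [0, 0, 0, 0, 0], [0, 0, 0, 1, 2, 0, 0, 0,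 0, 0]], [[], [0, 0, 0, 0, 0], [0, 0, 0, 1, 2, 0, 0, 0, 0, 0]], [[0, 0, 0, 1, 2, 0], [], [0, 0, 0, 0, 0], [0, 0, 0, 1, 2, 0, 0, 0, 0, 0]], [[0], [], [0, 0, 0, 0, 0], [0, 0, 0, 1, 2, 0, 0, 0, 0, 0]], [[0, 0, 0, 1, 2, 0, 0], [0], [], [0, 0, 0, 0, 0], [0, 0, 0, 1, 2, 0, 0, 0, 0, 0]], [[0, 0, 0], [0, 0, 0, 0], [0, 0, 0, 1, 2, 0, 0, 0, 0, 0]], [[0, 0, 0, 1, 2, 0, 0, 0], [0, 0, 0], [0, 0, 0, 0], [0, 0, 0, 1, 2, 0, 0, 0, 0, 0]], [[0, 0, 0, 0], [0, 0, 0, 1, 2, 0, 0, 0, 0, 0]], [[0, 0, 0, 1, 2, 0, 0, 0, 0], [0, 0, 0, 0], [0, 0, 0, 1, 2, 0, 0, 0, 0, 0]], [[0, 0, 0, 1, 2, 0, 0, 0, 0, 0]], [[0, 0, 0, 1, 2, 0, 0, 0, 0, 1], [0, 0, 0, 1], [0, 0, 0, 0], [0, 0, 0, 1, 2, 0, 0, 0, 0, 0]], [[0, 0, 0, 0, 1], [0, 0, 0, 1], [0, 0, 0, 0], [0, 0, 0, 1, 2, 0, 0, 0, 0, 0]], [[0, 0, 0, 1], [0, 0, 0, 0], [0, 0, 0, 1, 2, 0, 0, 0, 0, 0]], [[0, 0, 0, 1, 2, 0, 0, 0, 1], [0, 0, 0, 0], [0, 0, 0, 1, 2, 0, 0, 0, 0, 0]]], [[], [], [[0, 0, 1, 2]], [[0, 0, 0, 0, 0],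 [0, 0, 1, 2, 0, 0, 0, 0, 0]], [[0, 0, 1, 2, 0], [0, 0, 0, 0, 0], [0, 0, 1, 2, 0, 0, 0, 0, 0]], [[]], [[0, 0, 1, 2, 0, 0], []], [[0, 0, 0], [0, 0, 1, 2, 0, 0, 0, 0, 0]], [[0, 0, 1, 2, 0, 0, 0], [0, 0, 0], [0, 0, 1, 2, 0, 0, 0, 0, 0]], [[0, 0, 0, 0]], [[0, 0, 1, 2, 0, 0, 0, 0], [0, 0, 0, 0]], [[0, 0, 1, 2, 0, 0, 0, 0, 0]], [[0, 0, 1, 2, 0, 0, 0, 0, 1], [0, 0, 1], [0, 0, 0], [0, 0, 1, 2, 0, 0, 0, 0, 0]], [[0, 0, 0, 1], [0, 0, 0, 0]], [[0, 0, 1], [0, 0, 0], [0, 0, 1, 2, 0, 0, 0, 0, 0]], [[0, 0, 1, 2, 0, 0, 0, 1], [0, 0, 0, 0]]], [[], [], [[0, 1, 2]], [], [[0, 1, 2, 0]], [[0, 0], [0, 1, 2, 0, 0, 0, 0, 0]], [[0, 1, 2, 0, 0], [0, 0], [0, 1, 2, 0, 0, 0, 0, 0]], [[]], [[0, 1, 2, 0, 0, 0], []], [[0]], [[0, 1, 2, 0, 0, 0, 0], [0]], [[0, 1, 2, 0, 0, 0, 0, 0]], [[0, 1, 2, 0, 0, 0, 0, 1], [0, 1], [0, 0], [0, 1, 2, 0, 0, 0, 0, 0]], [[0, 0, 1], []], [[0, 1], [0, 0], [0, 1, 2, 0, 0, 0, 0, 0]], [[0, 1, 2, 0, 0, 0, 1], [0]]], [[], [[0, 0, 0, 0,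 0, 0]], [[2], [0, 0, 0, 0, 0, 0]], [[0], [2], [0, 0, 0, 0, 0, 0]], [[2, 0], [0], [2], [0, 0, 0, 0, 0, 0]], [[0, 0], [2, 0], [0], [2], [0, 0, 0, 0, 0, 0]], [[0, 0, 0], [2, 0, 0, 0], [0, 0, 0, 0], [2, 0, 0, 0, 0], [0, 0, 0, 0, 0], [2, 0, 0, 0, 0, 0]], [[2, 0, 0, 0], [0, 0, 0, 0], [2, 0, 0, 0, 0], [0, 0, 0, 0, 0], [2, 0, 0, 0, 0, 0]], [[0, 0, 0, 0], [2, 0, 0, 0, 0], [0, 0, 0, 0, 0], [2, 0, 0, 0, 0, 0]], [[2, 0, 0, 0, 0], [0, 0, 0, 0, 0], [2, 0, 0, 0, 0, 0]], [[0, 0, 0, 0, 0], [2, 0, 0, 0, 0, 0]], [[2, 0, 0, 0, 0, 0]], [[], [0, 0, 0, 0, 0, 0]], [[0, 0, 0, 0, 0, 1], [], [0, 0, 0, 0, 0, 0]], [[2, 0, 0, 0, 0, 1], [], [0, 0, 0, 0, 0, 0]], [[0, 0, 0, 0, 1], [2, 0, 0, 0, 0, 1], [], [0, 0, 0, 0, 0, 0]]], [[], [[0]], [[2], [0]], [[0, 0], [2], [0]], [[2, 0], [0, 0], [2], [0]], [[0, 0, 0], [2, 0], [0, 0], [2], [0]], [[2, 0, 0], [0, 0, 0], [2, 0], [0, 0], [2], [0]], [[2, 0, 0, 0], [0, 0, 0, 0, 0], [2, 0, 0, 0, 0], [0, 0, 0, 0, 0, 0], [2, 0,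 0, 0, 0, 0]], [[0, 0, 0, 0, 0], [2, 0, 0, 0, 0], [0, 0, 0, 0, 0, 0], [2, 0, 0, 0, 0, 0]], [[2, 0, 0, 0, 0], [0, 0, 0, 0, 0, 0], [2, 0, 0, 0, 0, 0]], [[0, 0, 0, 0, 0, 0], [2, 0, 0, 0, 0, 0]], [[2, 0, 0, 0, 0, 0]], [[1], [2, 0, 0, 0, 0, 0, 1], [2], [0]], [[2, 0, 0, 0, 0, 0, 1], [2], [0]], [[], [0, 0, 0, 0, 0, 0], [2, 0, 0, 0, 0, 0]], [[2, 0, 0, 0, 1], [2, 0, 0, 0, 0], [0, 0, 0, 0, 0, 0], [2, 0, 0, 0, 0, 0]]], [[], [], [[0]], [], [[0, 0]], [], [[0, 0, 0]], [], [[0, 0, 0, 0]], [], [[0, 0, 0, 0, 0]], [[0, 0, 0, 0, 0, 0]], [[], [0, 0, 0, 0, 0, 0]], [[1], [0]], [[0, 0, 0, 0, 0, 1], [], [0, 0, 0, 0, 0, 0]], [[0, 0, 0, 0, 1]]], [[], [], [[2]], [], [[2, 0]], [], [[2, 0, 0]], [], [[2, 0, 0, 0]], [], [[2, 0, 0, 0, 0]], [[2, 0, 0, 0, 0, 0]], [[2, 0, 0, 0, 0, 1], [], [2, 0, 0, 0, 0, 0]], [[2, 0, 0, 0, 0, 0, 1], [2]], [[], [2, 0, 0, 0, 0, 0]], [[2, 0, 0, 0, 1]]], [[], [[0]], [[2], [0]], [[0, 0], [2], [0]], [[2, 0], [0, 0], [2], [0]], [[0, 0,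 0], [2, 0], [0, 0], [2], [0]], [[2, 0, 0], [0, 0, 0], [2, 0], [0, 0], [2], [0]], [[2, 0, 0, 0], [0, 0, 0, 0, 0], [2, 0, 0, 0, 0], [0, 0, 0, 0, 0, 0], [2, 0, 0, 0, 0, 0]], [[0, 0, 0, 0, 0], [2, 0, 0, 0, 0], [0, 0, 0, 0, 0, 0], [2, 0, 0, 0, 0, 0]], [[2, 0, 0, 0, 0], [0, 0, 0, 0, 0, 0], [2, 0, 0, 0, 0, 0]], [[0, 0, 0, 0, 0, 0], [2, 0, 0, 0, 0, 0]], [[2, 0, 0, 0, 0, 0]], [[1], [2, 0, 0, 0, 0, 0, 1], [2], [0]], [[2, 0, 0, 0, 0, 0, 1], [2], [0]], [[0, 0, 0, 0, 0, 1], [], [2, 0, 0, 0, 0, 0]], [[], [2, 0, 0, 0, 0, 0]]]]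

noncomputable def path (c : Fin 20) (a : Fin 16) : List (List (Fin 3)) :=
  ((pathN.getD c.1 []).getD a.1 []).map fun w => w.map (Fin.ofNat 3)

noncomputable def jnN : List (List ℕ) :=
  [[0, 1, 2, 3, 4, 5, 6], [1, 1, 2, 3, 4, 6, 6], [2, 2, 2, 3, 4, 6, 6], [3, 3, 3, 3, 6, 6, 6], [4, 4, 4, 6, 4, 6, 6], [5, 6, 6, 6, 6, 5, 6], [6, 6, 6, 6, 6, 6, 6]]

noncomputable def jn (s t : Fin 7) : Fin 7 := Fin.ofNat 7 (g2 jnN s.1 t.1)

set_option maxHeartbeats 0 in
noncomputable def jpathN : List (List (List (List ℕ))) :=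
  [[[[], [], [], [], [], [], [], [], [], [], [], [], [], [], [], []], [[], [], [1], [], [3], [], [5], [], [7], [], [9], [0], [], [1], [12], [9]], [[], [], [1], [], [3], [], [5], [], [7], [], [9], [0], [0], [1], [0], [9]], [[], [], [1], [0], [0], [1], [1], [0], [0], [1], [1], [0], [0], [1], [0], [1]], [[], [], [1], [], [3], [0], [0], [1], [1], [3], [3], [0], [0], [1], [0], [3]], [[], [0], [], [2], [], [4], [], [6], [], [8], [], [10], [], [12], [], [14]], [[], [0], [0], [0], [0], [0], [0], [0], [0], [0], [0], [0], [0], [0], [0], [0]]], [[[], [], [1], [], [3], [], [5], [], [7], [], [9], [0], [], [1], [12], [9]], [[], [], [1], [], [3], [], [5], [], [7], [], [9], [0], [], [1], [12], [9]], [[], [], [1], [], [3], [], [5], [], [7], [], [9], [0], [0], [1], [0], [9]], [[], [], [1], [0], [0], [1], [1], [0], [0], [1], [1], [0], [0], [1], [0], [1]], [[], [], [1], [], [3], [0], [0], [1], [1], [3], [3], [0], [0], [1], [0], [3]], [[], [0], [1,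 0], [2, 1, 0], [3, 2, 1, 0], [4, 3, 2, 1, 0], [5, 4, 3, 2, 1, 0], [8, 9, 10, 11, 0], [9, 10, 11, 0], [10, 11, 0], [11, 0], [0], [13, 1, 0], [1, 0], [12, 13, 1, 0], [10, 11, 0]], [[], [0], [0], [0], [0], [0], [0], [0], [0], [0], [0], [0], [0], [0], [0], [0]]], [[[], [], [1], [], [3], [], [5], [], [7], [], [9], [0], [0], [1], [0], [9]], [[], [], [1], [], [3], [], [5], [], [7], [], [9], [0], [0], [1], [0], [9]], [[], [], [1], [], [3], [], [5], [], [7], [], [9], [0], [0], [1], [0], [9]], [[], [], [1], [0], [0], [1], [1], [0], [0], [1], [1], [0], [0], [1], [0], [1]], [[], [], [1], [], [3], [0], [0], [1], [1], [3], [3], [0], [0], [1], [0], [3]], [[], [0], [1, 0], [2, 1, 0], [3, 2, 1, 0], [4, 3, 2, 1, 0], [5, 4, 3, 2, 1, 0], [8, 9, 10, 11, 0], [9, 10, 11, 0], [10, 11, 0], [11, 0], [0], [0], [1, 0], [0], [14, 0]], [[], [0], [0], [0], [0], [0], [0], [0], [0], [0], [0], [0], [0], [0], [0], [0]]], [[[], [], [1], [0], [0], [1], [1], [0],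 [0], [1], [1], [0], [0], [1], [0], [1]], [[], [], [1], [0], [0], [1], [1], [0], [0], [1], [1], [0], [0], [1], [0], [1]], [[], [], [1], [0], [0], [1], [1], [0], [0], [1], [1], [0], [0], [1], [0], [1]], [[], [], [1], [0], [0], [1], [1], [0], [0], [1], [1], [0], [0], [1], [0], [1]], [[], [5, 0], [5, 0], [0], [0], [0], [0], [0], [0], [3, 0], [3, 0], [0], [0], [5, 0], [0], [3, 0]], [[], [0], [1, 0], [0], [0], [1, 0], [1, 0], [0], [0], [1, 0], [1, 0], [0], [0], [1, 0], [0], [1, 0]], [[], [0], [0], [0], [0], [0], [0], [0], [0], [0], [0], [0], [0], [0], [0], [0]]], [[[], [], [1], [], [3], [0], [0], [1], [1], [3], [3], [0], [0], [1], [0], [3]], [[], [], [1], [], [3], [0], [0], [1], [1], [3], [3], [0], [0], [1], [0], [3]], [[], [], [1], [], [3], [0], [0], [1], [1], [3], [3], [0], [0], [1], [0], [3]], [[], [5, 0], [5, 0], [0], [0], [0], [0], [0], [0], [3, 0], [3, 0], [0], [0], [5, 0], [0], [3, 0]], [[], [], [1], [], [3], [0], [0], [1],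 [1], [3], [3], [0], [0], [1], [0], [3]], [[], [0], [1, 0], [2, 1, 0], [5, 0], [0], [0], [1, 0], [1, 0], [4, 5, 0], [11, 0], [0], [0], [1, 0], [0], [14, 0]], [[], [0], [0], [0], [0], [0], [0], [0], [0], [0], [0], [0], [0], [0], [0], [0]]], [[[], [0], [], [2], [], [4], [], [6], [], [8], [], [10], [], [12], [], [14]], [[], [0], [1, 0], [2, 1, 0], [3, 2, 1, 0], [4, 3, 2, 1, 0], [5, 4, 3, 2, 1, 0], [8, 9, 10, 11, 0], [9, 10, 11, 0], [10, 11, 0], [11, 0], [0], [13, 1, 0], [1, 0], [12, 13, 1, 0], [10, 11, 0]], [[], [0], [1, 0], [2, 1, 0], [3, 2, 1, 0], [4, 3, 2, 1, 0], [5, 4, 3, 2, 1, 0], [8, 9, 10, 11, 0], [9, 10, 11, 0], [10, 11, 0], [11, 0], [0], [0], [1, 0], [0], [14, 0]], [[], [0], [1, 0], [0], [0], [1, 0], [1, 0], [0], [0], [1, 0], [1, 0], [0], [0], [1, 0], [0], [1, 0]], [[], [0], [1, 0], [2, 1, 0], [5, 0], [0], [0], [1, 0], [1, 0], [4, 5, 0], [11, 0], [0], [0], [1, 0], [0], [14, 0]], [[], [0], [], [2], [], [4], [], [6], [], [8],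 [], [10], [], [12], [], [14]], [[], [0], [0], [0], [0], [0], [0], [0], [0], [0], [0], [0], [0], [0], [0], [0]]], [[[], [0], [0], [0], [0], [0], [0], [0], [0], [0], [0], [0], [0], [0], [0], [0]], [[], [0], [0], [0], [0], [0], [0], [0], [0], [0], [0], [0], [0], [0], [0], [0]], [[], [0], [0], [0], [0], [0], [0], [0], [0], [0], [0], [0], [0], [0], [0], [0]], [[], [0], [0], [0], [0], [0], [0], [0], [0], [0], [0], [0], [0], [0], [0], [0]], [[], [0], [0], [0], [0], [0], [0], [0], [0], [0], [0], [0], [0], [0], [0], [0]], [[], [0], [0], [0], [0], [0], [0], [0], [0], [0], [0], [0], [0], [0], [0], [0]], [[], [0], [0], [0], [0], [0], [0], [0], [0], [0], [0], [0], [0], [0], [0], [0]]]]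

noncomputable def jpath (s t : Fin 7) (a : Fin 16) : List (Fin 16) :=
  (((jpathN.getD s.1 []).getD t.1 []).getD a.1 []).map (Fin.ofNat 16)

theorem hbot : ∀ a, lab 0 a = a := by decide +kernel

theorem h0 : ∀ t a, lab t (lab t a) = lab t a := by decide +kernel

theorem h1 : ∀ t i a, lab t (op i (lab t a)) = lab t (op i a) := by decide +kernel

theorem h2 : ∀ s t, mk7 (bitsOf 55) s t = true ↔ ∀ a, lab t (lab s a) = lab t a := by
  decide +kernel

theorem h5 : ∀ s t, mk7 (bitsOf 55) s t = true → mk7 (bitsOf 55) t s = true → s = t := by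
  decide +kernel

theorem h3a : ∀ u : Fin 16, ∀ u', u = u' ∨
    Cert.hits op (move u u') u u' (cp (cls u u')).1 (cp (cls u u')).2 = true := by
  decide +kernel

theorem h3b : ∀ c : Fin 20, ∀ a,
    Cert.walk op (cp c).1 (cp c).2 (path c a) a = lab (typ c) a := by
  decide +kernel

theorem h3c : ∀ u : Fin 16, ∀ u', lab (typ (cls u u')) u = lab (typ (cls u u')) u' := by
  decide +kernel

theorem h4a : ∀ s t, mk7 (bitsOf 55) s (jn s t) = true ∧ mk7 (bitsOf 55) t (jn s t) = true := by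
  decide +kernel

theorem h4b : ∀ s : Fin 7, ∀ t a,
    Cert.jwalk lab s t (jpath s t a) a = lab (jn s t) a := by
  decide +kernel

theorem rep : RepTable 7 (mk7 (bitsOf 55)) :=
  Cert.repTable_of_cert (by decide) _ op lab 0 cls cp move typ path jn jpath
    hbot h0 h1 h2 h5 h3a h3b h3c h4a h4b

end Vale.Agent.P183.Data.L13

namespace Vale.Agent.P183.Data.L24

noncomputable def g1 (l : List ℕ) (i : ℕ) : ℕ := l.getD i 0

noncomputable def g2 (l : List (List ℕ)) (i j : ℕ) : ℕ := (l.getD i []).getD j 0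

noncomputable def opD : ℕ := 24520678404238948543537153539687801696311955202360280067

noncomputable def op (i : Fin 4) (x : Fin 6) : Fin 6 :=
  Fin.ofNat 6 ((opD >>> (8 * (6 * i.1 + x.1))) &&& 255)

noncomputable def labD : ℕ := 5850861256082505564599773074751687794258742673950575405982310202588778715837733404928

noncomputable def lab (t : Fin 7) (x : Fin 6) : Fin 6 :=
  Fin.ofNat 6 ((labD >>> (8 * (6 * t.1 + x.1))) &&& 255)

noncomputable def clsR : List ℕ :=
  [3311436562432, 3307175149568, 4410981744640, 197377, 197123, 262915]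

noncomputable def cls (u v : Fin 6) : Fin 5 :=
  Fin.ofNat 5 ((g1 clsR u.1 >>> (8 * v.1)) &&& 255)

noncomputable def cpA : List ℕ :=
  [0, 0, 1, 1, 2]

noncomputable def cpB : List ℕ :=
  [1, 3, 4, 5, 5]

noncomputable def cp (c : Fin 5) : Fin 6 × Fin 6 :=
  (Fin.ofNat 6 (g1 cpA c.1), Fin.ofNat 6 (g1 cpB c.1))

noncomputable def moveR : List ℕ :=
  [87999607603457, 1105015275777, 1134039206746, 98990423689217, 12099057615113, 1148266283344]

noncomputable def dec : ℕ → ℕ → List (Fin 4)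
  | 0, _ => []
  | f + 1, p => if p ≤ 1 then [] else Fin.ofNat 4 (p % 8) :: dec f (p / 8)

noncomputable def move (u v : Fin 6) : List (Fin 4) :=
  dec 3 ((g1 moveR u.1 >>> (8 * v.1)) &&& 255)

noncomputable def typN : List ℕ :=
  [5, 4, 1, 6, 2]

noncomputable def typ (c : Fin 5) : Fin 7 := Fin.ofNat 7 (g1 typN c.1)

set_option maxHeartbeats 0 in
noncomputable def pathN : List (List (List (List ℕ))) :=
  [[[], [[]], [[3]], [], [[0]], [[3, 0]]], [[], [], [], [[]], [[2]], [[1]]], [[], [], [], [], [[]], []], [[], [[3]], [[3, 3]], [[3, 0], [0], [3, 3]], [[0], [3, 3]], [[], [3]]], [[], [], [], [], [], [[]]]]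

noncomputable def path (c : Fin 5) (a : Fin 6) : List (List (Fin 4)) :=
  ((pathN.getD c.1 []).getD a.1 []).map fun w => w.map (Fin.ofNat 4)

noncomputable def jnN : List (List ℕ) :=
  [[0, 1, 2, 3, 4, 5, 6], [1, 1, 3, 3, 4, 6, 6], [2, 3, 2, 3, 4, 6, 6], [3, 3, 3, 3, 4, 6, 6], [4, 4, 4, 4, 4, 6, 6], [5, 6, 6, 6, 6, 5, 6], [6, 6, 6, 6, 6, 6, 6]]

noncomputable def jn (s t : Fin 7) : Fin 7 := Fin.ofNat 7 (g2 jnN s.1 t.1)

set_option maxHeartbeats 0 in
noncomputable def jpathN : List (List (List (List ℕ))) :=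
  [[[[], [], [], [], [], []], [[], [], [], [], [1], []], [[], [], [], [], [], [2]], [[], [], [], [], [1], [2]], [[], [], [], [0], [1], [2]], [[], [0], [0], [], [3], [3]], [[], [0], [0], [0], [0], [0]]], [[[], [], [], [], [1], []], [[], [], [], [], [1], []], [[], [], [], [], [1], [2]], [[], [], [], [], [1], [2]], [[], [], [], [0], [1], [2]], [[], [0], [0], [4, 1, 0], [1, 0], [4, 1, 0]], [[], [0], [0], [0], [0], [0]]], [[[], [], [], [], [], [2]], [[], [], [], [], [1], [2]], [[], [], [], [], [], [2]], [[], [], [], [], [1], [2]], [[], [], [], [0], [1], [2]], [[], [0], [0], [5, 2, 0], [5, 2, 0], [2, 0]], [[], [0], [0], [0], [0], [0]]], [[[], [], [], [], [1], [2]], [[], [], [], [], [1], [2]], [[], [], [], [], [1], [2]], [[], [], [], [], [1], [2]], [[], [], [], [0], [1], [2]], [[], [0], [0], [4, 1, 0], [1, 0], [2, 0]], [[], [0], [0], [0], [0], [0]]], [[[], [], [], [0], [1], [2]], [[], [], [], [0], [1], [2]], [[], [], [], [0], [1], [2]],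 [[], [], [], [0], [1], [2]], [[], [], [], [0], [1], [2]], [[], [0], [0], [0], [1, 0], [2, 0]], [[], [0], [0], [0], [0], [0]]], [[[], [0], [0], [], [3], [3]], [[], [0], [0], [4, 1, 0], [1, 0], [4, 1, 0]], [[], [0], [0], [5, 2, 0], [5, 2, 0], [2, 0]], [[], [0], [0], [4, 1, 0], [1, 0], [2, 0]], [[], [0], [0], [0], [1, 0], [2, 0]], [[], [0], [0], [], [3], [3]], [[], [0], [0], [0], [0], [0]]], [[[], [0], [0], [0], [0], [0]], [[], [0], [0], [0], [0], [0]], [[], [0], [0], [0], [0], [0]], [[], [0], [0], [0], [0], [0]], [[], [0], [0], [0], [0], [0]], [[], [0], [0], [0], [0], [0]], [[], [0], [0], [0], [0], [0]]]]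

noncomputable def jpath (s t : Fin 7) (a : Fin 6) : List (Fin 6) :=
  (((jpathN.getD s.1 []).getD t.1 []).getD a.1 []).map (Fin.ofNat 6)

theorem hbot : ∀ a, lab 0 a = a := by decide +kernel

theorem h0 : ∀ t a, lab t (lab t a) = lab t a := by decide +kernel

theorem h1 : ∀ t i a, lab t (op i (lab t a)) = lab t (op i a) := by decide +kernel

theorem h2 : ∀ s t, mk7 (bitsOf 182) s t = true ↔ ∀ a, lab t (lab s a) = lab t a := by
  decide +kernel

theorem h5 : ∀ s t, mk7 (bitsOf 182) s t = true → mk7 (bitsOf 182) t s = true → s = t := by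
  decide +kernel

theorem h3a : ∀ u : Fin 6, ∀ u', u = u' ∨
    Cert.hits op (move u u') u u' (cp (cls u u')).1 (cp (cls u u')).2 = true := by
  decide +kernel

theorem h3b : ∀ c : Fin 5, ∀ a,
    Cert.walk op (cp c).1 (cp c).2 (path c a) a = lab (typ c) a := by
  decide +kernel

theorem h3c : ∀ u : Fin 6, ∀ u', lab (typ (cls u u')) u = lab (typ (cls u u')) u' := by
  decide +kernel

theorem h4a : ∀ s t, mk7 (bitsOf 182) s (jn s t) = true ∧ mk7 (bitsOf 182) t (jn s t) = true := by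
  decide +kernel

theorem h4b : ∀ s : Fin 7, ∀ t a,
    Cert.jwalk lab s t (jpath s t a) a = lab (jn s t) a := by
  decide +kernel

theorem rep : RepTable 7 (mk7 (bitsOf 182)) :=
  Cert.repTable_of_cert (by decide) _ op lab 0 cls cp move typ path jn jpath
    hbot h0 h1 h2 h5 h3a h3b h3c h4a h4b

end Vale.Agent.P183.Data.L24

namespace Vale.Agent.P183.Data.L34

noncomputable def g1 (l : List ℕ) (i : ℕ) : ℕ := l.getD i 0

noncomputable def g2 (l : List (List ℕ)) (i j : ℕ) : ℕ := (l.getD i []).getD j 0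

noncomputable def opD : ℕ := 4722438823046795165952

noncomputable def op (i : Fin 2) (x : Fin 5) : Fin 5 :=
  Fin.ofNat 5 ((opD >>> (8 * (5 * i.1 + x.1))) &&& 255)

noncomputable def labD : ℕ := 27606985387174858584629064321364120810332971752218898028349083470659840

noncomputable def lab (t : Fin 7) (x : Fin 5) : Fin 5 :=
  Fin.ofNat 5 ((labD >>> (8 * (5 * t.1 + x.1))) &&& 255)

noncomputable def clsR : List ℕ :=
  [8606777344, 17230397440, 25853690625, 30065099521, 117834754]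

noncomputable def cls (u v : Fin 5) : Fin 8 :=
  Fin.ofNat 8 ((g1 clsR u.1 >>> (8 * v.1)) &&& 255)

noncomputable def cpA : List ℕ :=
  [0, 0, 0, 1, 1, 2, 2, 3]

noncomputable def cpB : List ℕ :=
  [1, 2, 4, 2, 4, 3, 4, 4]

noncomputable def cp (c : Fin 8) : Fin 5 × Fin 5 :=
  (Fin.ofNat 5 (g1 cpA c.1), Fin.ofNat 5 (g1 cpB c.1))

noncomputable def moveR : List ℕ :=
  [1311777, 1311777, 1082401, 1082632, 1082401]

noncomputable def dec : ℕ → ℕ → List (Fin 2)
  | 0, _ => []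
  | f + 1, p => if p ≤ 1 then [] else Fin.ofNat 2 (p % 8) :: dec f (p / 8)

noncomputable def move (u v : Fin 5) : List (Fin 2) :=
  dec 2 ((g1 moveR u.1 >>> (5 * v.1)) &&& 31)

noncomputable def typN : List ℕ :=
  [1, 5, 6, 5, 6, 2, 4, 3]

noncomputable def typ (c : Fin 8) : Fin 7 := Fin.ofNat 7 (g1 typN c.1)

set_option maxHeartbeats 0 in
noncomputable def pathN : List (List (List (List ℕ))) :=
  [[[], [[]], [], [], []], [[], [[0, 1]], [[]], [[0]], []], [[], [[0, 0, 1]], [[0]], [[0, 0]], [[]]], [[], [[0, 1]], [[], [0, 1]], [[0], [0, 1]], []], [[], [[0, 0, 1]], [[0], [0, 0, 1]], [[0, 0], [0, 0, 1]], [[], [0, 0, 1]]], [[], [[1]], [], [[]], []], [[], [[0, 1]], [], [[0]], [[]]], [[], [[1]], [], [], [[]]]]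

noncomputable def path (c : Fin 8) (a : Fin 5) : List (List (Fin 2)) :=
  ((pathN.getD c.1 []).getD a.1 []).map fun w => w.map (Fin.ofNat 2)

noncomputable def jnN : List (List ℕ) :=
  [[0, 1, 2, 3, 4, 5, 6], [1, 1, 2, 3, 4, 5, 6], [2, 2, 2, 4, 4, 5, 6], [3, 3, 4, 3, 4, 6, 6], [4, 4, 4, 4, 4, 6, 6], [5, 5, 5, 6, 6, 5, 6], [6, 6, 6, 6, 6, 6, 6]]

noncomputable def jn (s t : Fin 7) : Fin 7 := Fin.ofNat 7 (g2 jnN s.1 t.1)

set_option maxHeartbeats 0 in
noncomputable def jpathN : List (List (List (List ℕ))) :=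
  [[[[], [], [], [], []], [[], [0], [], [], []], [[], [0], [], [2], []], [[], [0], [], [], [3]], [[], [0], [], [2], [2]], [[], [0], [0], [0], []], [[], [0], [0], [0], [0]]], [[[], [0], [], [], []], [[], [0], [], [], []], [[], [0], [], [2], []], [[], [0], [], [], [3]], [[], [0], [], [2], [2]], [[], [0], [0], [0], []], [[], [0], [0], [0], [0]]], [[[], [0], [], [2], []], [[], [0], [], [2], []], [[], [0], [], [2], []], [[], [0], [], [2], [3, 2]], [[], [0], [], [2], [2]], [[], [0], [0], [0], []], [[], [0], [0], [0], [0]]], [[[], [0], [], [], [3]], [[], [0], [], [], [3]], [[], [0], [], [2], [3, 2]], [[], [0], [], [], [3]], [[], [0], [], [2], [2]], [[], [0], [0], [0], [3, 0]], [[], [0], [0], [0], [0]]], [[[], [0], [], [2], [2]], [[], [0], [], [2], [2]], [[], [0], [], [2], [2]], [[], [0], [], [2], [2]], [[], [0], [], [2], [2]], [[], [0], [0], [0], [2, 0]], [[], [0], [0], [0], [0]]], [[[], [0], [0], [0], []], [[], [0], [0], [0], []],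 [[], [0], [0], [0], []], [[], [0], [0], [0], [3, 0]], [[], [0], [0], [0], [2, 0]], [[], [0], [0], [0], []], [[], [0], [0], [0], [0]]], [[[], [0], [0], [0], [0]], [[], [0], [0], [0], [0]], [[], [0], [0], [0], [0]], [[], [0], [0], [0], [0]], [[], [0], [0], [0], [0]], [[], [0], [0], [0], [0]], [[], [0], [0], [0], [0]]]]

noncomputable def jpath (s t : Fin 7) (a : Fin 5) : List (Fin 5) :=
  (((jpathN.getD s.1 []).getD t.1 []).getD a.1 []).map (Fin.ofNat 5)

theorem hbot : ∀ a, lab 0 a = a := by decide +kernel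

theorem h0 : ∀ t a, lab t (lab t a) = lab t a := by decide +kernel

theorem h1 : ∀ t i a, lab t (op i (lab t a)) = lab t (op i a) := by decide +kernel

theorem h2 : ∀ s t, mk7 (bitsOf 239) s t = true ↔ ∀ a, lab t (lab s a) = lab t a := by
  decide +kernel

theorem h5 : ∀ s t, mk7 (bitsOf 239) s t = true → mk7 (bitsOf 239) t s = true → s = t := by
  decide +kernel

theorem h3a : ∀ u : Fin 5, ∀ u', u = u' ∨
    Cert.hits op (move u u') u u' (cp (cls u u')).1 (cp (cls u u')).2 = true := by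
  decide +kernel

theorem h3b : ∀ c : Fin 8, ∀ a,
    Cert.walk op (cp c).1 (cp c).2 (path c a) a = lab (typ c) a := by
  decide +kernel

theorem h3c : ∀ u : Fin 5, ∀ u', lab (typ (cls u u')) u = lab (typ (cls u u')) u' := by
  decide +kernel

theorem h4a : ∀ s t, mk7 (bitsOf 239) s (jn s t) = true ∧ mk7 (bitsOf 239) t (jn s t) = true := by
  decide +kernel

theorem h4b : ∀ s : Fin 7, ∀ t a,
    Cert.jwalk lab s t (jpath s t a) a = lab (jn s t) a := by
  decide +kernel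

theorem rep : RepTable 7 (mk7 (bitsOf 239)) :=
  Cert.repTable_of_cert (by decide) _ op lab 0 cls cp move typ path jn jpath
    hbot h0 h1 h2 h5 h3a h3b h3c h4a h4b

end Vale.Agent.P183.Data.L34

namespace Vale.Agent.P183.Data.L39

noncomputable def g1 (l : List ℕ) (i : ℕ) : ℕ := l.getD i 0

noncomputable def g2 (l : List (List ℕ)) (i j : ℕ) : ℕ := (l.getD i []).getD j 0

noncomputable def opD : ℕ := 98656279940190086861669942166712146468806617575578665728

noncomputable def op (i : Fin 3) (x : Fin 8) : Fin 8 :=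
  Fin.ofNat 8 ((opD >>> (8 * (8 * i.1 + x.1))) &&& 255)

noncomputable def labD : ℕ := 1077398606932661541019194128898933615454767523345644292760005631481841122458991889764241250005068568661124196729088

noncomputable def lab (t : Fin 7) (x : Fin 8) : Fin 8 :=
  Fin.ofNat 8 ((labD >>> (8 * (8 * t.1 + x.1))) &&& 255)

noncomputable def clsR : List ℕ :=
  [216735736362237952, 433471485609508864, 649653046753625089, 795448301364641792, 1012478685434938625, 1081145437085761536, 1152922660121084930, 4520152616470019]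

noncomputable def cls (u v : Fin 8) : Fin 17 :=
  Fin.ofNat 17 ((g1 clsR u.1 >>> (8 * v.1)) &&& 255)

noncomputable def cpA : List ℕ :=
  [0, 0, 0, 0, 1, 1, 1, 2, 2, 2, 3, 3, 4, 4, 4, 5, 6]

noncomputable def cpB : List ℕ :=
  [1, 2, 6, 7, 2, 4, 7, 3, 5, 7, 6, 7, 5, 6, 7, 7, 7]

noncomputable def cp (c : Fin 17) : Fin 8 × Fin 8 :=
  (Fin.ofNat 8 (g1 cpA c.1), Fin.ofNat 8 (g1 cpB c.1))

noncomputable def moveR : List ℕ :=
  [72418272657604865, 74600769935966465, 92325201127211265, 72349003290855433, 72340172976947465, 74591972785981768, 72348968935753985, 72340172838076673]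

noncomputable def dec : ℕ → ℕ → List (Fin 3)
  | 0, _ => []
  | f + 1, p => if p ≤ 1 then [] else Fin.ofNat 3 (p % 8) :: dec f (p / 8)

noncomputable def move (u v : Fin 8) : List (Fin 3) :=
  dec 3 ((g1 moveR u.1 >>> (8 * v.1)) &&& 255)

noncomputable def typN : List ℕ :=
  [1, 3, 5, 6, 4, 5, 6, 5, 5, 6, 5, 6, 5, 2, 6, 6, 6]

noncomputable def typ (c : Fin 17) : Fin 7 := Fin.ofNat 7 (g1 typN c.1)

set_option maxHeartbeats 0 in
noncomputable def pathN : List (List (List (List ℕ))) :=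
  [[[], [[]], [], [[0]], [], [[2], []], [], []], [[], [], [[]], [], [[0]], [], [[2]], []], [[], [[0, 1]], [[1]], [[0]], [[1, 0]], [[2], []], [[]], []], [[], [[1, 0, 1]], [[0]], [[1, 0]], [[0, 0]], [[2], [0, 0]], [[1]], [[]]], [[], [], [[]], [], [[0]], [], [[2]], []], [[], [[0, 1]], [[1], [0, 1]], [[0]], [[], [0, 1]], [[0, 2], [0, 1]], [[2], [0, 1]], []], [[], [[2, 0, 1]], [[0, 0, 1]], [[2, 0]], [[0, 0]], [[2, 0, 2], [2, 0, 1]], [[1], [2, 0, 1]], [[], [2, 0, 1]]], [[], [[1], [0, 1]], [[0, 1]], [[], [0, 1]], [[0]], [[0, 2], [2], [1], [0, 1]], [[2], [1], [0, 1]], []], [[], [[0, 1], [1]], [[1]], [[0], [1, 0]], [[1, 0]], [[], [1]], [[2], [], [1]], []], [[], [[2, 0, 1]], [[0, 0, 1]], [[2, 0]], [[0, 0]], [[2, 0, 2], [2, 0, 1]], [[1], [0, 0, 1]], [[], [0, 0, 1]]], [[], [[0, 1]], [[1], [0, 1]], [[0]], [[1, 0], [0]], [[0, 2], [0, 1]], [[], [0]], []], [[], [[2, 0, 1]], [[0]], [[2, 0]], [[0, 0]], [[2, 0, 2], [2, 0, 1]], [[1], [2, 0, 1]],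 [[], [2, 0]]], [[], [[0, 1]], [[1]], [[0]], [[1, 0]], [[], [1, 0]], [[2], [], [1, 0]], []], [[], [[0, 1]], [], [[0]], [], [[0, 2], [0, 1]], [[]], []], [[], [[2, 0, 1]], [[0]], [[2, 0]], [[0, 0]], [[2, 0, 2], [2, 0, 1]], [[1], [0]], [[], [0, 0]]], [[], [[1, 0, 1]], [[1, 1]], [[1, 0]], [[0, 0]], [[2], [0, 0]], [[1]], [[], [2], [0, 0]]], [[], [[2, 0, 1]], [[0, 0, 1]], [[2, 0]], [[0, 0]], [[2, 0, 2], [2, 0, 1]], [[1], [0, 0, 1]], [[], [1], [0, 0, 1]]]]

noncomputable def path (c : Fin 17) (a : Fin 8) : List (List (Fin 3)) :=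
  ((pathN.getD c.1 []).getD a.1 []).map fun w => w.map (Fin.ofNat 3)

noncomputable def jnN : List (List ℕ) :=
  [[0, 1, 2, 3, 4, 5, 6], [1, 1, 2, 5, 5, 5, 6], [2, 2, 2, 5, 5, 5, 6], [3, 5, 5, 3, 5, 5, 6], [4, 5, 5, 5, 4, 5, 6], [5, 5, 5, 5, 5, 5, 6], [6, 6, 6, 6, 6, 6, 6]]

noncomputable def jn (s t : Fin 7) : Fin 7 := Fin.ofNat 7 (g2 jnN s.1 t.1)

set_option maxHeartbeats 0 in
noncomputable def jpathN : List (List (List (List ℕ))) :=
  [[[[], [], [], [], [], [], [], []], [[], [0], [], [0], [], [0], [], []], [[], [0], [], [0], [], [0], [4], []], [[], [], [0], [], [0], [], [5], []], [[], [], [1], [], [3], [], [1], []], [[], [0], [0], [0], [0], [0], [0], []], [[], [0], [0], [0], [0], [0], [0], [0]]], [[[], [0], [], [0], [], [0], [], []], [[], [0], [], [0], [], [0], [], []], [[], [0], [], [0], [], [0], [4], []], [[], [0], [0], [0], [0], [0], [5, 0], []], [[], [0], [1, 0], [0], [3, 0], [0], [1, 0], []], [[], [0], [0], [0], [0],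 [0], [0], []], [[], [0], [0], [0], [0], [0], [0], [0]]], [[[], [0], [], [0], [], [0], [4], []], [[], [0], [], [0], [], [0], [4], []], [[], [0], [], [0], [], [0], [4], []], [[], [0], [0], [0], [0], [0], [4, 0], []], [[], [0], [1, 0], [0], [3, 0], [0], [1, 0], []], [[], [0], [0], [0], [0], [0], [0], []], [[], [0], [0], [0], [0], [0], [0], [0]]], [[[], [], [0], [], [0], [], [5], []], [[], [0], [0], [0], [0], [0], [5, 0], []], [[], [0], [0], [0], [0], [0], [4, 0], []], [[], [], [0], [], [0], [], [5], []], [[], [2, 0], [0], [4, 0], [0], [6, 2, 0], [2, 0], []], [[], [0], [0], [0], [0], [0], [0], []], [[], [0], [0], [0], [0], [0], [0], [0]]], [[[], [], [1], [], [3], [], [1], []], [[], [0], [1, 0], [0], [3, 0], [0], [1, 0], []], [[], [0], [1, 0], [0], [3, 0], [0], [1, 0], []], [[], [2, 0], [0], [4, 0], [0], [6, 2, 0], [2, 0], []], [[], [], [1], [], [3], [], [1], []], [[], [0], [0], [0], [0], [0], [0], []], [[], [0], [0], [0], [0], [0],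 [0], [0]]], [[[], [0], [0], [0], [0], [0], [0], []], [[], [0], [0], [0], [0], [0], [0], []], [[], [0], [0], [0], [0], [0], [0], []], [[], [0], [0], [0], [0], [0], [0], []], [[], [0], [0], [0], [0], [0], [0], []], [[], [0], [0], [0], [0], [0], [0], []], [[], [0], [0], [0], [0], [0], [0], [0]]], [[[], [0], [0], [0], [0], [0], [0], [0]], [[], [0], [0], [0], [0], [0], [0], [0]], [[], [0], [0], [0], [0], [0], [0], [0]], [[], [0], [0], [0], [0], [0], [0], [0]], [[], [0], [0], [0], [0], [0], [0], [0]], [[], [0], [0], [0], [0], [0], [0], [0]], [[], [0], [0], [0], [0], [0], [0], [0]]]]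

noncomputable def jpath (s t : Fin 7) (a : Fin 8) : List (Fin 8) :=
  (((jpathN.getD s.1 []).getD t.1 []).getD a.1 []).map (Fin.ofNat 8)

theorem hbot : ∀ a, lab 0 a = a := by decide +kernel

theorem h0 : ∀ t a, lab t (lab t a) = lab t a := by decide +kernel

theorem h1 : ∀ t i a, lab t (op i (lab t a)) = lab t (op i a) := by decide +kernel

theorem h2 : ∀ s t, mk7 (bitsOf 841) s t = true ↔ ∀ a, lab t (lab s a) = lab t a := by
  decide +kernel

theorem h5 : ∀ s t, mk7 (bitsOf 841) s t = true → mk7 (bitsOf 841) t s = true → s = t := by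
  decide +kernel

theorem h3a : ∀ u : Fin 8, ∀ u', u = u' ∨
    Cert.hits op (move u u') u u' (cp (cls u u')).1 (cp (cls u u')).2 = true := by
  decide +kernel

theorem h3b : ∀ c : Fin 17, ∀ a,
    Cert.walk op (cp c).1 (cp c).2 (path c a) a = lab (typ c) a := by
  decide +kernel

theorem h3c : ∀ u : Fin 8, ∀ u', lab (typ (cls u u')) u = lab (typ (cls u u')) u' := by
  decide +kernel

theorem h4a : ∀ s t, mk7 (bitsOf 841) s (jn s t) = true ∧ mk7 (bitsOf 841) t (jn s t) = true := by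
  decide +kernel

theorem h4b : ∀ s : Fin 7, ∀ t a,
    Cert.jwalk lab s t (jpath s t a) a = lab (jn s t) a := by
  decide +kernel

theorem rep : RepTable 7 (mk7 (bitsOf 841)) :=
  Cert.repTable_of_cert (by decide) _ op lab 0 cls cp move typ path jn jpath
    hbot h0 h1 h2 h5 h3a h3b h3c h4a h4b

end Vale.Agent.P183.Data.L39

namespace Vale.Agent.P183.Data.L40

noncomputable def g1 (l : List ℕ) (i : ℕ) : ℕ := l.getD i 0

noncomputable def g2 (l : List (List ℕ)) (i j : ℕ) : ℕ := (l.getD i []).getD j 0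

noncomputable def opD : ℕ := 19333670273672871259017713081921379617148330409755190667510530

noncomputable def op (i : Fin 2) (x : Fin 13) : Fin 13 :=
  Fin.ofNat 13 ((opD >>> (8 * (13 * i.1 + x.1))) &&& 255)

noncomputable def labD : ℕ := 3263311827866217054348829941058528559211584179004935908310683187391227589110629232635165841273878707473204578160524868453536637446950424408106260983923799520778727652752692205448119582976

noncomputable def lab (t : Fin 7) (x : Fin 13) : Fin 13 :=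
  Fin.ofNat 13 ((labD >>> (8 * (13 * t.1 + x.1))) &&& 255)

noncomputable def clsR : List ℕ :=
  [715530584745108783179589812224, 716150782598916398251604705280, 715223512901308992301312247809, 716462690219565166381297043970, 714916436261355742263014131459, 716774588377034214764066245380, 714295038908302981117824402949, 716466307588389928792110664710, 713673641574418093045367243779, 716157984133870557064883211015, 713053500426262899574574350849, 713053509889731127840185190920, 2796288088738741326830962953]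

noncomputable def cls (u v : Fin 13) : Fin 13 :=
  Fin.ofNat 13 ((g1 clsR u.1 >>> (8 * v.1)) &&& 255)

noncomputable def cpA : List ℕ :=
  [0, 0, 0, 0, 0, 0, 0, 0, 0, 0, 1, 1, 1]

noncomputable def cpB : List ℕ :=
  [1, 2, 3, 4, 5, 6, 7, 9, 11, 12, 3, 5, 7]

noncomputable def cp (c : Fin 13) : Fin 13 × Fin 13 :=
  (Fin.ofNat 13 (g1 cpA c.1), Fin.ofNat 13 (g1 cpB c.1))

noncomputable def moveR : List ℕ :=
  [25711204879545708079016748663733435814758997507611552586530817, 13189749036565199380488024422007844933557878179080984316734472193, 105524407490411720180127335112249720874875245068362211819710840833, 105543692316217888496435691570446012235495046959289867169542832129, 13190550936311941066608419826037934871919907055058653300037517313, 105517981307509790689328577044597928209759996282165671421540433921, 13164136892963668140616070416559854948471215388073892139944116225, 13189847900917536835965785493851474325618485774255534969563774977,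 1645517111620458517571520728058876487625189727632234990886977600, 13189760021493235587846524350453308575061622685023037735286341633, 205689638942081270965616476155838363702251733393131621506351112, 13189747663449194764651607672546661530197654567222874275685859329, 25811638507317740977787785191135730709353001689329169292460033]

noncomputable def dec : ℕ → ℕ → List (Fin 2)
  | 0, _ => []
  | f + 1, p => if p ≤ 1 then [] else Fin.ofNat 2 (p % 8) :: dec f (p / 8)

noncomputable def move (u v : Fin 13) : List (Fin 2) :=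
  dec 6 ((g1 moveR u.1 >>> (17 * v.1)) &&& 131071)

noncomputable def typN : List ℕ :=
  [1, 5, 4, 2, 2, 3, 3, 2, 5, 6, 5, 2, 3]

noncomputable def typ (c : Fin 13) : Fin 7 := Fin.ofNat 7 (g1 typN c.1)

set_option maxHeartbeats 0 in
noncomputable def pathN : List (List (List (List ℕ))) :=
  [[[], [[]], [], [[0]], [], [[0, 0]], [], [[0, 0, 0]], [], [[1]], [], [[1, 0]], []], [[], [[0, 1, 0, 0]], [[]], [[0, 1, 0, 0, 0], []], [[0], []], [[0, 1, 0, 0, 0, 0], [0], []], [[0, 0], [0], []], [[0, 1, 0, 0, 0, 0, 0], [0, 0], [0], []], [[0, 0, 0, 0], [0, 0, 0, 0, 0]], [[0, 1], [0, 0, 0, 0], [0, 0, 0, 0, 0]], [[0, 0, 0, 0, 0]], [[0, 1, 0], [0, 0, 0, 0, 0]], []], [[], [], [], [[]], [], [[0]], [], [[0, 0]], [], [[0, 0, 0]], [[0, 0, 0, 0, 0]], [[0, 0, 0, 0]], []], [[], [[1, 0, 0]], [], [[1, 0, 0, 0]], [[]], [[1, 0, 0, 0, 0], []], [[0]], [[1, 0, 0, 0, 0, 0], [0]], [[0, 0, 0, 0]], [[1], [0, 0, 0, 0]], [[0, 0, 0, 0, 0]], [[1, 0], [0, 0, 0, 0, 0]],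 []], [[], [[0, 1, 0, 0]], [], [[0, 1, 0, 0, 0]], [[0, 1, 0, 0, 0, 0], []], [[]], [[0, 1, 0, 0, 0, 0, 0], [0]], [[0]], [[0, 0, 0, 0], [0, 1, 0, 0]], [[0, 0], [0, 1, 0, 0, 0, 0], []], [[0, 0, 0, 0, 0], [0, 1, 0, 0, 0]], [[0, 0, 0], [0, 1, 0, 0, 0, 0, 0], [0]], []], [[], [[1, 0, 0]], [], [[1, 0, 0, 0]], [], [[1, 0, 0, 0, 0]], [[]], [[1, 0, 0, 0, 0, 0], []], [[0]], [[1], [0]], [[0, 0]], [[1, 0], [0, 0]], []], [[], [[1, 0, 0]], [], [[1, 0, 0, 0]], [], [[1, 0, 0, 0, 0]], [[0, 0, 0], [1, 0, 0]], [[]], [[1], [0]], [[0]], [[1, 0], [0, 0]], [[0, 0]], []], [[], [[1, 0, 0]], [], [[1, 0, 0, 0]], [[0, 0], [1, 0, 0]], [[0, 0, 0, 0], [1], []], [[0, 0, 0], [1, 0, 0, 0]], [[0, 0, 0, 0, 0], [1, 0], [0]], [[1], []], [[]], [[1, 0], [0]], [[0]], []], [[], [[1, 0, 0]], [[0], [1, 0, 0]], [[1, 0, 0, 0], [0], [1, 0, 0]], [[0, 0], [1, 0, 0, 0], [0], [1, 0, 0]], [[1, 0, 0, 0, 0], [0, 0], [1, 0, 0, 0], [0], [1, 0, 0]], [[0, 0, 0], [1, 0, 0, 0, 0], [0, 0],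 [1, 0, 0, 0], [0], [1, 0, 0]], [[0, 0, 0, 0], [1], [0, 0, 0, 0, 0], [1, 0], []], [[1], [0, 0, 0, 0, 0], [1, 0], []], [[0, 0, 0, 0, 0], [1, 0], []], [[1, 0], []], [[]], []], [[], [[1, 0, 0], []], [[0], []], [[1, 0, 0, 0], []], [[0, 0], []], [[1, 0, 0, 0, 0], []], [[0, 0, 0], []], [[1, 0, 0, 0, 0, 0], []], [[1, 1], []], [[1], []], [[1, 1, 0], []], [[1, 0], []], [[]]], [[], [[1, 0, 0]], [[1, 0, 0, 0], [], [1, 0, 0]], [[], [1, 0, 0]], [[1, 0, 0, 0, 0], [0], [], [1, 0, 0]], [[0], [], [1, 0, 0]], [[1, 0, 0, 0, 0, 0], [0, 0], [0], [], [1, 0, 0]], [[0, 0], [0], [], [1, 0, 0]], [[1], [0, 0, 0, 0], [0, 0, 0, 0, 0], [1, 0, 0]], [[0, 0, 0, 0], [0, 0, 0, 0, 0], [1, 0, 0]], [[1, 0], [0, 0, 0, 0, 0], [1, 0, 0]], [[0, 0, 0, 0, 0], [1, 0, 0]], []], [[], [[1, 0, 0]], [], [[1, 0, 0, 0]], [[1, 0, 0, 0, 0], [], [1, 0, 0]], [[], [1, 0, 0]], [[1, 0, 0, 0, 0, 0], [0], [1, 0, 0, 0]], [[0], [1, 0, 0, 0]], [[1], [0, 0, 0, 0], [1, 0, 0]], [[0, 0, 0, 0],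 [1, 0, 0]], [[1, 0], [0, 0, 0, 0, 0], [1, 0, 0, 0]], [[0, 0, 0, 0, 0], [1, 0, 0, 0]], []], [[], [[0, 1, 0, 0]], [], [[0, 1, 0, 0, 0]], [], [[0, 1, 0, 0, 0, 0]], [[0, 1, 0, 0, 0, 0, 0], [], [0, 1, 0, 0]], [[], [0, 1, 0, 0]], [[0, 1], [0], [0, 1, 0, 0, 0]], [[0], [0, 1, 0, 0, 0]], [[0, 1, 0], [0, 0], [0, 1, 0, 0, 0, 0]], [[0, 0], [0, 1, 0, 0, 0, 0]], []]]

noncomputable def path (c : Fin 13) (a : Fin 13) : List (List (Fin 2)) :=
  ((pathN.getD c.1 []).getD a.1 []).map fun w => w.map (Fin.ofNat 2)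

noncomputable def jnN : List (List ℕ) :=
  [[0, 1, 2, 3, 4, 5, 6], [1, 1, 2, 3, 5, 5, 6], [2, 2, 2, 5, 5, 5, 6], [3, 3, 5, 3, 5, 5, 6], [4, 5, 5, 5, 4, 5, 6], [5, 5, 5, 5, 5, 5, 6], [6, 6, 6, 6, 6, 6, 6]]

noncomputable def jn (s t : Fin 7) : Fin 7 := Fin.ofNat 7 (g2 jnN s.1 t.1)

set_option maxHeartbeats 0 in
noncomputable def jpathN : List (List (List (List ℕ))) :=
  [[[[], [], [], [], [], [], [], [], [], [], [], [], []], [[], [0], [], [2], [], [4], [], [6], [], [8], [], [10], []], [[], [0], [], [2], [0], [0], [2], [2], [0], [0], [2], [2], []], [[], [0], [], [2], [], [4], [0], [0], [2], [2], [4], [4], []], [[], [], [], [0], [], [2], [], [4], [], [6], [1], [8], []], [[], [0], [0], [0], [0], [0], [0], [0], [0], [0], [0], [0], []], [[], [0], [0], [0], [0], [0], [0], [0], [0], [0], [0], [0], [0]]], [[[], [0], [], [2], [], [4], [], [6], [], [8], [], [10], []], [[], [0], [], [2], [], [4], [], [6], [], [8], [], [10], []], [[], [0],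 [], [2], [0], [0], [2], [2], [0], [0], [2], [2], []], [[], [0], [], [2], [], [4], [0], [0], [2], [2], [4], [4], []], [[], [0], [3, 0], [0], [5, 2, 3, 0], [2, 3, 0], [7, 4, 5, 2, 3, 0], [4, 5, 2, 3, 0], [11, 10, 1, 0], [8, 11, 10, 1, 0], [1, 0], [10, 1, 0], []], [[], [0], [0], [0], [0], [0], [0], [0], [0], [0], [0], [0], []], [[], [0], [0], [0], [0], [0], [0], [0], [0], [0], [0], [0], [0]]], [[[], [0], [], [2], [0], [0], [2], [2], [0], [0], [2], [2], []], [[], [0], [], [2], [0], [0], [2], [2], [0], [0], [2], [2], []], [[], [0], [], [2], [0], [0], [2], [2], [0], [0], [2], [2], []], [[], [0], [6, 0], [6, 0], [0], [0], [0], [0], [0], [0], [4, 0], [4, 0], []], [[], [0], [3, 0], [0], [0], [0], [3, 0], [3, 0], [0], [0], [1, 0], [3, 0], []], [[], [0], [0], [0], [0], [0], [0], [0], [0], [0], [0], [0], []], [[], [0], [0], [0], [0], [0], [0], [0], [0], [0], [0], [0], [0]]], [[[], [0], [], [2], [], [4], [0], [0], [2], [2], [4], [4], []],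 [[], [0], [], [2], [], [4], [0], [0], [2], [2], [4], [4], []], [[], [0], [6, 0], [6, 0], [0], [0], [0], [0], [0], [0], [4, 0], [4, 0], []], [[], [0], [], [2], [], [4], [0], [0], [2], [2], [4], [4], []], [[], [0], [3, 0], [0], [7, 0], [2, 3, 0], [0], [0], [3, 0], [3, 0], [1, 0], [4, 7, 0], []], [[], [0], [0], [0], [0], [0], [0], [0], [0], [0], [0], [0], []], [[], [0], [0], [0], [0], [0], [0], [0], [0], [0], [0], [0], [0]]], [[[], [], [], [0], [], [2], [], [4], [], [6], [1], [8], []], [[], [0], [3, 0], [0], [5, 2, 3, 0], [2, 3, 0], [7, 4, 5, 2, 3, 0], [4, 5, 2, 3, 0], [11, 10, 1, 0], [8, 11, 10, 1, 0], [1, 0], [10, 1, 0], []], [[], [0], [3, 0], [0], [0], [0], [3, 0], [3, 0], [0], [0], [1, 0], [3, 0], []], [[], [0], [3, 0], [0], [7, 0], [2, 3, 0], [0], [0], [3, 0], [3, 0], [1, 0], [4, 7, 0], []], [[], [], [], [0], [], [2], [], [4], [], [6], [1], [8], []], [[], [0], [0], [0], [0], [0], [0], [0], [0], [0], [0], [0], []], [[], [0],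 [0], [0], [0], [0], [0], [0], [0], [0], [0], [0], [0]]], [[[], [0], [0], [0], [0], [0], [0], [0], [0], [0], [0], [0], []], [[], [0], [0], [0], [0], [0], [0], [0], [0], [0], [0], [0], []], [[], [0], [0], [0], [0], [0], [0], [0], [0], [0], [0], [0], []], [[], [0], [0], [0], [0], [0], [0], [0], [0], [0], [0], [0], []], [[], [0], [0], [0], [0], [0], [0], [0], [0], [0], [0], [0], []], [[], [0], [0], [0], [0], [0], [0], [0], [0], [0], [0], [0], []], [[], [0], [0], [0], [0], [0], [0], [0], [0], [0], [0], [0], [0]]], [[[], [0], [0], [0], [0], [0], [0], [0], [0], [0], [0], [0], [0]], [[], [0], [0], [0], [0], [0], [0], [0], [0], [0], [0], [0], [0]], [[], [0], [0], [0], [0], [0], [0], [0], [0], [0], [0], [0], [0]], [[], [0], [0], [0], [0], [0], [0], [0], [0], [0], [0], [0], [0]], [[], [0], [0], [0], [0], [0], [0], [0], [0], [0], [0], [0], [0]], [[], [0], [0], [0], [0], [0], [0], [0], [0], [0], [0], [0], [0]], [[], [0], [0], [0], [0], [0],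 [0], [0], [0], [0], [0], [0], [0]]]]

noncomputable def jpath (s t : Fin 7) (a : Fin 13) : List (Fin 13) :=
  (((jpathN.getD s.1 []).getD t.1 []).getD a.1 []).map (Fin.ofNat 13)

theorem hbot : ∀ a, lab 0 a = a := by decide +kernel

theorem h0 : ∀ t a, lab t (lab t a) = lab t a := by decide +kernel

theorem h1 : ∀ t i a, lab t (op i (lab t a)) = lab t (op i a) := by decide +kernel

theorem h2 : ∀ s t, mk7 (bitsOf 843) s t = true ↔ ∀ a, lab t (lab s a) = lab t a := by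
  decide +kernel

theorem h5 : ∀ s t, mk7 (bitsOf 843) s t = true → mk7 (bitsOf 843) t s = true → s = t := by
  decide +kernel

theorem h3a : ∀ u : Fin 13, ∀ u', u = u' ∨
    Cert.hits op (move u u') u u' (cp (cls u u')).1 (cp (cls u u')).2 = true := by
  decide +kernel

theorem h3b : ∀ c : Fin 13, ∀ a,
    Cert.walk op (cp c).1 (cp c).2 (path c a) a = lab (typ c) a := by
  decide +kernel

theorem h3c : ∀ u : Fin 13, ∀ u', lab (typ (cls u u')) u = lab (typ (cls u u')) u' := by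
  decide +kernel

theorem h4a : ∀ s t, mk7 (bitsOf 843) s (jn s t) = true ∧ mk7 (bitsOf 843) t (jn s t) = true := by
  decide +kernel

theorem h4b : ∀ s : Fin 7, ∀ t a,
    Cert.jwalk lab s t (jpath s t a) a = lab (jn s t) a := by
  decide +kernel

theorem rep : RepTable 7 (mk7 (bitsOf 843)) :=
  Cert.repTable_of_cert (by decide) _ op lab 0 cls cp move typ path jn jpath
    hbot h0 h1 h2 h5 h3a h3b h3c h4a h4b

end Vale.Agent.P183.Data.L40

namespace Vale.Agent.P183.Data.L41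

noncomputable def g1 (l : List ℕ) (i : ℕ) : ℕ := l.getD i 0

noncomputable def g2 (l : List (List ℕ)) (i j : ℕ) : ℕ := (l.getD i []).getD j 0

noncomputable def opD : ℕ := 4722654994720790610176

noncomputable def op (i : Fin 2) (x : Fin 5) : Fin 5 :=
  Fin.ofNat 5 ((opD >>> (8 * (5 * i.1 + x.1))) &&& 255)

noncomputable def labD : ℕ := 210624602242170927460116324643392809678206452256426402383074033920

noncomputable def lab (t : Fin 7) (x : Fin 5) : Fin 5 :=
  Fin.ofNat 5 ((labD >>> (8 * (5 * t.1 + x.1))) &&& 255)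

noncomputable def clsR : List ℕ :=
  [12918521856, 25853952000, 34477179905, 38655165698, 151520771]

noncomputable def cls (u v : Fin 5) : Fin 10 :=
  Fin.ofNat 10 ((g1 clsR u.1 >>> (8 * v.1)) &&& 255)

noncomputable def cpA : List ℕ :=
  [0, 0, 0, 0, 1, 1, 1, 2, 2, 3]

noncomputable def cpB : List ℕ :=
  [1, 2, 3, 4, 2, 3, 4, 3, 4, 4]

noncomputable def cp (c : Fin 10) : Fin 5 × Fin 5 :=
  (Fin.ofNat 5 (g1 cpA c.1), Fin.ofNat 5 (g1 cpB c.1))

noncomputable def moveR : List ℕ :=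
  [341, 341, 341, 341, 341]

noncomputable def dec : ℕ → ℕ → List (Fin 2)
  | 0, _ => []
  | f + 1, p => if p ≤ 1 then [] else Fin.ofNat 2 (p % 8) :: dec f (p / 8)

noncomputable def move (u v : Fin 5) : List (Fin 2) :=
  dec 1 ((g1 moveR u.1 >>> (2 * v.1)) &&& 3)

noncomputable def typN : List ℕ :=
  [1, 6, 2, 3, 6, 2, 3, 6, 6, 4]

noncomputable def typ (c : Fin 10) : Fin 7 := Fin.ofNat 7 (g1 typN c.1)

set_option maxHeartbeats 0 in
noncomputable def pathN : List (List (List (List ℕ))) :=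
  [[[], [[]], [], [], []], [[], [[0, 0]], [[]], [[0]], [[1]]], [[], [[0]], [], [[]], []], [[], [[1]], [], [], [[]]], [[], [[0, 1]], [[], [0, 1]], [[0], [0, 1]], [[1], [0, 1]]], [[], [[1]], [], [[], [1]], []], [[], [[0]], [], [], [[], [0]]], [[], [[0, 1]], [[], [0], [0, 1]], [[0], [0, 1]], [[1]]], [[], [[0, 0]], [[], [1], [0, 0]], [[0]], [[1], [0, 0]]], [[], [[0]], [], [], [[]]]]

noncomputable def path (c : Fin 10) (a : Fin 5) : List (List (Fin 2)) :=
  ((pathN.getD c.1 []).getD a.1 []).map fun w => w.map (Fin.ofNat 2)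

noncomputable def jnN : List (List ℕ) :=
  [[0, 1, 2, 3, 4, 5, 6], [1, 1, 2, 3, 4, 5, 6], [2, 2, 2, 5, 5, 5, 6], [3, 3, 5, 3, 5, 5, 6], [4, 4, 5, 5, 4, 5, 6], [5, 5, 5, 5, 5, 5, 6], [6, 6, 6, 6, 6, 6, 6]]

noncomputable def jn (s t : Fin 7) : Fin 7 := Fin.ofNat 7 (g2 jnN s.1 t.1)

set_option maxHeartbeats 0 in
noncomputable def jpathN : List (List (List (List ℕ))) :=
  [[[[], [], [], [], []], [[], [0], [], [], []], [[], [0], [], [0], []], [[], [0], [], [], [0]], [[], [0], [], [], [3]], [[], [0], [], [0], [0]], [[], [0], [0], [0], [0]]], [[[], [0], [], [], []], [[], [0], [], [], []], [[], [0], [], [0], []], [[], [0], [], [], [0]], [[], [0], [], [], [3]], [[], [0], [], [0], [0]], [[], [0], [0], [0], [0]]], [[[], [0], [], [0], []], [[], [0], [], [0], []], [[], [0], [], [0], []], [[], [0], [], [0], [0]], [[], [0], [], [0], [3, 0]], [[], [0], [], [0], [0]], [[], [0], [0], [0], [0]]], [[[], [0], [], [], [0]], [[], [0], [], [], [0]],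 [[], [0], [], [0], [0]], [[], [0], [], [], [0]], [[], [0], [], [4, 0], [0]], [[], [0], [], [0], [0]], [[], [0], [0], [0], [0]]], [[[], [0], [], [], [3]], [[], [0], [], [], [3]], [[], [0], [], [0], [3, 0]], [[], [0], [], [4, 0], [0]], [[], [0], [], [], [3]], [[], [0], [], [0], [0]], [[], [0], [0], [0], [0]]], [[[], [0], [], [0], [0]], [[], [0], [], [0], [0]], [[], [0], [], [0], [0]], [[], [0], [], [0], [0]], [[], [0], [], [0], [0]], [[], [0], [], [0], [0]], [[], [0], [0], [0], [0]]], [[[], [0], [0], [0], [0]], [[], [0], [0], [0], [0]], [[], [0], [0], [0], [0]], [[], [0], [0], [0], [0]], [[], [0], [0], [0], [0]], [[], [0], [0], [0], [0]], [[], [0], [0], [0], [0]]]]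

noncomputable def jpath (s t : Fin 7) (a : Fin 5) : List (Fin 5) :=
  (((jpathN.getD s.1 []).getD t.1 []).getD a.1 []).map (Fin.ofNat 5)

theorem hbot : ∀ a, lab 0 a = a := by decide +kernel

theorem h0 : ∀ t a, lab t (lab t a) = lab t a := by decide +kernel

theorem h1 : ∀ t i a, lab t (op i (lab t a)) = lab t (op i a) := by decide +kernel

theorem h2 : ∀ s t, mk7 (bitsOf 847) s t = true ↔ ∀ a, lab t (lab s a) = lab t a := by
  decide +kernel

theorem h5 : ∀ s t, mk7 (bitsOf 847) s t = true → mk7 (bitsOf 847) t s = true → s = t := by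
  decide +kernel

theorem h3a : ∀ u : Fin 5, ∀ u', u = u' ∨
    Cert.hits op (move u u') u u' (cp (cls u u')).1 (cp (cls u u')).2 = true := by
  decide +kernel

theorem h3b : ∀ c : Fin 10, ∀ a,
    Cert.walk op (cp c).1 (cp c).2 (path c a) a = lab (typ c) a := by
  decide +kernel

theorem h3c : ∀ u : Fin 5, ∀ u', lab (typ (cls u u')) u = lab (typ (cls u u')) u' := by
  decide +kernel

theorem h4a : ∀ s t, mk7 (bitsOf 847) s (jn s t) = true ∧ mk7 (bitsOf 847) t (jn s t) = true := by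
  decide +kernel

theorem h4b : ∀ s : Fin 7, ∀ t a,
    Cert.jwalk lab s t (jpath s t a) a = lab (jn s t) a := by
  decide +kernel

theorem rep : RepTable 7 (mk7 (bitsOf 847)) :=
  Cert.repTable_of_cert (by decide) _ op lab 0 cls cp move typ path jn jpath
    hbot h0 h1 h2 h5 h3a h3b h3c h4a h4b

end Vale.Agent.P183.Data.L41

namespace Vale.Agent.P183.Data.L42

noncomputable def g1 (l : List ℕ) (i : ℕ) : ℕ := l.getD i 0

noncomputable def g2 (l : List (List ℕ)) (i j : ℕ) : ℕ := (l.getD i []).getD j 0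

noncomputable def opD : ℕ := 4759477271906714976768

noncomputable def op (i : Fin 2) (x : Fin 5) : Fin 5 :=
  Fin.ofNat 5 ((opD >>> (8 * (5 * i.1 + x.1))) &&& 255)

noncomputable def labD : ℕ := 6928812017144427275864874416132323836662964786677880290692884580139264

noncomputable def lab (t : Fin 7) (x : Fin 5) : Fin 5 :=
  Fin.ofNat 5 ((labD >>> (8 * (5 * t.1 + x.1))) &&& 255)

noncomputable def clsR : List ℕ :=
  [0, 12918521856, 8657043712, 4295229952, 16909056]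

noncomputable def cls (u v : Fin 5) : Fin 5 :=
  Fin.ofNat 5 ((g1 clsR u.1 >>> (8 * v.1)) &&& 255)

noncomputable def cpA : List ℕ :=
  [0, 1, 1, 1, 2]

noncomputable def cpB : List ℕ :=
  [1, 2, 3, 4, 3]

noncomputable def cp (c : Fin 5) : Fin 5 × Fin 5 :=
  (Fin.ofNat 5 (g1 cpA c.1), Fin.ofNat 5 (g1 cpB c.1))

noncomputable def moveR : List ℕ :=
  [275012649217, 4311810305, 38671548680, 34376581384, 4429775168]

noncomputable def dec : ℕ → ℕ → List (Fin 2)
  | 0, _ => []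
  | f + 1, p => if p ≤ 1 then [] else Fin.ofNat 2 (p % 8) :: dec f (p / 8)

noncomputable def move (u v : Fin 5) : List (Fin 2) :=
  dec 3 ((g1 moveR u.1 >>> (8 * v.1)) &&& 255)

noncomputable def typN : List ℕ :=
  [6, 4, 5, 2, 1]

noncomputable def typ (c : Fin 5) : Fin 7 := Fin.ofNat 7 (g1 typN c.1)

set_option maxHeartbeats 0 in
noncomputable def pathN : List (List (List (List ℕ))) :=
  [[[], [[]], [[0]], [[0, 1], [0]], [[1], [0]]], [[], [], [[]], [], [[1]]], [[], [], [[0]], [[]], [[1], [0]]], [[], [], [], [], [[]]], [[], [], [], [[]], []]]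

noncomputable def path (c : Fin 5) (a : Fin 5) : List (List (Fin 2)) :=
  ((pathN.getD c.1 []).getD a.1 []).map fun w => w.map (Fin.ofNat 2)

noncomputable def jnN : List (List ℕ) :=
  [[0, 1, 2, 3, 4, 5, 6], [1, 1, 3, 3, 5, 5, 6], [2, 3, 2, 3, 5, 5, 6], [3, 3, 3, 3, 5, 5, 6], [4, 5, 5, 5, 4, 5, 6], [5, 5, 5, 5, 5, 5, 6], [6, 6, 6, 6, 6, 6, 6]]

noncomputable def jn (s t : Fin 7) : Fin 7 := Fin.ofNat 7 (g2 jnN s.1 t.1)

set_option maxHeartbeats 0 in
noncomputable def jpathN : List (List (List (List ℕ))) :=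
  [[[[], [], [], [], []], [[], [], [], [2], []], [[], [], [], [], [1]], [[], [], [], [2], [1]], [[], [], [1], [], [3]], [[], [], [1], [1], [1]], [[], [0], [0], [0], [0]]], [[[], [], [], [2], []], [[], [], [], [2], []], [[], [], [], [2], [1]], [[], [], [], [2], [1]], [[], [], [1], [2, 1], [3, 2, 1]], [[], [], [1], [1], [1]], [[], [0], [0], [0], [0]]], [[[], [], [], [], [1]], [[], [], [], [2], [1]], [[], [], [], [], [1]], [[], [], [], [2], [1]], [[], [], [1], [4, 1], [1]], [[], [], [1], [1], [1]], [[], [0], [0], [0], [0]]], [[[], [], [], [2], [1]], [[], [], [], [2], [1]], [[], [], [], [2], [1]], [[], [], [], [2], [1]], [[], [], [1], [2, 1], [1]], [[], [], [1], [1], [1]], [[], [0], [0], [0], [0]]], [[[], [], [1], [], [3]], [[], [], [1], [2, 1], [3, 2, 1]], [[], [], [1], [4, 1], [1]], [[], [], [1], [2, 1], [1]], [[], [], [1], [], [3]], [[], [], [1], [1], [1]], [[], [0], [0], [0], [0]]], [[[], [], [1], [1], [1]], [[], [], [1], [1],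 [1]], [[], [], [1], [1], [1]], [[], [], [1], [1], [1]], [[], [], [1], [1], [1]], [[], [], [1], [1], [1]], [[], [0], [0], [0], [0]]], [[[], [0], [0], [0], [0]], [[], [0], [0], [0], [0]], [[], [0], [0], [0], [0]], [[], [0], [0], [0], [0]], [[], [0], [0], [0], [0]], [[], [0], [0], [0], [0]], [[], [0], [0], [0], [0]]]]

noncomputable def jpath (s t : Fin 7) (a : Fin 5) : List (Fin 5) :=
  (((jpathN.getD s.1 []).getD t.1 []).getD a.1 []).map (Fin.ofNat 5)

theorem hbot : ∀ a, lab 0 a = a := by decide +kernel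

theorem h0 : ∀ t a, lab t (lab t a) = lab t a := by decide +kernel

theorem h1 : ∀ t i a, lab t (op i (lab t a)) = lab t (op i a) := by decide +kernel

theorem h2 : ∀ s t, mk7 (bitsOf 858) s t = true ↔ ∀ a, lab t (lab s a) = lab t a := by
  decide +kernel

theorem h5 : ∀ s t, mk7 (bitsOf 858) s t = true → mk7 (bitsOf 858) t s = true → s = t := by
  decide +kernel

theorem h3a : ∀ u : Fin 5, ∀ u', u = u' ∨
    Cert.hits op (move u u') u u' (cp (cls u u')).1 (cp (cls u u')).2 = true := by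
  decide +kernel

theorem h3b : ∀ c : Fin 5, ∀ a,
    Cert.walk op (cp c).1 (cp c).2 (path c a) a = lab (typ c) a := by
  decide +kernel

theorem h3c : ∀ u : Fin 5, ∀ u', lab (typ (cls u u')) u = lab (typ (cls u u')) u' := by
  decide +kernel

theorem h4a : ∀ s t, mk7 (bitsOf 858) s (jn s t) = true ∧ mk7 (bitsOf 858) t (jn s t) = true := by
  decide +kernel

theorem h4b : ∀ s : Fin 7, ∀ t a,
    Cert.jwalk lab s t (jpath s t a) a = lab (jn s t) a := by
  decide +kernel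

theorem rep : RepTable 7 (mk7 (bitsOf 858)) :=
  Cert.repTable_of_cert (by decide) _ op lab 0 cls cp move typ path jn jpath
    hbot h0 h1 h2 h5 h3a h3b h3c h4a h4b

end Vale.Agent.P183.Data.L42

namespace Vale.Agent.P183.Data.L44

noncomputable def g1 (l : List ℕ) (i : ℕ) : ℕ := l.getD i 0

noncomputable def g2 (l : List (List ℕ)) (i j : ℕ) : ℕ := (l.getD i []).getD j 0

noncomputable def opD : ℕ := 98367816071671259387596354522001566911634854929879794948

noncomputable def op (i : Fin 3) (x : Fin 8) : Fin 8 :=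
  Fin.ofNat 8 ((opD >>> (8 * (8 * i.1 + x.1))) &&& 255)

noncomputable def labD : ℕ := 153916435283085170968815363542715553286604516804281223924348216490796051014105723411539819957049496480723629113600

noncomputable def lab (t : Fin 7) (x : Fin 8) : Fin 8 :=
  Fin.ofNat 8 ((labD >>> (8 * (8 * t.1 + x.1))) &&& 255)

noncomputable def clsR : List ℕ :=
  [844433520132096, 432351061852815360, 562975723225089, 144121785145623552, 1970324837367810, 288230376252376320, 30064902147, 4398080067072]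

noncomputable def cls (u v : Fin 8) : Fin 8 :=
  Fin.ofNat 8 ((g1 clsR u.1 >>> (8 * v.1)) &&& 255)

noncomputable def cpA : List ℕ :=
  [0, 0, 0, 0, 1, 1, 1, 4]

noncomputable def cpB : List ℕ :=
  [1, 2, 4, 6, 3, 5, 7, 6]

noncomputable def cp (c : Fin 8) : Fin 8 × Fin 8 :=
  (Fin.ofNat 8 (g1 cpA c.1), Fin.ofNat 8 (g1 cpB c.1))

noncomputable def moveR : List ℕ :=
  [78731386560404334267336705, 155838139129035015325697, 78731884587587510304000001, 9827318735223940471327241, 78731368077631463808321537, 1213722009243396918479369, 78731370131268976639082497, 189559039497904964241929]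

noncomputable def dec : ℕ → ℕ → List (Fin 3)
  | 0, _ => []
  | f + 1, p => if p ≤ 1 then [] else Fin.ofNat 3 (p % 8) :: dec f (p / 8)

noncomputable def move (u v : Fin 8) : List (Fin 3) :=
  dec 4 ((g1 moveR u.1 >>> (11 * v.1)) &&& 2047)

noncomputable def typN : List ℕ :=
  [6, 5, 1, 3, 5, 4, 2, 5]

noncomputable def typ (c : Fin 8) : Fin 7 := Fin.ofNat 7 (g1 typN c.1)

set_option maxHeartbeats 0 in
noncomputable def pathN : List (List (List (List ℕ))) :=
  [[[], [[]], [[2], [0, 2, 0]], [[0, 2, 0]], [[0], [0, 2, 1, 0, 0]], [[0, 2, 1, 0, 0]], [[1], [0, 2, 0]], [[2, 0]]], [[], [], [[]], [[2], [1, 0]], [[0]], [[1], [2], [1, 0]], [[2, 1], []], [[1, 0]]], [[], [], [], [], [[]], [], [[2, 1]], [[2]]], [[], [], [], [], [[1, 2]], [[1]], [[]], [[1, 0]]], [[], [], [[2], [1, 0]], [[]], [[1, 0]], [[0], [2, 1, 0]], [[1], [2], [1, 0]], [[2, 1, 0]]], [[], [], [], [], [[1, 0]], [[]], [[1]], [[1, 2]]], [[], [], [], [], [[2]], [[0]], [], [[]]],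 [[], [], [[1, 2], [0]], [[2], [1, 0]], [[0]], [[1], [2], [1, 0]], [[], [0]], [[1, 0]]]]

noncomputable def path (c : Fin 8) (a : Fin 8) : List (List (Fin 3)) :=
  ((pathN.getD c.1 []).getD a.1 []).map fun w => w.map (Fin.ofNat 3)

noncomputable def jnN : List (List ℕ) :=
  [[0, 1, 2, 3, 4, 5, 6], [1, 1, 5, 5, 4, 5, 6], [2, 5, 2, 3, 5, 5, 6], [3, 5, 3, 3, 5, 5, 6], [4, 4, 5, 5, 4, 5, 6], [5, 5, 5, 5, 5, 5, 6], [6, 6, 6, 6, 6, 6, 6]]

noncomputable def jn (s t : Fin 7) : Fin 7 := Fin.ofNat 7 (g2 jnN s.1 t.1)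

set_option maxHeartbeats 0 in
noncomputable def jpathN : List (List (List (List ℕ))) :=
  [[[[], [], [], [], [], [], [], []], [[], [], [], [], [0], [], [2], [3]], [[], [], [], [], [2], [3], [], [1]], [[], [], [], [], [2], [3], [0], [1]], [[], [], [], [], [0], [1], [2], [3]], [[], [], [0], [1], [0], [1], [0], [1]], [[], [0], [0], [0], [0], [0], [0], [0]]], [[[], [], [], [], [0], [], [2], [3]], [[], [], [], [], [0], [], [2], [3]], [[], [], [4, 0], [7, 1], [0], [3, 7, 1], [2, 4, 0], [1]], [[], [], [4, 0], [7, 1], [0], [3, 7, 1], [0], [1]], [[], [], [], [], [0], [1], [2], [3]], [[], [], [0], [1], [0], [1], [0], [1]], [[], [0], [0], [0], [0], [0], [0], [0]]], [[[], [], [], [], [2], [3], [], [1]], [[], [], [4, 0], [7, 1], [0], [3, 7, 1], [2, 4, 0], [1]], [[], [], [], [], [2], [3], [], [1]], [[], [], [], [], [2], [3], [0], [1]], [[], [], [4, 0], [5, 1], [0], [1], [2, 4, 0], [1]], [[], [], [0], [1], [0], [1], [0], [1]], [[], [0], [0],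 [0], [0], [0], [0], [0]]], [[[], [], [], [], [2], [3], [0], [1]], [[], [], [4, 0], [7, 1], [0], [3, 7, 1], [0], [1]], [[], [], [], [], [2], [3], [0], [1]], [[], [], [], [], [2], [3], [0], [1]], [[], [], [4, 0], [5, 1], [0], [1], [0], [1]], [[], [], [0], [1], [0], [1], [0], [1]], [[], [0], [0], [0], [0], [0], [0], [0]]], [[[], [], [], [], [0], [1], [2], [3]], [[], [], [], [], [0], [1], [2], [3]], [[], [], [4, 0], [5, 1], [0], [1], [2, 4, 0], [1]], [[], [], [4, 0], [5, 1], [0], [1], [0], [1]], [[], [], [], [], [0], [1], [2], [3]], [[], [], [0], [1], [0], [1], [0], [1]], [[], [0], [0], [0], [0], [0], [0], [0]]], [[[], [], [0], [1], [0], [1], [0], [1]], [[], [], [0], [1], [0], [1], [0], [1]], [[], [], [0], [1], [0], [1], [0], [1]], [[], [], [0], [1], [0], [1], [0], [1]], [[], [], [0], [1], [0], [1], [0], [1]], [[], [], [0], [1], [0], [1], [0], [1]], [[], [0], [0], [0], [0], [0], [0], [0]]], [[[], [0], [0], [0], [0], [0], [0], [0]],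 [[], [0], [0], [0], [0], [0], [0], [0]], [[], [0], [0], [0], [0], [0], [0], [0]], [[], [0], [0], [0], [0], [0], [0], [0]], [[], [0], [0], [0], [0], [0], [0], [0]], [[], [0], [0], [0], [0], [0], [0], [0]], [[], [0], [0], [0], [0], [0], [0], [0]]]]

noncomputable def jpath (s t : Fin 7) (a : Fin 8) : List (Fin 8) :=
  (((jpathN.getD s.1 []).getD t.1 []).getD a.1 []).map (Fin.ofNat 8)

theorem hbot : ∀ a, lab 0 a = a := by decide +kernel

theorem h0 : ∀ t a, lab t (lab t a) = lab t a := by decide +kernel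

theorem h1 : ∀ t i a, lab t (op i (lab t a)) = lab t (op i a) := by decide +kernel

theorem h2 : ∀ s t, mk7 (bitsOf 860) s t = true ↔ ∀ a, lab t (lab s a) = lab t a := by
  decide +kernel

theorem h5 : ∀ s t, mk7 (bitsOf 860) s t = true → mk7 (bitsOf 860) t s = true → s = t := by
  decide +kernel

theorem h3a : ∀ u : Fin 8, ∀ u', u = u' ∨
    Cert.hits op (move u u') u u' (cp (cls u u')).1 (cp (cls u u')).2 = true := by
  decide +kernel

theorem h3b : ∀ c : Fin 8, ∀ a,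
    Cert.walk op (cp c).1 (cp c).2 (path c a) a = lab (typ c) a := by
  decide +kernel

theorem h3c : ∀ u : Fin 8, ∀ u', lab (typ (cls u u')) u = lab (typ (cls u u')) u' := by
  decide +kernel

theorem h4a : ∀ s t, mk7 (bitsOf 860) s (jn s t) = true ∧ mk7 (bitsOf 860) t (jn s t) = true := by
  decide +kernel

theorem h4b : ∀ s : Fin 7, ∀ t a,
    Cert.jwalk lab s t (jpath s t a) a = lab (jn s t) a := by
  decide +kernel

theorem rep : RepTable 7 (mk7 (bitsOf 860)) :=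
  Cert.repTable_of_cert (by decide) _ op lab 0 cls cp move typ path jn jpath
    hbot h0 h1 h2 h5 h3a h3b h3c h4a h4b

end Vale.Agent.P183.Data.L44

namespace Vale.Agent.P183.Data.L46

noncomputable def g1 (l : List ℕ) (i : ℕ) : ℕ := l.getD i 0

noncomputable def g2 (l : List (List ℕ)) (i j : ℕ) : ℕ := (l.getD i []).getD j 0

noncomputable def opD : ℕ := 929678159277150645464007939

noncomputable def op (i : Fin 2) (x : Fin 6) : Fin 6 :=
  Fin.ofNat 6 ((opD >>> (8 * (6 * i.1 + x.1))) &&& 255)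

noncomputable def labD : ℕ := 30354201441047830127880507618613578490468990707787150336113690081598678403110797568

noncomputable def lab (t : Fin 7) (x : Fin 6) : Fin 6 :=
  Fin.ofNat 6 ((labD >>> (8 * (6 * t.1 + x.1))) &&& 255)

noncomputable def clsR : List ℕ :=
  [4410965032960, 6618611712000, 4428144836609, 34359870466, 9895739327747, 38654969348]

noncomputable def cls (u v : Fin 6) : Fin 10 :=
  Fin.ofNat 10 ((g1 clsR u.1 >>> (8 * v.1)) &&& 255)

noncomputable def cpA : List ℕ :=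
  [0, 0, 0, 0, 0, 1, 1, 2, 3, 4]

noncomputable def cpB : List ℕ :=
  [1, 2, 3, 4, 5, 4, 5, 4, 4, 5]

noncomputable def cp (c : Fin 10) : Fin 6 × Fin 6 :=
  (Fin.ofNat 6 (g1 cpA c.1), Fin.ofNat 6 (g1 cpB c.1))

noncomputable def moveR : List ℕ :=
  [1103823438081, 1103945007361, 70373173444609, 8800405293057, 1103823438081, 1103945007361]

noncomputable def dec : ℕ → ℕ → List (Fin 2)
  | 0, _ => []
  | f + 1, p => if p ≤ 1 then [] else Fin.ofNat 2 (p % 8) :: dec f (p / 8)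

noncomputable def move (u v : Fin 6) : List (Fin 2) :=
  dec 3 ((g1 moveR u.1 >>> (8 * v.1)) &&& 255)

noncomputable def typN : List ℕ :=
  [4, 1, 2, 6, 5, 6, 3, 6, 6, 6]

noncomputable def typ (c : Fin 10) : Fin 7 := Fin.ofNat 7 (g1 typN c.1)

set_option maxHeartbeats 0 in
noncomputable def pathN : List (List (List (List ℕ))) :=
  [[[], [[]], [[1]], [], [], [[0]]], [[], [], [[]], [], [], []], [[], [], [[1], []], [[]], [], []], [[], [[1, 0, 0]], [[1, 1]], [[0, 1]], [[]], [[0, 0]]], [[], [[0], [0, 1]], [[1], [0, 1]], [[0, 1]], [], [[]]], [[], [[1]], [[1, 1]], [[0, 1]], [[], [1]], [[0], [1]]], [[], [], [[1, 1], [1]], [[1]], [], [[]]], [[], [[1, 0, 0]], [[1, 1]], [[0, 1]], [[], [1, 1]], [[0, 0]]], [[], [[0]], [[0, 1]], [[1, 1]], [[], [1, 1]], [[1, 0]]], [[], [[1], [1, 1]], [[1, 0, 1], [1, 1]], [[1, 1]], [[], [1, 0]], [[1, 0]]]]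

noncomputable def path (c : Fin 10) (a : Fin 6) : List (List (Fin 2)) :=
  ((pathN.getD c.1 []).getD a.1 []).map fun w => w.map (Fin.ofNat 2)

noncomputable def jnN : List (List ℕ) :=
  [[0, 1, 2, 3, 4, 5, 6], [1, 1, 2, 3, 4, 5, 6], [2, 2, 2, 3, 5, 5, 6], [3, 3, 3, 3, 5, 5, 6], [4, 4, 5, 5, 4, 5, 6], [5, 5, 5, 5, 5, 5, 6], [6, 6, 6, 6, 6, 6, 6]]

noncomputable def jn (s t : Fin 7) : Fin 7 := Fin.ofNat 7 (g2 jnN s.1 t.1)

set_option maxHeartbeats 0 in
noncomputable def jpathN : List (List (List (List ℕ))) :=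
  [[[[], [], [], [], [], []], [[], [], [0], [], [], []], [[], [], [0], [0], [], []], [[], [], [0], [0], [], [1]], [[], [0], [0], [], [], [3]], [[], [0], [0], [0], [], [0]], [[], [0], [0], [0], [0], [0]]], [[[], [], [0], [], [], []], [[], [], [0], [], [], []], [[], [], [0], [0], [], []], [[], [], [0], [0], [], [1]], [[], [0], [0], [], [], [3]], [[], [0], [0], [0], [], [0]], [[], [0], [0], [0], [0], [0]]], [[[], [], [0], [0], [], []], [[], [], [0], [0], [], []], [[], [], [0], [0], [], []], [[], [], [0], [0], [], [1]], [[], [0], [0], [0], [], [3, 0]], [[], [0], [0], [0], [], [0]], [[], [0], [0], [0], [0], [0]]], [[[], [], [0], [0], [], [1]], [[], [], [0], [0], [], [1]], [[], [], [0], [0], [], [1]], [[], [], [0], [0], [], [1]], [[], [0], [0], [0], [], [1, 0]], [[], [0], [0], [0], [], [0]], [[], [0], [0], [0], [0], [0]]], [[[], [0], [0], [], [], [3]], [[], [0], [0], [], [], [3]], [[], [0], [0], [0], [], [3, 0]], [[], [0], [0], [0],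 [], [1, 0]], [[], [0], [0], [], [], [3]], [[], [0], [0], [0], [], [0]], [[], [0], [0], [0], [0], [0]]], [[[], [0], [0], [0], [], [0]], [[], [0], [0], [0], [], [0]], [[], [0], [0], [0], [], [0]], [[], [0], [0], [0], [], [0]], [[], [0], [0], [0], [], [0]], [[], [0], [0], [0], [], [0]], [[], [0], [0], [0], [0], [0]]], [[[], [0], [0], [0], [0], [0]], [[], [0], [0], [0], [0], [0]], [[], [0], [0], [0], [0], [0]], [[], [0], [0], [0], [0], [0]], [[], [0], [0], [0], [0], [0]], [[], [0], [0], [0], [0], [0]], [[], [0], [0], [0], [0], [0]]]]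

noncomputable def jpath (s t : Fin 7) (a : Fin 6) : List (Fin 6) :=
  (((jpathN.getD s.1 []).getD t.1 []).getD a.1 []).map (Fin.ofNat 6)

theorem hbot : ∀ a, lab 0 a = a := by decide +kernel

theorem h0 : ∀ t a, lab t (lab t a) = lab t a := by decide +kernel

theorem h1 : ∀ t i a, lab t (op i (lab t a)) = lab t (op i a) := by decide +kernel

theorem h2 : ∀ s t, mk7 (bitsOf 863) s t = true ↔ ∀ a, lab t (lab s a) = lab t a := by
  decide +kernel

theorem h5 : ∀ s t, mk7 (bitsOf 863) s t = true → mk7 (bitsOf 863) t s = true → s = t := by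
  decide +kernel

theorem h3a : ∀ u : Fin 6, ∀ u', u = u' ∨
    Cert.hits op (move u u') u u' (cp (cls u u')).1 (cp (cls u u')).2 = true := by
  decide +kernel

theorem h3b : ∀ c : Fin 10, ∀ a,
    Cert.walk op (cp c).1 (cp c).2 (path c a) a = lab (typ c) a := by
  decide +kernel

theorem h3c : ∀ u : Fin 6, ∀ u', lab (typ (cls u u')) u = lab (typ (cls u u')) u' := by
  decide +kernel

theorem h4a : ∀ s t, mk7 (bitsOf 863) s (jn s t) = true ∧ mk7 (bitsOf 863) t (jn s t) = true := by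
  decide +kernel

theorem h4b : ∀ s : Fin 7, ∀ t a,
    Cert.jwalk lab s t (jpath s t a) a = lab (jn s t) a := by
  decide +kernel

theorem rep : RepTable 7 (mk7 (bitsOf 863)) :=
  Cert.repTable_of_cert (by decide) _ op lab 0 cls cp move typ path jn jpath
    hbot h0 h1 h2 h5 h3a h3b h3c h4a h4b

end Vale.Agent.P183.Data.L46

namespace Vale.Agent.P183.Data.L50

noncomputable def g1 (l : List ℕ) (i : ℕ) : ℕ := l.getD i 0

noncomputable def g2 (l : List (List ℕ)) (i j : ℕ) : ℕ := (l.getD i []).getD j 0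

noncomputable def opD : ℕ := 4859370451392062950473729

noncomputable def op (i : Fin 2) (x : Fin 6) : Fin 6 :=
  Fin.ofNat 6 ((opD >>> (8 * (6 * i.1 + x.1))) &&& 255)

noncomputable def labD : ℕ := 231584178474949150474426686429732124926757523634468270827233306080337746592000

noncomputable def lab (t : Fin 7) (x : Fin 6) : Fin 6 :=
  Fin.ofNat 6 ((labD >>> (8 * (6 * t.1 + x.1))) &&& 255)

noncomputable def clsR : List ℕ :=
  [4410965032960, 4411032403968, 9930081830145, 12137578038786, 13194307830531, 51724747780]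

noncomputable def cls (u v : Fin 6) : Fin 13 :=
  Fin.ofNat 13 ((g1 clsR u.1 >>> (8 * v.1)) &&& 255)

noncomputable def cpA : List ℕ :=
  [0, 0, 0, 0, 0, 1, 1, 2, 2, 2, 3, 3, 4]

noncomputable def cpB : List ℕ :=
  [1, 2, 3, 4, 5, 2, 3, 3, 4, 5, 4, 5, 5]

noncomputable def cp (c : Fin 13) : Fin 6 × Fin 6 :=
  (Fin.ofNat 6 (g1 cpA c.1), Fin.ofNat 6 (g1 cpB c.1))

noncomputable def moveR : List ℕ :=
  [34636833, 277906465, 34636833, 34636833, 34637089, 34637057]

noncomputable def dec : ℕ → ℕ → List (Fin 2)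
  | 0, _ => []
  | f + 1, p => if p ≤ 1 then [] else Fin.ofNat 2 (p % 8) :: dec f (p / 8)

noncomputable def move (u v : Fin 6) : List (Fin 2) :=
  dec 2 ((g1 moveR u.1 >>> (5 * v.1)) &&& 31)

noncomputable def typN : List ℕ :=
  [1, 6, 5, 2, 3, 6, 5, 6, 6, 6, 5, 5, 4]

noncomputable def typ (c : Fin 13) : Fin 7 := Fin.ofNat 7 (g1 typN c.1)

set_option maxHeartbeats 0 in
noncomputable def pathN : List (List (List (List ℕ))) :=
  [[[], [[]], [], [], [], []], [[], [[0]], [[]], [[1], [0]], [[1, 0]], [[1, 1]]], [[], [[0, 0]], [], [[]], [[0, 1]], [[1, 0]]], [[], [[1, 0]], [], [], [[]], []], [[], [[1]], [], [], [], [[]]], [[], [[1, 0, 0]], [[], [1, 0, 0]], [[1]], [[1, 0, 1]], [[1, 1, 0]]], [[], [[1, 1]], [], [[], [1, 1]], [[0]], [[1]]], [[], [[0, 1, 0]], [[], [1], [1, 1]], [[1], [1, 1]], [[0]], [[1, 1]]], [[], [[0]], [[], [1, 0, 1]], [[1], [1, 0, 1]], [[1, 0, 1]], [[1, 1, 0, 0]]], [[], [[0, 1]], [[], [0]], [[1]], [[1, 0, 1]], [[0]]],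 [[], [[0, 0]], [], [[], [0, 1]], [[0, 1]], [[1, 0, 0]]], [[], [[1, 1]], [], [[], [1]], [[0, 1]], [[1]]], [[], [[0, 0, 1]], [], [], [[1]], [[0, 0]]]]

noncomputable def path (c : Fin 13) (a : Fin 6) : List (List (Fin 2)) :=
  ((pathN.getD c.1 []).getD a.1 []).map fun w => w.map (Fin.ofNat 2)

noncomputable def jnN : List (List ℕ) :=
  [[0, 1, 2, 3, 4, 5, 6], [1, 1, 2, 3, 4, 5, 6], [2, 2, 2, 4, 4, 5, 6], [3, 3, 4, 3, 4, 5, 6], [4, 4, 4, 4, 4, 5, 6], [5, 5, 5, 5, 5, 5, 6], [6, 6, 6, 6, 6, 6, 6]]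

noncomputable def jn (s t : Fin 7) : Fin 7 := Fin.ofNat 7 (g2 jnN s.1 t.1)

set_option maxHeartbeats 0 in
noncomputable def jpathN : List (List (List (List ℕ))) :=
  [[[[], [], [], [], [], []], [[], [0], [], [], [], []], [[], [0], [], [], [0], []], [[], [0], [], [], [], [0]], [[], [0], [], [], [0], [0]], [[], [0], [], [0], [0], [0]], [[], [0], [0], [0], [0], [0]]], [[[], [0], [], [], [], []], [[], [0], [], [], [], []], [[], [0], [], [], [0], []], [[], [0], [], [], [], [0]], [[], [0], [], [], [0], [0]], [[], [0], [], [0], [0], [0]], [[], [0], [0], [0], [0], [0]]], [[[], [0], [], [], [0], []], [[], [0], [], [], [0], []], [[], [0], [], [], [0], []], [[], [0], [], [], [0], [0]], [[], [0], [], [], [0], [0]], [[], [0], [], [0], [0], [0]], [[], [0], [0], [0], [0], [0]]], [[[], [0], [], [], [], [0]], [[], [0], [], [], [], [0]], [[], [0], [], [], [0], [0]], [[], [0], [], [], [], [0]], [[], [0], [], [], [0], [0]], [[], [0], [], [0], [0],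 [0]], [[], [0], [0], [0], [0], [0]]], [[[], [0], [], [], [0], [0]], [[], [0], [], [], [0], [0]], [[], [0], [], [], [0], [0]], [[], [0], [], [], [0], [0]], [[], [0], [], [], [0], [0]], [[], [0], [], [0], [0], [0]], [[], [0], [0], [0], [0], [0]]], [[[], [0], [], [0], [0], [0]], [[], [0], [], [0], [0], [0]], [[], [0], [], [0], [0], [0]], [[], [0], [], [0], [0], [0]], [[], [0], [], [0], [0], [0]], [[], [0], [], [0], [0], [0]], [[], [0], [0], [0], [0], [0]]], [[[], [0], [0], [0], [0], [0]], [[], [0], [0], [0], [0], [0]], [[], [0], [0], [0], [0], [0]], [[], [0], [0], [0], [0], [0]], [[], [0], [0], [0], [0], [0]], [[], [0], [0], [0], [0], [0]], [[], [0], [0], [0], [0], [0]]]]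

noncomputable def jpath (s t : Fin 7) (a : Fin 6) : List (Fin 6) :=
  (((jpathN.getD s.1 []).getD t.1 []).getD a.1 []).map (Fin.ofNat 6)

theorem hbot : ∀ a, lab 0 a = a := by decide +kernel

theorem h0 : ∀ t a, lab t (lab t a) = lab t a := by decide +kernel

theorem h1 : ∀ t i a, lab t (op i (lab t a)) = lab t (op i a) := by decide +kernel

theorem h2 : ∀ s t, mk7 (bitsOf 1007) s t = true ↔ ∀ a, lab t (lab s a) = lab t a := by
  decide +kernel

theorem h5 : ∀ s t, mk7 (bitsOf 1007) s t = true → mk7 (bitsOf 1007) t s = true → s = t := by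
  decide +kernel

theorem h3a : ∀ u : Fin 6, ∀ u', u = u' ∨
    Cert.hits op (move u u') u u' (cp (cls u u')).1 (cp (cls u u')).2 = true := by
  decide +kernel

theorem h3b : ∀ c : Fin 13, ∀ a,
    Cert.walk op (cp c).1 (cp c).2 (path c a) a = lab (typ c) a := by
  decide +kernel

theorem h3c : ∀ u : Fin 6, ∀ u', lab (typ (cls u u')) u = lab (typ (cls u u')) u' := by
  decide +kernel

theorem h4a : ∀ s t, mk7 (bitsOf 1007) s (jn s t) = true ∧ mk7 (bitsOf 1007) t (jn s t) = true := by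
  decide +kernel

theorem h4b : ∀ s : Fin 7, ∀ t a,
    Cert.jwalk lab s t (jpath s t a) a = lab (jn s t) a := by
  decide +kernel

theorem rep : RepTable 7 (mk7 (bitsOf 1007)) :=
  Cert.repTable_of_cert (by decide) _ op lab 0 cls cp move typ path jn jpath
    hbot h0 h1 h2 h5 h3a h3b h3c h4a h4b

end Vale.Agent.P183.Data.L50
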