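import Vale.Agent.P183.Cert
import Vale.Agent.P183.Mk7

/-!
# Certificates for seven element lattices, part 5
-/

namespace Vale.Agent.P183.Data.L00

noncomputable def g1 (l : List ℕ) (i : ℕ) : ℕ := l.getD i 0

noncomputable def g2 (l : List (List ℕ)) (i j : ℕ) : ℕ := (l.getD i []).getD j 0

noncomputable def opD : ℕ := 773793150251109228253323702369559357736096337581989157126232295650789436143391989348599635835599168184923623654660

noncomputable def op (i : Fin 3) (x : Fin 16) : Fin 16 :=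
  Fin.ofNat 16 ((opD >>> (8 * (16 * i.1 + x.1))) &&& 255)

noncomputable def labD : ℕ := 6064802135705975559503192619389852681202739949221390402959393537008676048587283007693679082967834575664364037835323328162300954421664619559546459629537090974259295681724385533642427760361524902002514423415916547345464908153225472

noncomputable def lab (t : Fin 7) (x : Fin 16) : Fin 16 :=
  Fin.ofNat 16 ((labD >>> (8 * (16 * t.1 + x.1))) &&& 255)

noncomputable def clsR : List ℕ :=
  [2679286106391836314902362562389606400, 5327317097573425934808018941242245120, 3992917167184302975980482680261181440, 1344886174769590204245394930909839360, 3998149790562214303381856892909453825, 2674053482708052606052304555048435970, 5322165286613007776587297635803661315, 1350037986035880743191398302997414660, 5332529517762637792251249609018573825, 4008473615654815609713436739032514820, 2663729655751268723127309659887698690, 1339673753643446540302396694489989635, 1241576280140674109865722625,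 933295492147425469702209795, 620197890556983624637415940, 311917102420184936717943810]

noncomputable def cls (u v : Fin 16) : Fin 5 :=
  Fin.ofNat 5 ((g1 clsR u.1 >>> (8 * v.1)) &&& 255)

noncomputable def cpA : List ℕ :=
  [0, 0, 0, 0, 0]

noncomputable def cpB : List ℕ :=
  [1, 4, 5, 6, 7]

noncomputable def cp (c : Fin 5) : Fin 16 × Fin 16 :=
  (Fin.ofNat 16 (g1 cpA c.1), Fin.ofNat 16 (g1 cpB c.1))

noncomputable def moveR : List ℕ :=
  [578964863337943113538789460386203386623557471795368516201342220818467057172481, 4689615393037339219662782270462343946671363709749474668699104963693269424930817, 34332616395724333508974088162783574666338759338062950141860288694232645485330514, 4284339988700778834507446493702570701523381580198987458344681076126072996757514, 37980095034969068247105092623229977217628405999884839100169784770646210262335489, 304303932170422781837066294309123450960684037006119906351036376223863463425998849, 275124103058190461874673863436537563260187438433179272134829010417097348062773249,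 301061728935730301841144653072306594034460809944636641577828901786120577401094145, 297472146783035174607701999368145689952417656739635942914909962116239975212253266, 2379835070753633760294411438732044249064637596809170111911771538450077232457187410, 2434547052449013461353531521624552752506764841378391863119574896890934208860651602, 2434547052449013461345470019066306055997126552123305481812885753288474739202981970, 3821422541477796406721201558484267721292201519606974713160985488199879615447050, 297412214871574469871137729016429655904524327390616889729998925110799123129434122, 2434528676658067517963169655724213090809773477111574484521107863202304959254233098, 76470041698798321795776153842390848787432811971558649770681939042675286212618]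

noncomputable def dec : ℕ → ℕ → List (Fin 3)
  | 0, _ => []
  | f + 1, p => if p ≤ 1 then [] else Fin.ofNat 3 (p % 8) :: dec f (p / 8)

noncomputable def move (u v : Fin 16) : List (Fin 3) :=
  dec 6 ((g1 moveR u.1 >>> (17 * v.1)) &&& 131071)

noncomputable def typN : List ℕ :=
  [1, 2, 3, 4, 5]

noncomputable def typ (c : Fin 5) : Fin 7 := Fin.ofNat 7 (g1 typN c.1)

set_option maxHeartbeats 0 in
noncomputable def pathN : List (List (List (List ℕ))) :=
  [[[], [[]], [[2]], [[2, 2]], [], [[0]], [[2, 0]], [[2, 2, 0]], [], [[2, 2, 0, 2]], [[0, 2]], [[2, 0, 2]], [], [[2, 0, 2, 2]], [[0, 2, 0]], [[0, 2, 2]]], [[], [], [], [], [[]], [[1]], [[2, 2, 1, 2]], [[2, 1, 2, 2]], [[2]], [[2, 1]], [[1, 2]], [[1, 2, 1]], [[2, 2]], [[2, 2, 1]], [[2, 1, 2]], [[1, 2, 2]]], [[], [], [], [], [[0]], [[]], [[2, 1, 2, 2]], [[2, 2, 1, 2]], [[0, 2]], [[0, 2, 1]], [[2]], [[2, 1]], [[0, 2, 2]], [[2, 1, 2]], [[2, 2, 1]], [[2, 2]]], [[], [], [], [], [[0]], [[0, 1]], [[]], [[1]], [[0,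 2]], [[1, 2]], [[2, 1]], [[2]], [[0, 2, 2]], [[2, 2]], [[1, 2, 2]], [[2, 1, 2]]], [[], [], [], [], [[0]], [[0, 1]], [[1]], [[]], [[0, 2]], [[2]], [[0, 1, 2]], [[1, 2]], [[0, 2, 2]], [[1, 2, 2]], [[2, 2]], [[2, 2, 1]]]]

noncomputable def path (c : Fin 5) (a : Fin 16) : List (List (Fin 3)) :=
  ((pathN.getD c.1 []).getD a.1 []).map fun w => w.map (Fin.ofNat 3)

noncomputable def jnN : List (List ℕ) :=
  [[0, 1, 2, 3, 4, 5, 6], [1, 1, 6, 6, 6, 6, 6], [2, 6, 2, 6, 6, 6, 6], [3, 6, 6, 3, 6, 6, 6], [4, 6, 6, 6, 4, 6, 6], [5, 6, 6, 6, 6, 5, 6], [6, 6, 6, 6, 6, 6, 6]]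

noncomputable def jn (s t : Fin 7) : Fin 7 := Fin.ofNat 7 (g2 jnN s.1 t.1)

set_option maxHeartbeats 0 in
noncomputable def jpathN : List (List (List (List ℕ))) :=
  [[[[], [], [], [], [], [], [], [], [], [], [], [], [], [], [], []], [[], [0], [0], [0], [], [4], [4], [4], [], [8], [8], [8], [], [12], [12], [12]], [[], [], [], [], [0], [1], [2], [3], [0], [1], [2], [3], [0], [1], [2], [3]], [[], [], [], [], [1], [0], [3], [2], [2], [3], [0], [1], [3], [2], [1], [0]], [[], [], [], [], [2], [3], [0], [1], [3], [2], [1], [0], [1], [0], [3], [2]], [[], [], [], [], [3], [2], [1], [0], [1], [0], [3], [2], [2], [3], [0], [1]], [[], [0], [0], [0], [0], [0], [0], [0], [0], [0], [0], [0], [0], [0], [0], [0]]], [[[], [0], [0], [0], [], [4], [4], [4], [], [8], [8], [8], [], [12], [12], [12]], [[], [0], [0], [0], [], [4], [4], [4], [], [8], [8], [8], [], [12], [12], [12]], [[], [0], [0], [0], [0], [1, 0], [2, 0], [3, 0], [0], [1, 0], [2, 0], [3, 0], [0], [1, 0], [2,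 0], [3, 0]], [[], [0], [0], [0], [1, 0], [0], [3, 0], [2, 0], [2, 0], [3, 0], [0], [1, 0], [3, 0], [2, 0], [1, 0], [0]], [[], [0], [0], [0], [2, 0], [3, 0], [0], [1, 0], [3, 0], [2, 0], [1, 0], [0], [1, 0], [0], [3, 0], [2, 0]], [[], [0], [0], [0], [3, 0], [2, 0], [1, 0], [0], [1, 0], [0], [3, 0], [2, 0], [2, 0], [3, 0], [0], [1, 0]], [[], [0], [0], [0], [0], [0], [0], [0], [0], [0], [0], [0], [0], [0], [0], [0]]], [[[], [], [], [], [0], [1], [2], [3], [0], [1], [2], [3], [0], [1], [2], [3]], [[], [0], [0], [0], [0], [1, 0], [2, 0], [3, 0], [0], [1, 0], [2, 0], [3, 0], [0], [1, 0], [2, 0], [3, 0]], [[], [], [], [], [0], [1], [2], [3], [0], [1], [2], [3], [0], [1], [2], [3]], [[], [4, 0], [8, 0], [12, 0], [0], [0], [10, 0], [8, 0], [0], [5, 0], [0], [4, 0], [0], [5, 0], [4, 0], [0]], [[], [12, 0], [4, 0], [8, 0], [0], [8, 0], [0], [11, 0], [0], [4, 0], [6, 0], [0], [0], [0], [6, 0], [4, 0]], [[], [8, 0], [12, 0], [4, 0], [0], [9, 0], [8, 0], [0], [0], [0],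 [4, 0], [7, 0], [0], [4, 0], [0], [7, 0]], [[], [0], [0], [0], [0], [0], [0], [0], [0], [0], [0], [0], [0], [0], [0], [0]]], [[[], [], [], [], [1], [0], [3], [2], [2], [3], [0], [1], [3], [2], [1], [0]], [[], [0], [0], [0], [1, 0], [0], [3, 0], [2, 0], [2, 0], [3, 0], [0], [1, 0], [3, 0], [2, 0], [1, 0], [0]], [[], [4, 0], [8, 0], [12, 0], [0], [0], [10, 0], [8, 0], [0], [5, 0], [0], [4, 0], [0], [5, 0], [4, 0], [0]], [[], [], [], [], [1], [0], [3], [2], [2], [3], [0], [1], [3], [2], [1], [0]], [[], [10, 0], [13, 0], [5, 0], [11, 0], [0], [0], [10, 0], [5, 0], [6, 0], [0], [0], [6, 0], [0], [5, 0], [0]], [[], [14, 0], [5, 0], [9, 0], [10, 0], [0], [9, 0], [0], [7, 0], [0], [0], [5, 0], [5, 0], [7, 0], [0], [0]], [[], [0], [0], [0], [0], [0], [0], [0], [0], [0], [0], [0], [0], [0], [0], [0]]], [[[], [], [], [], [2], [3], [0], [1], [3], [2], [1], [0], [1], [0], [3], [2]], [[], [0], [0], [0], [2, 0], [3, 0], [0], [1, 0], [3, 0], [2, 0], [1, 0], [0], [1, 0],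 [0], [3, 0], [2, 0]], [[], [12, 0], [4, 0], [8, 0], [0], [8, 0], [0], [11, 0], [0], [4, 0], [6, 0], [0], [0], [0], [6, 0], [4, 0]], [[], [10, 0], [13, 0], [5, 0], [11, 0], [0], [0], [10, 0], [5, 0], [6, 0], [0], [0], [6, 0], [0], [5, 0], [0]], [[], [], [], [], [2], [3], [0], [1], [3], [2], [1], [0], [1], [0], [3], [2]], [[], [6, 0], [9, 0], [13, 0], [9, 0], [11, 0], [0], [0], [6, 0], [0], [7, 0], [0], [7, 0], [0], [0], [6, 0]], [[], [0], [0], [0], [0], [0], [0], [0], [0], [0], [0], [0], [0], [0], [0], [0]]], [[[], [], [], [], [3], [2], [1], [0], [1], [0], [3], [2], [2], [3], [0], [1]], [[], [0], [0], [0], [3, 0], [2, 0], [1, 0], [0], [1, 0], [0], [3, 0], [2, 0], [2, 0], [3, 0], [0], [1, 0]], [[], [8, 0], [12, 0], [4, 0], [0], [9, 0], [8, 0], [0], [0], [0], [4, 0], [7, 0], [0], [4, 0], [0], [7, 0]], [[], [14, 0], [5, 0], [9, 0], [10, 0], [0], [9, 0], [0], [7, 0], [0], [0], [5, 0], [5, 0], [7, 0], [0], [0]], [[], [6, 0], [9, 0], [13, 0], [9, 0], [11, 0], [0],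 [0], [6, 0], [0], [7, 0], [0], [7, 0], [0], [0], [6, 0]], [[], [], [], [], [3], [2], [1], [0], [1], [0], [3], [2], [2], [3], [0], [1]], [[], [0], [0], [0], [0], [0], [0], [0], [0], [0], [0], [0], [0], [0], [0], [0]]], [[[], [0], [0], [0], [0], [0], [0], [0], [0], [0], [0], [0], [0], [0], [0], [0]], [[], [0], [0], [0], [0], [0], [0], [0], [0], [0], [0], [0], [0], [0], [0], [0]], [[], [0], [0], [0], [0], [0], [0], [0], [0], [0], [0], [0], [0], [0], [0], [0]], [[], [0], [0], [0], [0], [0], [0], [0], [0], [0], [0], [0], [0], [0], [0], [0]], [[], [0], [0], [0], [0], [0], [0], [0], [0], [0], [0], [0], [0], [0], [0], [0]], [[], [0], [0], [0], [0], [0], [0], [0], [0], [0], [0], [0], [0], [0], [0], [0]], [[], [0], [0], [0], [0], [0], [0], [0], [0], [0], [0], [0], [0], [0], [0], [0]]]]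

noncomputable def jpath (s t : Fin 7) (a : Fin 16) : List (Fin 16) :=
  (((jpathN.getD s.1 []).getD t.1 []).getD a.1 []).map (Fin.ofNat 16)

theorem hbot : ∀ a, lab 0 a = a := by decide +kernel

theorem h0 : ∀ t a, lab t (lab t a) = lab t a := by decide +kernel

theorem h1 : ∀ t i a, lab t (op i (lab t a)) = lab t (op i a) := by decide +kernel

theorem h2 : ∀ s t, mk7 (bitsOf 0) s t = true ↔ ∀ a, lab t (lab s a) = lab t a := by
  decide +kernel

theorem h5 : ∀ s t, mk7 (bitsOf 0) s t = true → mk7 (bitsOf 0) t s = true → s = t := by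
  decide +kernel

theorem h3a : ∀ u : Fin 16, ∀ u', u = u' ∨
    Cert.hits op (move u u') u u' (cp (cls u u')).1 (cp (cls u u')).2 = true := by
  decide +kernel

theorem h3b : ∀ c : Fin 5, ∀ a,
    Cert.walk op (cp c).1 (cp c).2 (path c a) a = lab (typ c) a := by
  decide +kernel

theorem h3c : ∀ u : Fin 16, ∀ u', lab (typ (cls u u')) u = lab (typ (cls u u')) u' := by
  decide +kernel

theorem h4a : ∀ s t, mk7 (bitsOf 0) s (jn s t) = true ∧ mk7 (bitsOf 0) t (jn s t) = true := by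
  decide +kernel

theorem h4b : ∀ s : Fin 7, ∀ t a,
    Cert.jwalk lab s t (jpath s t a) a = lab (jn s t) a := by
  decide +kernel

theorem rep : RepTable 7 (mk7 (bitsOf 0)) :=
  Cert.repTable_of_cert (by decide) _ op lab 0 cls cp move typ path jn jpath
    hbot h0 h1 h2 h5 h3a h3b h3c h4a h4b

end Vale.Agent.P183.Data.L00

namespace Vale.Agent.P183.Data.L04

noncomputable def g1 (l : List ℕ) (i : ℕ) : ℕ := l.getD i 0

noncomputable def g2 (l : List (List ℕ)) (i j : ℕ) : ℕ := (l.getD i []).getD j 0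

noncomputable def opD : ℕ := 350154579754447865294462598639094390129410

noncomputable def op (i : Fin 2) (x : Fin 9) : Fin 9 :=
  Fin.ofNat 9 ((opD >>> (8 * (9 * i.1 + x.1))) &&& 255)

noncomputable def labD : ℕ := 43324291257162290867605173782915236440229712810090986505013012872493474621502413229220294264363058455166830019251306643471859968

noncomputable def lab (t : Fin 7) (x : Fin 9) : Fin 9 :=
  Fin.ofNat 9 ((labD >>> (8 * (9 * t.1 + x.1))) &&& 255)

noncomputable def clsR : List ℕ :=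
  [74003712026922188800, 55485473313406320640, 37182564048012574720, 74003712026905411585, 55485473309111353600, 37182562948501012480, 3315748504578, 4406687040003, 2211975398148]

noncomputable def cls (u v : Fin 9) : Fin 5 :=
  Fin.ofNat 5 ((g1 clsR u.1 >>> (8 * v.1)) &&& 255)

noncomputable def cpA : List ℕ :=
  [0, 0, 0, 0, 0]

noncomputable def cpB : List ℕ :=
  [1, 3, 6, 7, 8]

noncomputable def cp (c : Fin 5) : Fin 9 × Fin 9 :=
  (Fin.ofNat 9 (g1 cpA c.1), Fin.ofNat 9 (g1 cpB c.1))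

noncomputable def moveR : List ℕ :=
  [1461503031128807135532679470769210486836171898881, 94998321444842821321449014113459274650641520132097, 94998321444842816210281793993227663214226209767489, 94998320051035939786418774410293838929591566073857, 11692024249030788833177119411489489231222138765321, 93536193992243651480843280647831741380284884451392, 5987817891221249775171127628559969490500888609947649, 383217421322698755728130932613954019125178262508011521, 1826966255090269950107620601143520476074683138049]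

noncomputable def dec : ℕ → ℕ → List (Fin 2)
  | 0, _ => []
  | f + 1, p => if p ≤ 1 then [] else Fin.ofNat 2 (p % 8) :: dec f (p / 8)

noncomputable def move (u v : Fin 9) : List (Fin 2) :=
  dec 7 ((g1 moveR u.1 >>> (20 * v.1)) &&& 1048575)

noncomputable def typN : List ℕ :=
  [2, 1, 3, 5, 4]

noncomputable def typ (c : Fin 5) : Fin 7 := Fin.ofNat 7 (g1 typN c.1)

set_option maxHeartbeats 0 in
noncomputable def pathN : List (List (List (List ℕ))) :=
  [[[], [[]], [[1, 0, 1, 0, 0]], [[0], [1, 0, 1, 0, 0]], [[1, 0, 1, 0]], [[1, 1, 0]], [], [[0, 1]], [[1]]], [[], [], [], [[]], [[0, 0]], [[0]], [], [], []], [[], [], [], [[1], []], [[0, 1], [0, 0]], [[1, 0], [0]], [[]], [[0, 0]], [[0]]], [[], [], [], [[0, 1], []], [[1, 0], [0, 0]], [[1], [0]], [[0]], [[]], [[0, 0]]], [[], [], [], [[1, 1], []], [[1], [0, 0]], [[0, 1], [0]], [[0, 0]], [[0]], [[]]]]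

noncomputable def path (c : Fin 5) (a : Fin 9) : List (List (Fin 2)) :=
  ((pathN.getD c.1 []).getD a.1 []).map fun w => w.map (Fin.ofNat 2)

noncomputable def jnN : List (List ℕ) :=
  [[0, 1, 2, 3, 4, 5, 6], [1, 1, 2, 3, 4, 5, 6], [2, 2, 2, 6, 6, 6, 6], [3, 3, 6, 3, 6, 6, 6], [4, 4, 6, 6, 4, 6, 6], [5, 5, 6, 6, 6, 5, 6], [6, 6, 6, 6, 6, 6, 6]]

noncomputable def jn (s t : Fin 7) : Fin 7 := Fin.ofNat 7 (g2 jnN s.1 t.1)

set_option maxHeartbeats 0 in
noncomputable def jpathN : List (List (List (List ℕ))) :=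
  [[[[], [], [], [], [], [], [], [], []], [[], [], [], [0], [1], [2], [], [], []], [[], [0], [0], [0], [0], [0], [], [6], [6]], [[], [], [], [0], [1], [2], [0], [1], [2]], [[], [], [], [0], [1], [2], [1], [2], [0]], [[], [], [], [0], [1], [2], [2], [0], [1]], [[], [0], [0], [0], [0], [0], [0], [0], [0]]], [[[], [], [], [0], [1], [2], [], [], []], [[], [], [], [0], [1], [2], [], [], []], [[], [0], [0], [0], [0], [0], [], [6], [6]], [[], [], [], [0], [1], [2], [0], [1], [2]], [[], [], [], [0], [1], [2], [1], [2], [0]], [[], [], [], [0], [1], [2], [2], [0], [1]], [[], [0], [0], [0], [0], [0], [0], [0], [0]]], [[[], [0], [0], [0], [0], [0], [], [6], [6]], [[], [0], [0], [0], [0], [0], [], [6], [6]], [[], [0], [0], [0], [0], [0], [], [6], [6]], [[], [0], [0], [0], [0], [0], [0], [1, 0], [2, 0]], [[], [0], [0], [0], [0], [0], [1, 0], [2, 0], [0]], [[], [0], [0], [0], [0], [0], [2, 0], [0], [1, 0]], [[], [0], [0], [0], [0], [0], [0], [0], [0]]], [[[], [], [], [0],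 [1], [2], [0], [1], [2]], [[], [], [], [0], [1], [2], [0], [1], [2]], [[], [0], [0], [0], [0], [0], [0], [1, 0], [2, 0]], [[], [], [], [0], [1], [2], [0], [1], [2]], [[], [6, 0], [8, 0], [0], [6, 0], [8, 0], [0], [1, 6, 0], [0]], [[], [7, 0], [6, 0], [0], [7, 0], [6, 0], [0], [0], [1, 7, 0]], [[], [0], [0], [0], [0], [0], [0], [0], [0]]], [[[], [], [], [0], [1], [2], [1], [2], [0]], [[], [], [], [0], [1], [2], [1], [2], [0]], [[], [0], [0], [0], [0], [0], [1, 0], [2, 0], [0]], [[], [6, 0], [8, 0], [0], [6, 0], [8, 0], [0], [1, 6, 0], [0]], [[], [], [], [0], [1], [2], [1], [2], [0]], [[], [8, 0], [7, 0], [0], [8, 0], [7, 0], [1, 8, 0], [0], [0]], [[], [0], [0], [0], [0], [0], [0], [0], [0]]], [[[], [], [], [0], [1], [2], [2], [0], [1]], [[], [], [], [0], [1], [2], [2], [0], [1]], [[], [0], [0], [0], [0], [0], [2, 0], [0], [1, 0]], [[], [7, 0], [6, 0], [0], [7, 0], [6, 0], [0], [0], [1, 7, 0]], [[], [8, 0], [7, 0], [0], [8, 0], [7, 0], [1, 8, 0], [0], [0]],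 [[], [], [], [0], [1], [2], [2], [0], [1]], [[], [0], [0], [0], [0], [0], [0], [0], [0]]], [[[], [0], [0], [0], [0], [0], [0], [0], [0]], [[], [0], [0], [0], [0], [0], [0], [0], [0]], [[], [0], [0], [0], [0], [0], [0], [0], [0]], [[], [0], [0], [0], [0], [0], [0], [0], [0]], [[], [0], [0], [0], [0], [0], [0], [0], [0]], [[], [0], [0], [0], [0], [0], [0], [0], [0]], [[], [0], [0], [0], [0], [0], [0], [0], [0]]]]

noncomputable def jpath (s t : Fin 7) (a : Fin 9) : List (Fin 9) :=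
  (((jpathN.getD s.1 []).getD t.1 []).getD a.1 []).map (Fin.ofNat 9)

theorem hbot : ∀ a, lab 0 a = a := by decide +kernel

theorem h0 : ∀ t a, lab t (lab t a) = lab t a := by decide +kernel

theorem h1 : ∀ t i a, lab t (op i (lab t a)) = lab t (op i a) := by decide +kernel

theorem h2 : ∀ s t, mk7 (bitsOf 15) s t = true ↔ ∀ a, lab t (lab s a) = lab t a := by
  decide +kernel

theorem h5 : ∀ s t, mk7 (bitsOf 15) s t = true → mk7 (bitsOf 15) t s = true → s = t := by
  decide +kernel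

theorem h3a : ∀ u : Fin 9, ∀ u', u = u' ∨
    Cert.hits op (move u u') u u' (cp (cls u u')).1 (cp (cls u u')).2 = true := by
  decide +kernel

theorem h3b : ∀ c : Fin 5, ∀ a,
    Cert.walk op (cp c).1 (cp c).2 (path c a) a = lab (typ c) a := by
  decide +kernel

theorem h3c : ∀ u : Fin 9, ∀ u', lab (typ (cls u u')) u = lab (typ (cls u u')) u' := by
  decide +kernel

theorem h4a : ∀ s t, mk7 (bitsOf 15) s (jn s t) = true ∧ mk7 (bitsOf 15) t (jn s t) = true := by
  decide +kernel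

theorem h4b : ∀ s : Fin 7, ∀ t a,
    Cert.jwalk lab s t (jpath s t a) a = lab (jn s t) a := by
  decide +kernel

theorem rep : RepTable 7 (mk7 (bitsOf 15)) :=
  Cert.repTable_of_cert (by decide) _ op lab 0 cls cp move typ path jn jpath
    hbot h0 h1 h2 h5 h3a h3b h3c h4a h4b

end Vale.Agent.P183.Data.L04

namespace Vale.Agent.P183.Data.L05

noncomputable def g1 (l : List ℕ) (i : ℕ) : ℕ := l.getD i 0

noncomputable def g2 (l : List (List ℕ)) (i j : ℕ) : ℕ := (l.getD i []).getD j 0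

noncomputable def opD : ℕ := 33751041

noncomputable def op (i : Fin 1) (x : Fin 4) : Fin 4 :=
  Fin.ofNat 4 ((opD >>> (8 * (4 * i.1 + x.1))) &&& 255)

noncomputable def labD : ℕ := 96155121432352650573068702902154189056499302841581824

noncomputable def lab (t : Fin 7) (x : Fin 4) : Fin 4 :=
  Fin.ofNat 4 ((labD >>> (8 * (4 * t.1 + x.1))) &&& 255)

noncomputable def clsR : List ℕ :=
  [33619968, 16908288, 50332161, 196866]

noncomputable def cls (u v : Fin 4) : Fin 4 :=
  Fin.ofNat 4 ((g1 clsR u.1 >>> (8 * v.1)) &&& 255)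

noncomputable def cpA : List ℕ :=
  [0, 0, 0, 2]

noncomputable def cpB : List ℕ :=
  [1, 2, 3, 3]

noncomputable def cp (c : Fin 4) : Fin 4 × Fin 4 :=
  (Fin.ofNat 4 (g1 cpA c.1), Fin.ofNat 4 (g1 cpB c.1))

noncomputable def moveR : List ℕ :=
  [33825, 270369, 34049, 34049]

noncomputable def dec : ℕ → ℕ → List (Fin 1)
  | 0, _ => []
  | f + 1, p => if p ≤ 1 then [] else Fin.ofNat 1 (p % 8) :: dec f (p / 8)

noncomputable def move (u v : Fin 4) : List (Fin 1) :=
  dec 2 ((g1 moveR u.1 >>> (5 * v.1)) &&& 31)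

noncomputable def typN : List ℕ :=
  [1, 4, 5, 2]

noncomputable def typ (c : Fin 4) : Fin 7 := Fin.ofNat 7 (g1 typN c.1)

set_option maxHeartbeats 0 in
noncomputable def pathN : List (List (List (List ℕ))) :=
  [[[], [[]], [], []], [[], [], [[]], [[0]]], [[], [], [[0]], [[]]], [[], [], [], [[]]]]

noncomputable def path (c : Fin 4) (a : Fin 4) : List (List (Fin 1)) :=
  ((pathN.getD c.1 []).getD a.1 []).map fun w => w.map (Fin.ofNat 1)

noncomputable def jnN : List (List ℕ) :=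
  [[0, 1, 2, 3, 4, 5, 6], [1, 1, 3, 3, 6, 6, 6], [2, 3, 2, 3, 6, 6, 6], [3, 3, 3, 3, 6, 6, 6], [4, 6, 6, 6, 4, 6, 6], [5, 6, 6, 6, 6, 5, 6], [6, 6, 6, 6, 6, 6, 6]]

noncomputable def jn (s t : Fin 7) : Fin 7 := Fin.ofNat 7 (g2 jnN s.1 t.1)

set_option maxHeartbeats 0 in
noncomputable def jpathN : List (List (List (List ℕ))) :=
  [[[[], [], [], []], [[], [0], [], []], [[], [], [], [2]], [[], [0], [], [2]], [[], [], [0], [1]], [[], [], [1], [0]], [[], [0], [0], [0]]], [[[], [0], [], []], [[], [0], [], []], [[], [0], [], [2]], [[], [0], [], [2]], [[], [0], [0], [1, 0]], [[], [0], [1, 0], [0]], [[], [0], [0], [0]]], [[[], [], [], [2]], [[], [0], [], [2]], [[], [], [], [2]], [[], [0], [], [2]], [[], [3, 2, 0], [0], [2, 0]], [[], [2, 3, 0], [3, 0], [0]], [[], [0], [0], [0]]], [[[], [0], [], [2]], [[], [0], [], [2]], [[], [0], [], [2]], [[], [0], [], [2]], [[], [0], [0], [1, 0]], [[], [0], [1, 0], [0]], [[], [0], [0], [0]]], [[[], [], [0], [1]], [[], [0], [0],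 [1, 0]], [[], [3, 2, 0], [0], [2, 0]], [[], [0], [0], [1, 0]], [[], [], [0], [1]], [[], [2, 0], [0], [0]], [[], [0], [0], [0]]], [[[], [], [1], [0]], [[], [0], [1, 0], [0]], [[], [2, 3, 0], [3, 0], [0]], [[], [0], [1, 0], [0]], [[], [2, 0], [0], [0]], [[], [], [1], [0]], [[], [0], [0], [0]]], [[[], [0], [0], [0]], [[], [0], [0], [0]], [[], [0], [0], [0]], [[], [0], [0], [0]], [[], [0], [0], [0]], [[], [0], [0], [0]], [[], [0], [0], [0]]]]

noncomputable def jpath (s t : Fin 7) (a : Fin 4) : List (Fin 4) :=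
  (((jpathN.getD s.1 []).getD t.1 []).getD a.1 []).map (Fin.ofNat 4)

theorem hbot : ∀ a, lab 0 a = a := by decide +kernel

theorem h0 : ∀ t a, lab t (lab t a) = lab t a := by decide +kernel

theorem h1 : ∀ t i a, lab t (op i (lab t a)) = lab t (op i a) := by decide +kernel

theorem h2 : ∀ s t, mk7 (bitsOf 18) s t = true ↔ ∀ a, lab t (lab s a) = lab t a := by
  decide +kernel

theorem h5 : ∀ s t, mk7 (bitsOf 18) s t = true → mk7 (bitsOf 18) t s = true → s = t := by
  decide +kernel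

theorem h3a : ∀ u : Fin 4, ∀ u', u = u' ∨
    Cert.hits op (move u u') u u' (cp (cls u u')).1 (cp (cls u u')).2 = true := by
  decide +kernel

theorem h3b : ∀ c : Fin 4, ∀ a,
    Cert.walk op (cp c).1 (cp c).2 (path c a) a = lab (typ c) a := by
  decide +kernel

theorem h3c : ∀ u : Fin 4, ∀ u', lab (typ (cls u u')) u = lab (typ (cls u u')) u' := by
  decide +kernel

theorem h4a : ∀ s t, mk7 (bitsOf 18) s (jn s t) = true ∧ mk7 (bitsOf 18) t (jn s t) = true := by
  decide +kernel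

theorem h4b : ∀ s : Fin 7, ∀ t a,
    Cert.jwalk lab s t (jpath s t a) a = lab (jn s t) a := by
  decide +kernel

theorem rep : RepTable 7 (mk7 (bitsOf 18)) :=
  Cert.repTable_of_cert (by decide) _ op lab 0 cls cp move typ path jn jpath
    hbot h0 h1 h2 h5 h3a h3b h3c h4a h4b

end Vale.Agent.P183.Data.L05

namespace Vale.Agent.P183.Data.L10

noncomputable def g1 (l : List ℕ) (i : ℕ) : ℕ := l.getD i 0

noncomputable def g2 (l : List (List ℕ)) (i j : ℕ) : ℕ := (l.getD i []).getD j 0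

noncomputable def opD : ℕ := 568197647965515015272941038340018951039286655454929777252835975086846217147586221958789555290898444

noncomputable def op (i : Fin 3) (x : Fin 14) : Fin 14 :=
  Fin.ofNat 14 ((opD >>> (8 * (14 * i.1 + x.1))) &&& 255)

noncomputable def labD : ℕ := 153094793682780168751130472492279117099509943416337105850836191120230414295548566430077661328705059396824410531493008970339105685253584751726707956007085045067752308031478373261520629227669073164370176

noncomputable def lab (t : Fin 7) (x : Fin 14) : Fin 14 :=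
  Fin.ofNat 14 ((labD >>> (8 * (14 * t.1 + x.1))) &&& 255)

noncomputable def clsR : List ℕ :=
  [182544169599666129525552841818112, 243392637583235404329534529667072, 101493449853082481103034468270849, 223268685508760448100860885469698, 162340057290370131332439472144897, 243630010167898362914929639557635, 40882661530778861566739008062724, 203223334164316883681527816784645, 475989154031264792307413813254, 1033064589561829835409860135943, 61322597800226287892263587940102, 203457921383892098689546349644808, 283956217646258680542506969530368, 1112292752076094173003404086281]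

noncomputable def cls (u v : Fin 14) : Fin 15 :=
  Fin.ofNat 15 ((g1 clsR u.1 >>> (8 * v.1)) &&& 255)

noncomputable def cpA : List ℕ :=
  [0, 0, 0, 0, 0, 0, 0, 0, 0, 0, 1, 1, 1, 9, 12]

noncomputable def cpB : List ℕ :=
  [1, 2, 3, 5, 6, 7, 8, 9, 11, 13, 3, 7, 9, 12, 13]

noncomputable def cp (c : Fin 15) : Fin 14 × Fin 14 :=
  (Fin.ofNat 14 (g1 cpA c.1), Fin.ofNat 14 (g1 cpB c.1))

noncomputable def moveR : List ℕ :=
  [1852786506010957640340732169923531712663208939119853962319079770095767163764737, 624428757465782167702714706340010520473420031227394366586830751737801186070376742913, 9756773772456593598728578092160049153298850131219520238849492610461636974635646977, 19122235955250887626108545636285574514693924193635371711330787900930543395536897, 151919365960956330081678350484627433203121507467062178369285062987215398926024786, 19122235946515864905951738342813460823672736701600323391185562186717325351190529, 1219060278076942325103231579057065330243056503499047053345866430358560741120802817,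 1219654617229860918898808585350385086078145453802141532464960002024387333952897025, 19122235946394477461719136275053899813248487434159909495802852749439854157234177, 118571101145875766559087793545836050651340506036586145701771082226636933615845377, 78053205950357076609184208871175422070563404721783444705513427634815626778698097810, 19122235946379312605811465182570921402189060706349057567679536820354446648147969, 1852675762558838142322893104415267519545298481534137122088172865267154978603072, 1852675194661041572128337204297714086242438069483167619476405527225549918830593]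

noncomputable def dec : ℕ → ℕ → List (Fin 3)
  | 0, _ => []
  | f + 1, p => if p ≤ 1 then [] else Fin.ofNat 3 (p % 8) :: dec f (p / 8)

noncomputable def move (u v : Fin 14) : List (Fin 3) :=
  dec 7 ((g1 moveR u.1 >>> (20 * v.1)) &&& 1048575)

noncomputable def typN : List ℕ :=
  [1, 4, 4, 4, 5, 5, 6, 2, 6, 6, 4, 5, 6, 6, 3]

noncomputable def typ (c : Fin 15) : Fin 7 := Fin.ofNat 7 (g1 typN c.1)

set_option maxHeartbeats 0 in
noncomputable def pathN : List (List (List (List ℕ))) :=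
  [[[], [[]], [], [[2, 2]], [], [[2, 2, 2, 2]], [], [[2, 2, 2]], [], [[1]], [], [[2]], [[0]], [[2, 1]]], [[], [[1, 0, 0]], [[]], [[1, 0, 2, 2], []], [[2, 2, 2, 2]], [[1, 0, 2, 2, 2, 2], [2, 2, 2, 2]], [], [[1, 0, 2, 2, 2]], [[2, 2, 2]], [[1, 0, 0, 1], [2, 2, 2]], [[2]], [[1, 0, 2], [2]], [[1, 0, 0, 0]], [[2, 1], [2, 2, 2]]], [[], [[0, 0, 0]], [[0, 0, 2, 2], []], [[]], [[2, 2, 2, 2], [0, 0, 0]], [[2, 2], [0, 0, 2, 2], []], [], [[0, 0, 2, 2, 2]], [[0, 0, 0, 1], [2, 2, 2]], [[2, 2, 2]], [[2], [0, 0, 2, 2, 2]], [[0, 0, 2], [2], [0, 0, 2, 2, 2]], [[0]], [[1], [2, 2, 2]]], [[], [[0, 0]], [[2, 2], [0, 0]], [[0, 2, 2], [2, 2], [0, 0]], [[0, 2, 2, 2, 2], []], [[]], [], [[0, 2, 2, 2]], [[2, 2, 2, 2, 2], [0, 2, 2, 2]], [[2], [0, 2], [2, 2, 2]], [[0, 2], [2, 2, 2]], [[2, 2, 2]], [[2, 0]], [[0, 1], [2, 2, 2, 2, 2], [0, 2, 2, 2]]], [[], [[0, 0, 0]], [], [[0, 0, 2, 2]], [], [[0, 0, 2, 2, 2, 2]], [[]], [[0, 0, 2, 2, 2], []], [[2, 2]], [[0, 0, 0, 1], [2, 2]], [[2]], [[0,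 0, 2], [2]], [[0]], [[0, 0, 1], [2, 2]]], [[], [[1, 2]], [], [[1, 0, 2, 2]], [], [[1, 0, 2, 2, 2, 2]], [[2, 2, 2], [1, 2]], [[]], [[1], [2, 2]], [[2, 2]], [[2], [1, 0, 2, 2, 2, 2]], [[2, 2, 2, 2]], [[1, 2, 0]], [[2, 2, 1], [2, 2]]], [[], [[0, 0]], [[2, 2], [2]], [[0, 2, 2], [2, 2], [2]], [[2, 2, 2, 2, 2], []], [[0, 2, 2, 2, 2], [2, 2, 2, 2, 2], []], [[2, 2, 2], [2, 2], [2]], [[0, 2, 2, 2], [2, 2, 2], [2, 2], [2]], [[]], [[2, 1], []], [[2]], [[0, 2], [2]], [[2, 0]], [[0, 1], []]], [[], [], [], [], [], [], [[2, 2, 2]], [[2, 2, 2, 2]], [[2, 2, 2, 2, 2]], [[]], [[2]], [[2, 2]], [], []], [[], [[1, 0, 0]], [[1, 0, 2, 2], [2], [1, 0, 2], []], [[2], [1, 0, 2], []], [[2, 2, 2, 2], [1, 0, 0, 1], [2, 2, 2, 2, 2], [1, 0, 0]], [[1, 0, 2, 2, 2, 2], [2, 2, 2, 2], [1, 0, 0, 1], [2, 2, 2, 2, 2], [1, 0, 0]], [[2, 2, 2], [1, 0, 2, 2, 2, 2], [2, 2, 2, 2], [1, 0, 0, 1], [2, 2, 2, 2, 2], [1, 0, 0]], [[2, 2], [1, 0, 2, 2], [2], [1, 0, 2], []], [[2, 2, 2, 2, 2], [1, 0, 0]], [[1,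 0, 0, 1], [2, 2, 2, 2, 2], [1, 0, 0]], [[1, 0, 2], []], [[]], [[1, 0, 0, 0]], [[2, 1], [2, 2, 2, 2, 2], [1, 0, 0]]], [[], [[0, 0]], [[2, 2], [0, 2], [2], [0, 0]], [[0, 2, 2], [2, 2], [0, 2], [2], [0, 0]], [[0, 2, 2, 2, 2], [2, 2, 2, 2, 2], [0, 1], []], [[2, 2, 2, 2, 2], [0, 1], []], [[2, 2, 2], [0, 2, 2], [2, 2], [0, 2], [2], [0, 0]], [[2, 2, 2, 2], [0, 2, 2, 2, 2], [2, 2, 2, 2, 2], [0, 1], []], [[0, 1], []], [[2, 2, 2, 2, 2, 2]], [[2], [0, 0]], [[0, 2], [2], [0, 0]], [[0, 0, 0]], [[]]], [[], [[1, 2]], [[1, 2, 2, 2], [], [1, 2]], [[], [1, 2]], [[1, 2, 2, 2, 2, 2], [2, 2, 2, 2], [1, 2]], [[2, 2, 2, 2], [1, 2]], [], [[1, 2, 2, 2, 2]], [[1, 2, 1], [2, 2, 2], [1, 2, 2, 2, 2]], [[2, 2, 2], [1, 2, 2, 2, 2]], [[1, 2, 2], [2], [1, 2, 2, 2, 2]], [[2], [1, 2, 2, 2, 2]], [[1, 2, 0]], [[1, 1], [2, 2, 2], [1, 2, 2, 2, 2]]], [[], [[0, 0, 0]], [], [[0, 0, 2, 2]], [], [[0, 0, 2, 2, 2, 2]], [[0, 0, 2, 2, 2], [], [0, 0, 0]], [[], [0, 0, 0]], [[0, 0, 0, 1], [2, 2], [0, 0,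 2, 2]], [[2, 2], [0, 0, 2, 2]], [[0, 0, 2], [2], [0, 0, 2, 2, 2, 2]], [[2], [0, 0, 2, 2, 2, 2]], [[0]], [[0, 1], [2, 2], [0, 0, 2, 2]]], [[], [[1, 2]], [[0, 0, 2, 2], [2, 2], [2], [1, 2]], [[2, 2], [2], [1, 2]], [[0, 0, 2, 2, 2, 2], [2, 2, 2, 2, 2], [], [1, 2]], [[2, 2, 2, 2, 2], [], [1, 2]], [[0, 0, 2, 2, 2], [2, 2, 2], [2, 2], [2], [1, 2]], [[2, 2, 2], [2, 2], [2], [1, 2]], [[1], [], [1, 2]], [[], [1, 2]], [[0, 0, 2], [2], [1, 2]], [[2], [1, 2]], [[0]], [[0, 1], [], [1, 2]]], [[], [[0, 0]], [[2, 2], [0, 2], [2], [0, 0]], [[0, 2, 2], [2, 2], [0, 2], [2], [0, 0]], [[0, 2, 2, 2, 2], [2, 2, 2, 2, 2], [0, 0, 1], [2, 2, 2, 2, 2, 2]], [[2, 2, 2, 2, 2], [0, 0, 1], [2, 2, 2, 2, 2, 2]], [[2, 2, 2], [0, 2, 2], [2, 2], [0, 2], [2], [0, 0]], [[2, 2, 2, 2], [0, 2, 2, 2, 2], [2, 2, 2, 2, 2], [0, 0, 1], [2, 2, 2, 2, 2, 2]], [[0, 0, 1], [2, 2, 2, 2, 2, 2]], [[2, 2, 2, 2, 2, 2]], [[2], [0, 0]], [[0, 2], [2], [0, 0]], [[0, 0, 0]], [[1], [2, 2, 2, 2, 2, 2]]], [[], [], [],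 [], [], [], [[2, 2, 2]], [[2, 2, 2, 2]], [[2, 2, 2, 2, 2]], [[2, 2, 2, 2, 2, 2]], [[2]], [[2, 2]], [], [[]]]]

noncomputable def path (c : Fin 15) (a : Fin 14) : List (List (Fin 3)) :=
  ((pathN.getD c.1 []).getD a.1 []).map fun w => w.map (Fin.ofNat 3)

noncomputable def jnN : List (List ℕ) :=
  [[0, 1, 2, 3, 4, 5, 6], [1, 1, 6, 6, 4, 5, 6], [2, 6, 2, 3, 6, 6, 6], [3, 6, 3, 3, 6, 6, 6], [4, 4, 6, 6, 4, 6, 6], [5, 5, 6, 6, 6, 5, 6], [6, 6, 6, 6, 6, 6, 6]]

noncomputable def jn (s t : Fin 7) : Fin 7 := Fin.ofNat 7 (g2 jnN s.1 t.1)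

set_option maxHeartbeats 0 in
noncomputable def jpathN : List (List (List (List ℕ))) :=
  [[[[], [], [], [], [], [], [], [], [], [], [], [], [], []], [[], [0], [], [2], [], [4], [], [6], [], [8], [], [10], [0], [8]], [[], [], [], [], [], [], [3], [4], [5], [0], [1], [2], [], []], [[], [], [], [], [], [], [3], [4], [5], [0], [1], [2], [], [12]], [[], [0], [0], [0], [0], [0], [], [6], [6], [6], [6], [6], [0], [6]], [[], [0], [], [2], [], [4], [0], [0], [2], [2], [4], [4], [0], [2]], [[], [0], [0], [0], [0], [0], [0], [0], [0], [0], [0], [0], [0], [0]]], [[[], [0], [], [2], [], [4], [], [6], [], [8], [], [10], [0], [8]], [[], [0], [], [2], [], [4], [], [6], [], [8], [], [10], [0], [8]], [[], [0], [11, 10, 1, 0], [2, 11, 10, 1, 0], [5, 8, 9, 0], [8, 9, 0], [3, 2, 11, 10, 1, 0], [4, 5, 8, 9, 0], [9, 0], [0], [1, 0], [10, 1, 0], [0], [9, 0]], [[], [0], [11, 10, 1, 0], [2, 11, 10, 1, 0], [5, 8, 9, 0], [8, 9, 0], [3, 2, 11, 10, 1, 0], [4, 5, 8, 9, 0], [9, 0], [0],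 [1, 0], [10, 1, 0], [0], [9, 0]], [[], [0], [0], [0], [0], [0], [], [6], [6], [6], [6], [6], [0], [6]], [[], [0], [], [2], [], [4], [0], [0], [2], [2], [4], [4], [0], [2]], [[], [0], [0], [0], [0], [0], [0], [0], [0], [0], [0], [0], [0], [0]]], [[[], [], [], [], [], [], [3], [4], [5], [0], [1], [2], [], []], [[], [0], [11, 10, 1, 0], [2, 11, 10, 1, 0], [5, 8, 9, 0], [8, 9, 0], [3, 2, 11, 10, 1, 0], [4, 5, 8, 9, 0], [9, 0], [0], [1, 0], [10, 1, 0], [0], [9, 0]], [[], [], [], [], [], [], [3], [4], [5], [0], [1], [2], [], []], [[], [], [], [], [], [], [3], [4], [5], [0], [1], [2], [], [12]], [[], [0], [0], [0], [0], [0], [3, 0], [4, 0], [5, 0], [0], [1, 0], [2, 0], [0], [9, 0]], [[], [0], [9, 0], [6, 0], [7, 0], [4, 7, 0], [0], [0], [9, 0], [0], [1, 0], [2, 9, 0], [0], [9, 0]], [[], [0], [0], [0], [0], [0], [0], [0], [0], [0], [0], [0], [0], [0]]], [[[], [], [], [], [], [], [3], [4], [5], [0], [1], [2], [], [12]], [[], [0], [11, 10, 1, 0], [2, 11, 10, 1, 0],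 [5, 8, 9, 0], [8, 9, 0], [3, 2, 11, 10, 1, 0], [4, 5, 8, 9, 0], [9, 0], [0], [1, 0], [10, 1, 0], [0], [9, 0]], [[], [], [], [], [], [], [3], [4], [5], [0], [1], [2], [], [12]], [[], [], [], [], [], [], [3], [4], [5], [0], [1], [2], [], [12]], [[], [0], [0], [0], [0], [0], [3, 0], [4, 0], [5, 0], [0], [1, 0], [2, 0], [0], [9, 0]], [[], [0], [9, 0], [6, 0], [7, 0], [4, 7, 0], [0], [0], [9, 0], [0], [1, 0], [2, 9, 0], [0], [9, 0]], [[], [0], [0], [0], [0], [0], [0], [0], [0], [0], [0], [0], [0], [0]]], [[[], [0], [0], [0], [0], [0], [], [6], [6], [6], [6], [6], [0], [6]], [[], [0], [0], [0], [0], [0], [], [6], [6], [6], [6], [6], [0], [6]], [[], [0], [0], [0], [0], [0], [3, 0], [4, 0], [5, 0], [0], [1, 0], [2, 0], [0], [9, 0]], [[], [0], [0], [0], [0], [0], [3, 0], [4, 0], [5, 0], [0], [1, 0], [2, 0], [0], [9, 0]], [[], [0], [0], [0], [0], [0], [], [6], [6], [6], [6], [6], [0], [6]], [[], [0], [0], [0], [0], [0], [0], [0], [2, 0], [2, 0], [4, 0], [4, 0], [0],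 [2, 0]], [[], [0], [0], [0], [0], [0], [0], [0], [0], [0], [0], [0], [0], [0]]], [[[], [0], [], [2], [], [4], [0], [0], [2], [2], [4], [4], [0], [2]], [[], [0], [], [2], [], [4], [0], [0], [2], [2], [4], [4], [0], [2]], [[], [0], [9, 0], [6, 0], [7, 0], [4, 7, 0], [0], [0], [9, 0], [0], [1, 0], [2, 9, 0], [0], [9, 0]], [[], [0], [9, 0], [6, 0], [7, 0], [4, 7, 0], [0], [0], [9, 0], [0], [1, 0], [2, 9, 0], [0], [9, 0]], [[], [0], [0], [0], [0], [0], [0], [0], [2, 0], [2, 0], [4, 0], [4, 0], [0], [2, 0]], [[], [0], [], [2], [], [4], [0], [0], [2], [2], [4], [4], [0], [2]], [[], [0], [0], [0], [0], [0], [0], [0], [0], [0], [0], [0], [0], [0]]], [[[], [0], [0], [0], [0], [0], [0], [0], [0], [0], [0], [0], [0], [0]], [[], [0], [0], [0], [0], [0], [0], [0], [0], [0], [0], [0], [0], [0]], [[], [0], [0], [0], [0], [0], [0], [0], [0], [0], [0], [0], [0], [0]], [[], [0], [0], [0], [0], [0], [0], [0], [0], [0], [0], [0], [0], [0]], [[], [0], [0], [0], [0], [0], [0],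 [0], [0], [0], [0], [0], [0], [0]], [[], [0], [0], [0], [0], [0], [0], [0], [0], [0], [0], [0], [0], [0]], [[], [0], [0], [0], [0], [0], [0], [0], [0], [0], [0], [0], [0], [0]]]]

noncomputable def jpath (s t : Fin 7) (a : Fin 14) : List (Fin 14) :=
  (((jpathN.getD s.1 []).getD t.1 []).getD a.1 []).map (Fin.ofNat 14)

theorem hbot : ∀ a, lab 0 a = a := by decide +kernel

theorem h0 : ∀ t a, lab t (lab t a) = lab t a := by decide +kernel

theorem h1 : ∀ t i a, lab t (op i (lab t a)) = lab t (op i a) := by decide +kernel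

theorem h2 : ∀ s t, mk7 (bitsOf 28) s t = true ↔ ∀ a, lab t (lab s a) = lab t a := by
  decide +kernel

theorem h5 : ∀ s t, mk7 (bitsOf 28) s t = true → mk7 (bitsOf 28) t s = true → s = t := by
  decide +kernel

theorem h3a : ∀ u : Fin 14, ∀ u', u = u' ∨
    Cert.hits op (move u u') u u' (cp (cls u u')).1 (cp (cls u u')).2 = true := by
  decide +kernel

theorem h3b : ∀ c : Fin 15, ∀ a,
    Cert.walk op (cp c).1 (cp c).2 (path c a) a = lab (typ c) a := by
  decide +kernel

theorem h3c : ∀ u : Fin 14, ∀ u', lab (typ (cls u u')) u = lab (typ (cls u u')) u' := by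
  decide +kernel

theorem h4a : ∀ s t, mk7 (bitsOf 28) s (jn s t) = true ∧ mk7 (bitsOf 28) t (jn s t) = true := by
  decide +kernel

theorem h4b : ∀ s : Fin 7, ∀ t a,
    Cert.jwalk lab s t (jpath s t a) a = lab (jn s t) a := by
  decide +kernel

theorem rep : RepTable 7 (mk7 (bitsOf 28)) :=
  Cert.repTable_of_cert (by decide) _ op lab 0 cls cp move typ path jn jpath
    hbot h0 h1 h2 h5 h3a h3b h3c h4a h4b

end Vale.Agent.P183.Data.L10

namespace Vale.Agent.P183.Data.L15

noncomputable def g1 (l : List ℕ) (i : ℕ) : ℕ := l.getD i 0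

noncomputable def g2 (l : List (List ℕ)) (i j : ℕ) : ℕ := (l.getD i []).getD j 0

noncomputable def opD : ℕ := 1527800294633289999424225871311285693128445885098495164854237607330501913356800716460786434

noncomputable def op (i : Fin 3) (x : Fin 13) : Fin 13 :=
  Fin.ofNat 13 ((opD >>> (8 * (13 * i.1 + x.1))) &&& 255)

noncomputable def labD : ℕ := 8502455162436088456252881927923763865357324075917616535463691505421423399248016902192787308656841517119604289154614685937323860431932326476387892793745683633376795190700511994413449472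

noncomputable def lab (t : Fin 7) (x : Fin 13) : Fin 13 :=
  Fin.ofNat 13 ((labD >>> (8 * (13 * t.1 + x.1))) &&& 255)

noncomputable def clsR : List ℕ :=
  [715530584745108783179589812224, 3097319970537359909709152256, 81398212787194291552960645121, 161865552619714803226489391618, 239547461175769716701750429443, 320633775805712526796346493700, 397382388851245630743648601605, 478781820045596916011478813702, 238304666488832067484103541763, 557701659105341881877795310343, 79228200312148198826222748161, 633825347375466790246641240584, 2477122116729744837694259209]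

noncomputable def cls (u v : Fin 13) : Fin 13 :=
  Fin.ofNat 13 ((g1 clsR u.1 >>> (8 * v.1)) &&& 255)

noncomputable def cpA : List ℕ :=
  [0, 0, 0, 0, 0, 0, 0, 0, 0, 0, 1, 1, 1]

noncomputable def cpB : List ℕ :=
  [1, 2, 3, 4, 5, 6, 7, 9, 11, 12, 3, 5, 7]

noncomputable def cp (c : Fin 13) : Fin 13 × Fin 13 :=
  (Fin.ofNat 13 (g1 cpA c.1), Fin.ofNat 13 (g1 cpB c.1))

noncomputable def moveR : List ℕ :=
  [1766848749787906532384945666607768985342379790379997027087432027688927233, 906392557711297350253985395288352148415913923268459629300034174241091878913, 463168412163235568924515407561395956834567174371920485160151768272319306268673, 463168356962744767883461693812204536895246410691870659745046745354544782245889, 463168363851011141346629189263132794293231614589036797417860142205245855891457, 463168356962744767889640715832935837836751457491559525144426248030417299963905, 904626559885648878630420817958821582072582642007395584997654535900860776449, 463168357811983087899393405346477759812539264225496119058280392576584653996033,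 113078319985706109828802510170249546592587563765516589579007215376122511424, 463168357057104581218392385874419580399418268104558849993612375234631086112769, 14134789998202015162290594192769484696345099703873620476817092796401844232, 463168356950949791216583288901992759492355043007667409575360494732202441965569, 2208558830986237650844352447182068523455705207051942077310379722938515457]

noncomputable def dec : ℕ → ℕ → List (Fin 3)
  | 0, _ => []
  | f + 1, p => if p ≤ 1 then [] else Fin.ofNat 3 (p % 8) :: dec f (p / 8)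

noncomputable def move (u v : Fin 13) : List (Fin 3) :=
  dec 7 ((g1 moveR u.1 >>> (20 * v.1)) &&& 1048575)

noncomputable def typN : List ℕ :=
  [2, 6, 5, 3, 3, 4, 4, 3, 6, 1, 6, 3, 4]

noncomputable def typ (c : Fin 13) : Fin 7 := Fin.ofNat 7 (g1 typN c.1)

set_option maxHeartbeats 0 in
noncomputable def pathN : List (List (List (List ℕ))) :=
  [[[], [[]], [], [[0]], [], [[0, 0]], [], [[0, 0, 0]], [], [[1]], [], [[1, 0]], [[2]]], [[], [[0, 1, 0, 0]], [[]], [[0, 1, 0, 0, 0], []], [[0], []], [[0, 1, 0, 0, 0, 0], [0], []], [[0, 0], [0], []], [[0, 1, 0, 0, 0, 0, 0], [0, 0], [0], []], [[0, 0, 0, 0], [0, 0, 0, 0, 0]], [[0, 1], [0, 0, 0, 0], [0, 0, 0, 0, 0]], [[0, 0, 0, 0, 0]], [[0, 1, 0], [0, 0, 0, 0, 0]], [[0, 1, 2]]], [[], [], [], [[]], [], [[0]], [], [[0, 0]], [], [[0, 0, 0]], [[0, 0, 0, 0, 0]], [[0, 0, 0, 0]], [[2]]], [[], [[1, 0, 0]], [], [[1, 0, 0, 0]], [[]], [[1, 0, 0, 0, 0], []], [[0]], [[1, 0, 0, 0, 0, 0], [0]], [[0, 0, 0, 0]], [[1], [0, 0, 0, 0]],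 [[0, 0, 0, 0, 0]], [[1, 0], [0, 0, 0, 0, 0]], [[1, 2]]], [[], [[0, 1, 0, 0]], [], [[0, 1, 0, 0, 0]], [[0, 1, 0, 0, 0, 0], []], [[]], [[0, 1, 0, 0, 0, 0, 0], [0]], [[0]], [[0, 0, 0, 0], [0, 1, 0, 0]], [[0, 0], [0, 1, 0, 0, 0, 0], []], [[0, 0, 0, 0, 0], [0, 1, 0, 0, 0]], [[0, 0, 0], [0, 1, 0, 0, 0, 0, 0], [0]], [[2]]], [[], [[1, 0, 0]], [], [[1, 0, 0, 0]], [], [[1, 0, 0, 0, 0]], [[]], [[1, 0, 0, 0, 0, 0], []], [[0]], [[1], [0]], [[0, 0]], [[1, 0], [0, 0]], [[1, 2]]], [[], [[1, 0, 0]], [], [[1, 0, 0, 0]], [], [[1, 0, 0, 0, 0]], [[0, 0, 0], [1, 0, 0]], [[]], [[1], [0]], [[0]], [[1, 0], [0, 0]], [[0, 0]], [[2]]], [[], [[1, 0, 0]], [], [[1, 0, 0, 0]], [[0, 0], [1, 0, 0]], [[0, 0, 0, 0], [1], []], [[0, 0, 0], [1, 0, 0, 0]], [[0, 0, 0, 0, 0], [1, 0], [0]], [[1], []], [[]], [[1, 0], [0]], [[0]], [[2]]], [[], [[1, 0, 0]], [[0], [1, 0, 0]], [[1, 0, 0, 0], [0], [1, 0, 0]], [[0, 0], [1, 0, 0, 0], [0], [1, 0, 0]], [[1, 0, 0, 0, 0], [0, 0], [1, 0, 0, 0], [0], [1, 0, 0]],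 [[0, 0, 0], [1, 0, 0, 0, 0], [0, 0], [1, 0, 0, 0], [0], [1, 0, 0]], [[0, 0, 0, 0], [1], [0, 0, 0, 0, 0], [1, 0], []], [[1], [0, 0, 0, 0, 0], [1, 0], []], [[0, 0, 0, 0, 0], [1, 0], []], [[1, 0], []], [[]], [[2]]], [[], [], [], [], [], [], [], [], [], [], [], [], [[]]], [[], [[1, 0, 0]], [[1, 0, 0, 0], [], [1, 0, 0]], [[], [1, 0, 0]], [[1, 0, 0, 0, 0], [0], [], [1, 0, 0]], [[0], [], [1, 0, 0]], [[1, 0, 0, 0, 0, 0], [0, 0], [0], [], [1, 0, 0]], [[0, 0], [0], [], [1, 0, 0]], [[1], [0, 0, 0, 0], [0, 0, 0, 0, 0], [1, 0, 0]], [[0, 0, 0, 0], [0, 0, 0, 0, 0], [1, 0, 0]], [[1, 0], [0, 0, 0, 0, 0], [1, 0, 0]], [[0, 0, 0, 0, 0], [1, 0, 0]], [[1, 2]]], [[], [[1, 0, 0]], [], [[1, 0, 0, 0]], [[1, 0, 0, 0, 0], [], [1, 0, 0]], [[], [1, 0, 0]], [[1, 0, 0, 0, 0, 0], [0], [1, 0, 0, 0]], [[0], [1, 0, 0, 0]], [[1], [0, 0, 0, 0], [1, 0, 0]], [[0, 0, 0, 0], [1, 0, 0]], [[1, 0], [0, 0, 0, 0, 0], [1, 0, 0, 0]], [[0, 0, 0, 0, 0], [1, 0, 0, 0]], [[1, 2]]], [[], [[0, 1, 0, 0]], [],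 [[0, 1, 0, 0, 0]], [], [[0, 1, 0, 0, 0, 0]], [[0, 1, 0, 0, 0, 0, 0], [], [0, 1, 0, 0]], [[], [0, 1, 0, 0]], [[0, 1], [0], [0, 1, 0, 0, 0]], [[0], [0, 1, 0, 0, 0]], [[0, 1, 0], [0, 0], [0, 1, 0, 0, 0, 0]], [[0, 0], [0, 1, 0, 0, 0, 0]], [[0, 1, 2]]]]

noncomputable def path (c : Fin 13) (a : Fin 13) : List (List (Fin 3)) :=
  ((pathN.getD c.1 []).getD a.1 []).map fun w => w.map (Fin.ofNat 3)

noncomputable def jnN : List (List ℕ) :=
  [[0, 1, 2, 3, 4, 5, 6], [1, 1, 2, 3, 4, 5, 6], [2, 2, 2, 3, 4, 6, 6], [3, 3, 3, 3, 6, 6, 6], [4, 4, 4, 6, 4, 6, 6], [5, 5, 6, 6, 6, 5, 6], [6, 6, 6, 6, 6, 6, 6]]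

noncomputable def jn (s t : Fin 7) : Fin 7 := Fin.ofNat 7 (g2 jnN s.1 t.1)

set_option maxHeartbeats 0 in
noncomputable def jpathN : List (List (List (List ℕ))) :=
  [[[[], [], [], [], [], [], [], [], [], [], [], [], []], [[], [], [], [], [], [], [], [], [], [], [], [], [0]], [[], [0], [], [2], [], [4], [], [6], [], [8], [], [10], [0]], [[], [0], [], [2], [0], [0], [2], [2], [0], [0], [2], [2], [0]], [[], [0], [], [2], [], [4], [0], [0], [2], [2], [4], [4], [0]], [[], [], [], [0], [], [2], [], [4], [], [6], [1], [8], [0]], [[], [0], [0], [0], [0], [0], [0], [0], [0], [0], [0], [0], [0]]], [[[], [], [], [], [], [], [], [], [], [], [], [], [0]], [[], [], [], [], [], [], [], [], [], [], [], [], [0]], [[], [0], [], [2], [], [4], [], [6], [], [8], [], [10], [0]], [[], [0], [], [2], [0], [0], [2], [2], [0], [0], [2], [2], [0]], [[], [0], [], [2], [], [4], [0], [0], [2], [2], [4], [4], [0]], [[], [], [], [0], [], [2], [], [4], [], [6], [1], [8], [0]], [[], [0],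 [0], [0], [0], [0], [0], [0], [0], [0], [0], [0], [0]]], [[[], [0], [], [2], [], [4], [], [6], [], [8], [], [10], [0]], [[], [0], [], [2], [], [4], [], [6], [], [8], [], [10], [0]], [[], [0], [], [2], [], [4], [], [6], [], [8], [], [10], [0]], [[], [0], [], [2], [0], [0], [2], [2], [0], [0], [2], [2], [0]], [[], [0], [], [2], [], [4], [0], [0], [2], [2], [4], [4], [0]], [[], [0], [3, 0], [0], [5, 2, 3, 0], [2, 3, 0], [7, 4, 5, 2, 3, 0], [4, 5, 2, 3, 0], [11, 10, 1, 0], [8, 11, 10, 1, 0], [1, 0], [10, 1, 0], [0]], [[], [0], [0], [0], [0], [0], [0], [0], [0], [0], [0], [0], [0]]], [[[], [0], [], [2], [0], [0], [2], [2], [0], [0], [2], [2], [0]], [[], [0], [], [2], [0], [0], [2], [2], [0], [0], [2], [2], [0]], [[], [0], [], [2], [0], [0], [2], [2], [0], [0], [2], [2], [0]], [[], [0], [], [2], [0], [0], [2], [2], [0], [0], [2], [2], [0]], [[], [0], [6, 0], [6, 0], [0], [0], [0], [0], [0], [0], [4, 0], [4, 0], [0]], [[], [0], [3, 0], [0], [0], [0], [3, 0], [3,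 0], [0], [0], [1, 0], [3, 0], [0]], [[], [0], [0], [0], [0], [0], [0], [0], [0], [0], [0], [0], [0]]], [[[], [0], [], [2], [], [4], [0], [0], [2], [2], [4], [4], [0]], [[], [0], [], [2], [], [4], [0], [0], [2], [2], [4], [4], [0]], [[], [0], [], [2], [], [4], [0], [0], [2], [2], [4], [4], [0]], [[], [0], [6, 0], [6, 0], [0], [0], [0], [0], [0], [0], [4, 0], [4, 0], [0]], [[], [0], [], [2], [], [4], [0], [0], [2], [2], [4], [4], [0]], [[], [0], [3, 0], [0], [7, 0], [2, 3, 0], [0], [0], [3, 0], [3, 0], [1, 0], [4, 7, 0], [0]], [[], [0], [0], [0], [0], [0], [0], [0], [0], [0], [0], [0], [0]]], [[[], [], [], [0], [], [2], [], [4], [], [6], [1], [8], [0]], [[], [], [], [0], [], [2], [], [4], [], [6], [1], [8], [0]], [[], [0], [3, 0], [0], [5, 2, 3, 0], [2, 3, 0], [7, 4, 5, 2, 3, 0], [4, 5, 2, 3, 0], [11, 10, 1, 0], [8, 11, 10, 1, 0], [1, 0], [10, 1, 0], [0]], [[], [0], [3, 0], [0], [0], [0], [3, 0], [3, 0], [0], [0], [1, 0], [3, 0], [0]], [[], [0], [3, 0], [0],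 [7, 0], [2, 3, 0], [0], [0], [3, 0], [3, 0], [1, 0], [4, 7, 0], [0]], [[], [], [], [0], [], [2], [], [4], [], [6], [1], [8], [0]], [[], [0], [0], [0], [0], [0], [0], [0], [0], [0], [0], [0], [0]]], [[[], [0], [0], [0], [0], [0], [0], [0], [0], [0], [0], [0], [0]], [[], [0], [0], [0], [0], [0], [0], [0], [0], [0], [0], [0], [0]], [[], [0], [0], [0], [0], [0], [0], [0], [0], [0], [0], [0], [0]], [[], [0], [0], [0], [0], [0], [0], [0], [0], [0], [0], [0], [0]], [[], [0], [0], [0], [0], [0], [0], [0], [0], [0], [0], [0], [0]], [[], [0], [0], [0], [0], [0], [0], [0], [0], [0], [0], [0], [0]], [[], [0], [0], [0], [0], [0], [0], [0], [0], [0], [0], [0], [0]]]]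

noncomputable def jpath (s t : Fin 7) (a : Fin 13) : List (Fin 13) :=
  (((jpathN.getD s.1 []).getD t.1 []).getD a.1 []).map (Fin.ofNat 13)

theorem hbot : ∀ a, lab 0 a = a := by decide +kernel

theorem h0 : ∀ t a, lab t (lab t a) = lab t a := by decide +kernel

theorem h1 : ∀ t i a, lab t (op i (lab t a)) = lab t (op i a) := by decide +kernel

theorem h2 : ∀ s t, mk7 (bitsOf 63) s t = true ↔ ∀ a, lab t (lab s a) = lab t a := by
  decide +kernel

theorem h5 : ∀ s t, mk7 (bitsOf 63) s t = true → mk7 (bitsOf 63) t s = true → s = t := by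
  decide +kernel

theorem h3a : ∀ u : Fin 13, ∀ u', u = u' ∨
    Cert.hits op (move u u') u u' (cp (cls u u')).1 (cp (cls u u')).2 = true := by
  decide +kernel

theorem h3b : ∀ c : Fin 13, ∀ a,
    Cert.walk op (cp c).1 (cp c).2 (path c a) a = lab (typ c) a := by
  decide +kernel

theorem h3c : ∀ u : Fin 13, ∀ u', lab (typ (cls u u')) u = lab (typ (cls u u')) u' := by
  decide +kernel

theorem h4a : ∀ s t, mk7 (bitsOf 63) s (jn s t) = true ∧ mk7 (bitsOf 63) t (jn s t) = true := by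
  decide +kernel

theorem h4b : ∀ s : Fin 7, ∀ t a,
    Cert.jwalk lab s t (jpath s t a) a = lab (jn s t) a := by
  decide +kernel

theorem rep : RepTable 7 (mk7 (bitsOf 63)) :=
  Cert.repTable_of_cert (by decide) _ op lab 0 cls cp move typ path jn jpath
    hbot h0 h1 h2 h5 h3a h3b h3c h4a h4b

end Vale.Agent.P183.Data.L15

namespace Vale.Agent.P183.Data.L19

noncomputable def g1 (l : List ℕ) (i : ℕ) : ℕ := l.getD i 0

noncomputable def g2 (l : List (List ℕ)) (i j : ℕ) : ℕ := (l.getD i []).getD j 0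

noncomputable def opD : ℕ := 15637975490121351315081434845414149

noncomputable def op (i : Fin 3) (x : Fin 6) : Fin 6 :=
  Fin.ofNat 6 ((opD >>> (8 * (6 * i.1 + x.1))) &&& 255)

noncomputable def labD : ℕ := 5850861256082505564599773074751974014739397818290099426150522773928570793067379032320

noncomputable def lab (t : Fin 7) (x : Fin 6) : Fin 6 :=
  Fin.ofNat 6 ((labD >>> (8 * (6 * t.1 + x.1))) &&& 255)

noncomputable def clsR : List ℕ :=
  [3307141595136, 6618611712000, 9930081828864, 459777, 525570, 591363]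

noncomputable def cls (u v : Fin 6) : Fin 10 :=
  Fin.ofNat 10 ((g1 clsR u.1 >>> (8 * v.1)) &&& 255)

noncomputable def cpA : List ℕ :=
  [0, 0, 0, 0, 1, 1, 1, 2, 2, 2]

noncomputable def cpB : List ℕ :=
  [1, 3, 4, 5, 3, 4, 5, 3, 4, 5]

noncomputable def cp (c : Fin 10) : Fin 6 × Fin 6 :=
  (Fin.ofNat 6 (g1 cpA c.1), Fin.ofNat 6 (g1 cpB c.1))

noncomputable def moveR : List ℕ :=
  [1103828091137, 1103823962369, 1103823440200, 79478386655489, 9901124419841, 1139374358785]

noncomputable def dec : ℕ → ℕ → List (Fin 3)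
  | 0, _ => []
  | f + 1, p => if p ≤ 1 then [] else Fin.ofNat 3 (p % 8) :: dec f (p / 8)

noncomputable def move (u v : Fin 6) : List (Fin 3) :=
  dec 3 ((g1 moveR u.1 >>> (8 * v.1)) &&& 255)

noncomputable def typN : List ℕ :=
  [5, 1, 6, 6, 6, 2, 6, 6, 6, 3]

noncomputable def typ (c : Fin 10) : Fin 7 := Fin.ofNat 7 (g1 typN c.1)

set_option maxHeartbeats 0 in
noncomputable def pathN : List (List (List (List ℕ))) :=
  [[[], [[]], [[0, 1]], [], [[1, 0]], [[0]]], [[], [], [], [[]], [], []], [[], [[1, 1]], [[0, 1]], [[2]], [[]], [[0], [2]]], [[], [[0, 1]], [[1]], [[2]], [[0], []], [[]]], [[], [[1, 1]], [[0, 1]], [[2]], [[1, 0], [2]], [[0], [2]]], [[], [], [], [[2]], [[]], []], [[], [[1]], [[0, 0, 1]], [[2]], [[0], [2]], [[], [1]]], [[], [[0, 1]], [[1]], [[2]], [[0, 0], [2]], [[0, 0, 0], [2]]], [[], [[1]], [[0, 0, 1]], [[2]], [[], [0, 0, 1]], [[0, 0], [2]]], [[], [], [], [[2]], [], [[]]]]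

noncomputable def path (c : Fin 10) (a : Fin 6) : List (List (Fin 3)) :=
  ((pathN.getD c.1 []).getD a.1 []).map fun w => w.map (Fin.ofNat 3)

noncomputable def jnN : List (List ℕ) :=
  [[0, 1, 2, 3, 4, 5, 6], [1, 1, 2, 3, 4, 6, 6], [2, 2, 2, 4, 4, 6, 6], [3, 3, 4, 3, 4, 6, 6], [4, 4, 4, 4, 4, 6, 6], [5, 6, 6, 6, 6, 5, 6], [6, 6, 6, 6, 6, 6, 6]]

noncomputable def jn (s t : Fin 7) : Fin 7 := Fin.ofNat 7 (g2 jnN s.1 t.1)

set_option maxHeartbeats 0 in
noncomputable def jpathN : List (List (List (List ℕ))) :=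
  [[[[], [], [], [], [], []], [[], [], [], [0], [], []], [[], [], [], [0], [1], []], [[], [], [], [0], [], [2]], [[], [], [], [0], [1], [2]], [[], [0], [0], [], [3], [3]], [[], [0], [0], [0], [0], [0]]], [[[], [], [], [0], [], []], [[], [], [], [0], [], []], [[], [], [], [0], [1], []], [[], [], [], [0], [], [2]], [[], [], [], [0], [1], [2]], [[], [0], [0], [0], [3, 0], [3, 0]], [[], [0], [0], [0], [0], [0]]], [[[], [], [], [0], [1], []], [[], [], [], [0], [1], []], [[], [], [], [0], [1], []], [[], [], [], [0], [1], [2]], [[], [], [], [0], [1], [2]], [[], [0], [0], [0], [1, 0], [3, 0]], [[], [0], [0], [0], [0], [0]]], [[[], [], [], [0], [], [2]], [[], [], [], [0], [], [2]], [[], [], [], [0], [1], [2]], [[], [], [], [0], [], [2]], [[], [], [], [0], [1], [2]], [[], [0], [0], [0], [3, 0], [2, 0]], [[], [0], [0], [0], [0], [0]]], [[[], [], [], [0], [1], [2]], [[], [], [], [0], [1], [2]], [[], [], [], [0], [1], [2]], [[], [], [], [0], [1], [2]], [[], [], [], [0],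 [1], [2]], [[], [0], [0], [0], [1, 0], [2, 0]], [[], [0], [0], [0], [0], [0]]], [[[], [0], [0], [], [3], [3]], [[], [0], [0], [0], [3, 0], [3, 0]], [[], [0], [0], [0], [1, 0], [3, 0]], [[], [0], [0], [0], [3, 0], [2, 0]], [[], [0], [0], [0], [1, 0], [2, 0]], [[], [0], [0], [], [3], [3]], [[], [0], [0], [0], [0], [0]]], [[[], [0], [0], [0], [0], [0]], [[], [0], [0], [0], [0], [0]], [[], [0], [0], [0], [0], [0]], [[], [0], [0], [0], [0], [0]], [[], [0], [0], [0], [0], [0]], [[], [0], [0], [0], [0], [0]], [[], [0], [0], [0], [0], [0]]]]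

noncomputable def jpath (s t : Fin 7) (a : Fin 6) : List (Fin 6) :=
  (((jpathN.getD s.1 []).getD t.1 []).getD a.1 []).map (Fin.ofNat 6)

theorem hbot : ∀ a, lab 0 a = a := by decide +kernel

theorem h0 : ∀ t a, lab t (lab t a) = lab t a := by decide +kernel

theorem h1 : ∀ t i a, lab t (op i (lab t a)) = lab t (op i a) := by decide +kernel

theorem h2 : ∀ s t, mk7 (bitsOf 167) s t = true ↔ ∀ a, lab t (lab s a) = lab t a := by
  decide +kernel

theorem h5 : ∀ s t, mk7 (bitsOf 167) s t = true → mk7 (bitsOf 167) t s = true → s = t := by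
  decide +kernel

theorem h3a : ∀ u : Fin 6, ∀ u', u = u' ∨
    Cert.hits op (move u u') u u' (cp (cls u u')).1 (cp (cls u u')).2 = true := by
  decide +kernel

theorem h3b : ∀ c : Fin 10, ∀ a,
    Cert.walk op (cp c).1 (cp c).2 (path c a) a = lab (typ c) a := by
  decide +kernel

theorem h3c : ∀ u : Fin 6, ∀ u', lab (typ (cls u u')) u = lab (typ (cls u u')) u' := by
  decide +kernel

theorem h4a : ∀ s t, mk7 (bitsOf 167) s (jn s t) = true ∧ mk7 (bitsOf 167) t (jn s t) = true := by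
  decide +kernel

theorem h4b : ∀ s : Fin 7, ∀ t a,
    Cert.jwalk lab s t (jpath s t a) a = lab (jn s t) a := by
  decide +kernel

theorem rep : RepTable 7 (mk7 (bitsOf 167)) :=
  Cert.repTable_of_cert (by decide) _ op lab 0 cls cp move typ path jn jpath
    hbot h0 h1 h2 h5 h3a h3b h3c h4a h4b

end Vale.Agent.P183.Data.L19

namespace Vale.Agent.P183.Data.L20

noncomputable def g1 (l : List ℕ) (i : ℕ) : ℕ := l.getD i 0

noncomputable def g2 (l : List (List ℕ)) (i j : ℕ) : ℕ := (l.getD i []).getD j 0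

noncomputable def opD : ℕ := 147601103132454264148198408880488348486313246791907148033

noncomputable def op (i : Fin 3) (x : Fin 8) : Fin 8 :=
  Fin.ofNat 8 ((opD >>> (8 * (8 * i.1 + x.1))) &&& 255)

noncomputable def labD : ℕ := 618070685289733094116370983940410331911651915277511584852014121608087561133461740832103043109497484007255633428736

noncomputable def lab (t : Fin 7) (x : Fin 8) : Fin 8 :=
  Fin.ofNat 8 ((labD >>> (8 * (8 * t.1 + x.1))) &&& 255)

noncomputable def clsR : List ℕ :=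
  [433757350076153856, 795458214266273792, 289081419626447361, 650782283732616962, 168101891, 184944900, 134416901, 151259910]

noncomputable def cls (u v : Fin 8) : Fin 12 :=
  Fin.ofNat 12 ((g1 clsR u.1 >>> (8 * v.1)) &&& 255)

noncomputable def cpA : List ℕ :=
  [0, 0, 0, 0, 0, 0, 0, 1, 1, 1, 1, 1]

noncomputable def cpB : List ℕ :=
  [1, 2, 3, 4, 5, 6, 7, 3, 4, 5, 6, 7]

noncomputable def cp (c : Fin 12) : Fin 8 × Fin 8 :=
  (Fin.ofNat 8 (g1 cpA c.1), Fin.ofNat 8 (g1 cpB c.1))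

noncomputable def moveR : List ℕ :=
  [72340172838076673, 72340172838600961, 651061555542165761, 651061555408470273, 578785124331094273, 578713935248163073, 4756091512084300033, 90643773105176833]

noncomputable def dec : ℕ → ℕ → List (Fin 3)
  | 0, _ => []
  | f + 1, p => if p ≤ 1 then [] else Fin.ofNat 3 (p % 8) :: dec f (p / 8)

noncomputable def move (u v : Fin 8) : List (Fin 3) :=
  dec 3 ((g1 moveR u.1 >>> (8 * v.1)) &&& 255)

noncomputable def typN : List ℕ :=
  [1, 5, 5, 2, 6, 6, 6, 5, 6, 3, 6, 6]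

noncomputable def typ (c : Fin 12) : Fin 7 := Fin.ofNat 7 (g1 typN c.1)

set_option maxHeartbeats 0 in
noncomputable def pathN : List (List (List (List ℕ))) :=
  [[[], [[]], [], [[1]], [], [[2, 2, 1]], [[1, 2], [2, 2, 1]], [[1, 2, 1]]], [[], [[0]], [[]], [[0, 1], []], [], [[0, 2, 2, 1]], [[0, 1, 2], [0, 2, 2, 1]], [[0, 1, 2, 1]]], [[], [[0]], [[1], [0]], [[]], [], [[0, 2, 2, 1]], [[2], [0, 2, 2, 1]], [[2, 1]]], [[], [], [], [], [[]], [], [[1]], []], [[], [[2, 0]], [[1], [2], []], [[2, 0, 1], [1], [2], []], [[2, 2, 1], []], [[]], [[1, 2], []], [[2], []]], [[], [[0]], [[1], [0, 1, 2, 1], [0, 2, 2], []], [[0, 1], [1], [0, 1, 2, 1], [0, 2, 2], []], [[0, 1, 2, 1], [0, 2, 2], []], [[0, 1, 2], []], [[]], [[0, 2, 2], []]], [[], [[0]], [[1], [0, 2], []], [[0, 1], [1], [0, 2], []], [[2, 1], []], [[0, 2], []], [[0, 2, 2], []], [[]]], [[], [[0]], [[0, 1], [], [0]], [[], [0]], [], [[2, 1]], [[2], [2, 2, 1]], [[2, 2, 1]]], [[], [[2, 0]], [[2, 0, 1], [1], [1, 2], [2,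 2, 1], [], [2, 0]], [[1], [1, 2], [2, 2, 1], [], [2, 0]], [[], [2, 0]], [[2, 2, 1], [], [2, 0]], [[1, 2], [2, 2, 1], [], [2, 0]], [[1, 2, 1], [], [2, 0]]], [[], [], [], [], [], [[]], [], [[1]]], [[], [[0]], [[0, 1], [1], [1, 2, 1], [2, 2], [], [0]], [[1], [1, 2, 1], [2, 2], [], [0]], [[1, 2, 1], [2, 2], [], [0]], [[1, 2], [], [0]], [[], [0]], [[2, 2], [], [0]]], [[], [[0]], [[0, 1], [1], [0, 2], [], [0]], [[1], [0, 2], [], [0]], [[2, 2, 1], [], [0]], [[0, 2], [], [0]], [[2], [], [0]], [[], [0]]]]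

noncomputable def path (c : Fin 12) (a : Fin 8) : List (List (Fin 3)) :=
  ((pathN.getD c.1 []).getD a.1 []).map fun w => w.map (Fin.ofNat 3)

noncomputable def jnN : List (List ℕ) :=
  [[0, 1, 2, 3, 4, 5, 6], [1, 1, 6, 6, 6, 5, 6], [2, 6, 2, 4, 4, 6, 6], [3, 6, 4, 3, 4, 6, 6], [4, 6, 4, 4, 4, 6, 6], [5, 5, 6, 6, 6, 5, 6], [6, 6, 6, 6, 6, 6, 6]]

noncomputable def jn (s t : Fin 7) : Fin 7 := Fin.ofNat 7 (g2 jnN s.1 t.1)

set_option maxHeartbeats 0 in
noncomputable def jpathN : List (List (List (List ℕ))) :=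
  [[[[], [], [], [], [], [], [], []], [[], [0], [], [2], [], [4], [4], [4]], [[], [], [], [], [0], [], [2], []], [[], [], [], [], [], [1], [], [3]], [[], [], [], [], [0], [1], [2], [3]], [[], [0], [0], [0], [], [4], [4], [4]], [[], [0], [0], [0], [0], [0], [0], [0]]], [[[], [0], [], [2], [], [4], [4], [4]], [[], [0], [], [2], [], [4], [4], [4]], [[], [0], [6, 4, 0], [2, 6, 4, 0], [0], [4, 0], [4, 0], [4, 0]], [[], [0], [3, 7, 5, 1, 0], [7, 5, 1, 0], [5, 1, 0], [1, 0], [5, 1, 0], [5, 1, 0]], [[], [0], [6, 4, 0], [7, 4, 0], [0], [1, 0], [4, 0], [4, 0]], [[], [0], [0], [0], [], [4], [4], [4]], [[], [0], [0], [0], [0], [0], [0], [0]]], [[[], [], [], [], [0], [], [2], []], [[], [0], [6, 4, 0], [2, 6, 4, 0], [0], [4, 0], [4, 0], [4, 0]], [[], [], [], [], [0], [], [2], []], [[], [], [], [], [0], [1], [2], [3]], [[], [], [], [], [0], [1], [2], [3]], [[], [0], [0], [0], [0], [4, 0], [2, 0], [4, 0]], [[], [0], [0], [0], [0], [0], [0], [0]]], [[[], [], [], [], [],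 [1], [], [3]], [[], [0], [3, 7, 5, 1, 0], [7, 5, 1, 0], [5, 1, 0], [1, 0], [5, 1, 0], [5, 1, 0]], [[], [], [], [], [0], [1], [2], [3]], [[], [], [], [], [], [1], [], [3]], [[], [], [], [], [0], [1], [2], [3]], [[], [0], [0], [0], [5, 1, 0], [1, 0], [5, 1, 0], [3, 0]], [[], [0], [0], [0], [0], [0], [0], [0]]], [[[], [], [], [], [0], [1], [2], [3]], [[], [0], [6, 4, 0], [7, 4, 0], [0], [1, 0], [4, 0], [4, 0]], [[], [], [], [], [0], [1], [2], [3]], [[], [], [], [], [0], [1], [2], [3]], [[], [], [], [], [0], [1], [2], [3]], [[], [0], [0], [0], [0], [1, 0], [2, 0], [3, 0]], [[], [0], [0], [0], [0], [0], [0], [0]]], [[[], [0], [0], [0], [], [4], [4], [4]], [[], [0], [0], [0], [], [4], [4], [4]], [[], [0], [0], [0], [0], [4, 0], [2, 0], [4, 0]], [[], [0], [0], [0], [5, 1, 0], [1, 0], [5, 1, 0], [3, 0]], [[], [0], [0], [0], [0], [1, 0], [2, 0], [3, 0]], [[], [0], [0], [0], [], [4], [4], [4]], [[], [0], [0], [0], [0], [0], [0], [0]]], [[[], [0], [0], [0], [0], [0],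 [0], [0]], [[], [0], [0], [0], [0], [0], [0], [0]], [[], [0], [0], [0], [0], [0], [0], [0]], [[], [0], [0], [0], [0], [0], [0], [0]], [[], [0], [0], [0], [0], [0], [0], [0]], [[], [0], [0], [0], [0], [0], [0], [0]], [[], [0], [0], [0], [0], [0], [0], [0]]]]

noncomputable def jpath (s t : Fin 7) (a : Fin 8) : List (Fin 8) :=
  (((jpathN.getD s.1 []).getD t.1 []).getD a.1 []).map (Fin.ofNat 8)

theorem hbot : ∀ a, lab 0 a = a := by decide +kernel

theorem h0 : ∀ t a, lab t (lab t a) = lab t a := by decide +kernel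

theorem h1 : ∀ t i a, lab t (op i (lab t a)) = lab t (op i a) := by decide +kernel

theorem h2 : ∀ s t, mk7 (bitsOf 168) s t = true ↔ ∀ a, lab t (lab s a) = lab t a := by
  decide +kernel

theorem h5 : ∀ s t, mk7 (bitsOf 168) s t = true → mk7 (bitsOf 168) t s = true → s = t := by
  decide +kernel

theorem h3a : ∀ u : Fin 8, ∀ u', u = u' ∨
    Cert.hits op (move u u') u u' (cp (cls u u')).1 (cp (cls u u')).2 = true := by
  decide +kernel

theorem h3b : ∀ c : Fin 12, ∀ a,
    Cert.walk op (cp c).1 (cp c).2 (path c a) a = lab (typ c) a := by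
  decide +kernel

theorem h3c : ∀ u : Fin 8, ∀ u', lab (typ (cls u u')) u = lab (typ (cls u u')) u' := by
  decide +kernel

theorem h4a : ∀ s t, mk7 (bitsOf 168) s (jn s t) = true ∧ mk7 (bitsOf 168) t (jn s t) = true := by
  decide +kernel

theorem h4b : ∀ s : Fin 7, ∀ t a,
    Cert.jwalk lab s t (jpath s t a) a = lab (jn s t) a := by
  decide +kernel

theorem rep : RepTable 7 (mk7 (bitsOf 168)) :=
  Cert.repTable_of_cert (by decide) _ op lab 0 cls cp move typ path jn jpath
    hbot h0 h1 h2 h5 h3a h3b h3c h4a h4b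

end Vale.Agent.P183.Data.L20

namespace Vale.Agent.P183.Data.L23

noncomputable def g1 (l : List ℕ) (i : ℕ) : ℕ := l.getD i 0

noncomputable def g2 (l : List (List ℕ)) (i j : ℕ) : ℕ := (l.getD i []).getD j 0

noncomputable def opD : ℕ := 15617614782014418224863021489128196

noncomputable def op (i : Fin 3) (x : Fin 5) : Fin 5 :=
  Fin.ofNat 5 ((opD >>> (8 * (5 * i.1 + x.1))) &&& 255)

noncomputable def labD : ℕ := 13857623211498790584916011213056011307204634038630846175492954319356160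

noncomputable def lab (t : Fin 7) (x : Fin 5) : Fin 5 :=
  Fin.ofNat 5 ((labD >>> (8 * (5 * t.1 + x.1))) &&& 255)

noncomputable def clsR : List ℕ :=
  [12918521856, 25853952000, 117441537, 460034, 1539]

noncomputable def cls (u v : Fin 5) : Fin 8 :=
  Fin.ofNat 8 ((g1 clsR u.1 >>> (8 * v.1)) &&& 255)

noncomputable def cpA : List ℕ :=
  [0, 0, 0, 0, 1, 1, 1, 2]

noncomputable def cpB : List ℕ :=
  [1, 2, 3, 4, 2, 3, 4, 3]

noncomputable def cp (c : Fin 8) : Fin 5 × Fin 5 :=
  (Fin.ofNat 5 (g1 cpA c.1), Fin.ofNat 5 (g1 cpB c.1))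

noncomputable def moveR : List ℕ :=
  [1082401, 1082401, 9471009, 9471009, 1352737]

noncomputable def dec : ℕ → ℕ → List (Fin 3)
  | 0, _ => []
  | f + 1, p => if p ≤ 1 then [] else Fin.ofNat 3 (p % 8) :: dec f (p / 8)

noncomputable def move (u v : Fin 5) : List (Fin 3) :=
  dec 2 ((g1 moveR u.1 >>> (5 * v.1)) &&& 31)

noncomputable def typN : List ℕ :=
  [5, 6, 6, 3, 2, 2, 6, 1]

noncomputable def typ (c : Fin 8) : Fin 7 := Fin.ofNat 7 (g1 typN c.1)

set_option maxHeartbeats 0 in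
noncomputable def pathN : List (List (List (List ℕ))) :=
  [[[], [[]], [], [[2]], [[0], [2]]], [[], [[1]], [[]], [[0, 2], []], [[0], [0, 2], []]], [[], [[1]], [[0, 2], []], [[]], [[0], []]], [[], [], [], [[2]], [[]]], [[], [], [[]], [[2], []], []], [[], [], [[2], []], [[]], []], [[], [[1]], [[0, 2], [0], [], [1]], [[0], [], [1]], [[], [1]]], [[], [], [], [[]], []]]

noncomputable def path (c : Fin 8) (a : Fin 5) : List (List (Fin 3)) :=
  ((pathN.getD c.1 []).getD a.1 []).map fun w => w.map (Fin.ofNat 3)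

noncomputable def jnN : List (List ℕ) :=
  [[0, 1, 2, 3, 4, 5, 6], [1, 1, 2, 3, 4, 5, 6], [2, 2, 2, 4, 4, 6, 6], [3, 3, 4, 3, 4, 6, 6], [4, 4, 4, 4, 4, 6, 6], [5, 5, 6, 6, 6, 5, 6], [6, 6, 6, 6, 6, 6, 6]]

noncomputable def jn (s t : Fin 7) : Fin 7 := Fin.ofNat 7 (g2 jnN s.1 t.1)

set_option maxHeartbeats 0 in
noncomputable def jpathN : List (List (List (List ℕ))) :=
  [[[[], [], [], [], []], [[], [], [], [2], []], [[], [], [1], [1], []], [[], [], [], [2], [0]], [[], [], [1], [1], [0]], [[], [0], [], [2], [2]], [[], [0], [0], [0], [0]]], [[[], [], [], [2], []], [[], [], [], [2], []], [[], [], [1], [1], []], [[], [], [], [2], [0]], [[], [], [1], [1], [0]], [[], [0], [], [2], [2]], [[], [0], [0], [0], [0]]], [[[], [], [1], [1], []], [[], [], [1], [1], []], [[], [], [1], [1], []], [[], [], [1], [1], [0]], [[], [], [1], [1], [0]], [[], [0], [1, 0], [1, 0], [2, 1, 0]], [[], [0], [0], [0], [0]]], [[[], [], [], [2], [0]], [[], [], [], [2], [0]], [[], [], [1],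 [1], [0]], [[], [], [], [2], [0]], [[], [], [1], [1], [0]], [[], [0], [4, 0], [4, 0], [0]], [[], [0], [0], [0], [0]]], [[[], [], [1], [1], [0]], [[], [], [1], [1], [0]], [[], [], [1], [1], [0]], [[], [], [1], [1], [0]], [[], [], [1], [1], [0]], [[], [0], [1, 0], [1, 0], [0]], [[], [0], [0], [0], [0]]], [[[], [0], [], [2], [2]], [[], [0], [], [2], [2]], [[], [0], [1, 0], [1, 0], [2, 1, 0]], [[], [0], [4, 0], [4, 0], [0]], [[], [0], [1, 0], [1, 0], [0]], [[], [0], [], [2], [2]], [[], [0], [0], [0], [0]]], [[[], [0], [0], [0], [0]], [[], [0], [0], [0], [0]], [[], [0], [0], [0], [0]], [[], [0], [0], [0], [0]], [[], [0], [0], [0], [0]], [[], [0], [0], [0], [0]], [[], [0], [0], [0], [0]]]]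

noncomputable def jpath (s t : Fin 7) (a : Fin 5) : List (Fin 5) :=
  (((jpathN.getD s.1 []).getD t.1 []).getD a.1 []).map (Fin.ofNat 5)

theorem hbot : ∀ a, lab 0 a = a := by decide +kernel

theorem h0 : ∀ t a, lab t (lab t a) = lab t a := by decide +kernel

theorem h1 : ∀ t i a, lab t (op i (lab t a)) = lab t (op i a) := by decide +kernel

theorem h2 : ∀ s t, mk7 (bitsOf 175) s t = true ↔ ∀ a, lab t (lab s a) = lab t a := by
  decide +kernel

theorem h5 : ∀ s t, mk7 (bitsOf 175) s t = true → mk7 (bitsOf 175) t s = true → s = t := by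
  decide +kernel

theorem h3a : ∀ u : Fin 5, ∀ u', u = u' ∨
    Cert.hits op (move u u') u u' (cp (cls u u')).1 (cp (cls u u')).2 = true := by
  decide +kernel

theorem h3b : ∀ c : Fin 8, ∀ a,
    Cert.walk op (cp c).1 (cp c).2 (path c a) a = lab (typ c) a := by
  decide +kernel

theorem h3c : ∀ u : Fin 5, ∀ u', lab (typ (cls u u')) u = lab (typ (cls u u')) u' := by
  decide +kernel

theorem h4a : ∀ s t, mk7 (bitsOf 175) s (jn s t) = true ∧ mk7 (bitsOf 175) t (jn s t) = true := by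
  decide +kernel

theorem h4b : ∀ s : Fin 7, ∀ t a,
    Cert.jwalk lab s t (jpath s t a) a = lab (jn s t) a := by
  decide +kernel

theorem rep : RepTable 7 (mk7 (bitsOf 175)) :=
  Cert.repTable_of_cert (by decide) _ op lab 0 cls cp move typ path jn jpath
    hbot h0 h1 h2 h5 h3a h3b h3c h4a h4b

end Vale.Agent.P183.Data.L23

namespace Vale.Agent.P183.Data.L33

noncomputable def g1 (l : List ℕ) (i : ℕ) : ℕ := l.getD i 0

noncomputable def g2 (l : List (List ℕ)) (i j : ℕ) : ℕ := (l.getD i []).getD j 0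

noncomputable def opD : ℕ := 15637896883351504702574451010765824

noncomputable def op (i : Fin 3) (x : Fin 5) : Fin 5 :=
  Fin.ofNat 5 ((opD >>> (8 * (5 * i.1 + x.1))) &&& 255)

noncomputable def labD : ℕ := 54130517923940111781903318451741560286530417188586236869887150653696

noncomputable def lab (t : Fin 7) (x : Fin 5) : Fin 5 :=
  Fin.ofNat 5 ((labD >>> (8 * (5 * t.1 + x.1))) &&& 255)

noncomputable def clsR : List ℕ :=
  [16842752, 17230331904, 12968788481, 8590263041, 33752064]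

noncomputable def cls (u v : Fin 5) : Fin 6 :=
  Fin.ofNat 6 ((g1 clsR u.1 >>> (8 * v.1)) &&& 255)

noncomputable def cpA : List ℕ :=
  [0, 0, 1, 1, 1, 2]

noncomputable def cpB : List ℕ :=
  [1, 2, 2, 3, 4, 3]

noncomputable def cp (c : Fin 6) : Fin 5 × Fin 5 :=
  (Fin.ofNat 5 (g1 cpA c.1), Fin.ofNat 5 (g1 cpB c.1))

noncomputable def moveR : List ℕ :=
  [8651809, 1082401, 8422433, 8422440, 1318952]

noncomputable def dec : ℕ → ℕ → List (Fin 3)
  | 0, _ => []
  | f + 1, p => if p ≤ 1 then [] else Fin.ofNat 3 (p % 8) :: dec f (p / 8)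

noncomputable def move (u v : Fin 5) : List (Fin 3) :=
  dec 2 ((g1 moveR u.1 >>> (5 * v.1)) &&& 31)

noncomputable def typN : List ℕ :=
  [5, 6, 3, 4, 2, 1]

noncomputable def typ (c : Fin 6) : Fin 7 := Fin.ofNat 7 (g1 typN c.1)

set_option maxHeartbeats 0 in
noncomputable def pathN : List (List (List (List ℕ))) :=
  [[[], [[]], [], [[1]], [[0]]], [[], [[1, 0], [0]], [[]], [[0]], [[1], []]], [[], [], [[]], [], [[0]]], [[], [], [[1, 0]], [[]], [[0], [1, 0]]], [[], [], [], [[2]], [[]]], [[], [], [], [[]], []]]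

noncomputable def path (c : Fin 6) (a : Fin 5) : List (List (Fin 3)) :=
  ((pathN.getD c.1 []).getD a.1 []).map fun w => w.map (Fin.ofNat 3)

noncomputable def jnN : List (List ℕ) :=
  [[0, 1, 2, 3, 4, 5, 6], [1, 1, 2, 4, 4, 5, 6], [2, 2, 2, 4, 4, 5, 6], [3, 4, 4, 3, 4, 6, 6], [4, 4, 4, 4, 4, 6, 6], [5, 5, 5, 6, 6, 5, 6], [6, 6, 6, 6, 6, 6, 6]]

noncomputable def jn (s t : Fin 7) : Fin 7 := Fin.ofNat 7 (g2 jnN s.1 t.1)

set_option maxHeartbeats 0 in
noncomputable def jpathN : List (List (List (List ℕ))) :=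
  [[[[], [], [], [], []], [[], [], [], [2], []], [[], [], [], [2], [1]], [[], [], [1], [], [3]], [[], [], [1], [1], [1]], [[], [0], [], [2], [0]], [[], [0], [0], [0], [0]]], [[[], [], [], [2], []], [[], [], [], [2], []], [[], [], [], [2], [1]], [[], [], [1], [2, 1], [3, 2, 1]], [[], [], [1], [1], [1]], [[], [0], [], [2], [0]], [[], [0], [0], [0], [0]]], [[[], [], [], [2], [1]], [[], [], [], [2], [1]], [[], [], [], [2], [1]], [[], [], [1], [2, 1], [1]], [[], [], [1], [1], [1]], [[], [0], [], [2], [0]], [[], [0], [0], [0], [0]]], [[[], [], [1], [], [3]], [[], [], [1], [2, 1], [3, 2, 1]], [[], [], [1], [2, 1], [1]], [[], [], [1], [], [3]], [[], [], [1], [1], [1]], [[], [0], [1, 0], [4, 0], [0]], [[], [0], [0], [0], [0]]], [[[], [], [1], [1], [1]], [[], [], [1], [1], [1]], [[], [], [1], [1], [1]], [[], [], [1], [1], [1]], [[], [], [1], [1], [1]], [[], [0], [1, 0], [1, 0], [0]], [[], [0], [0], [0], [0]]], [[[], [0], [], [2], [0]], [[], [0], [], [2], [0]], [[],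 [0], [], [2], [0]], [[], [0], [1, 0], [4, 0], [0]], [[], [0], [1, 0], [1, 0], [0]], [[], [0], [], [2], [0]], [[], [0], [0], [0], [0]]], [[[], [0], [0], [0], [0]], [[], [0], [0], [0], [0]], [[], [0], [0], [0], [0]], [[], [0], [0], [0], [0]], [[], [0], [0], [0], [0]], [[], [0], [0], [0], [0]], [[], [0], [0], [0], [0]]]]

noncomputable def jpath (s t : Fin 7) (a : Fin 5) : List (Fin 5) :=
  (((jpathN.getD s.1 []).getD t.1 []).getD a.1 []).map (Fin.ofNat 5)

theorem hbot : ∀ a, lab 0 a = a := by decide +kernel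

theorem h0 : ∀ t a, lab t (lab t a) = lab t a := by decide +kernel

theorem h1 : ∀ t i a, lab t (op i (lab t a)) = lab t (op i a) := by decide +kernel

theorem h2 : ∀ s t, mk7 (bitsOf 237) s t = true ↔ ∀ a, lab t (lab s a) = lab t a := by
  decide +kernel

theorem h5 : ∀ s t, mk7 (bitsOf 237) s t = true → mk7 (bitsOf 237) t s = true → s = t := by
  decide +kernel

theorem h3a : ∀ u : Fin 5, ∀ u', u = u' ∨
    Cert.hits op (move u u') u u' (cp (cls u u')).1 (cp (cls u u')).2 = true := by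
  decide +kernel

theorem h3b : ∀ c : Fin 6, ∀ a,
    Cert.walk op (cp c).1 (cp c).2 (path c a) a = lab (typ c) a := by
  decide +kernel

theorem h3c : ∀ u : Fin 5, ∀ u', lab (typ (cls u u')) u = lab (typ (cls u u')) u' := by
  decide +kernel

theorem h4a : ∀ s t, mk7 (bitsOf 237) s (jn s t) = true ∧ mk7 (bitsOf 237) t (jn s t) = true := by
  decide +kernel

theorem h4b : ∀ s : Fin 7, ∀ t a,
    Cert.jwalk lab s t (jpath s t a) a = lab (jn s t) a := by
  decide +kernel

theorem rep : RepTable 7 (mk7 (bitsOf 237)) :=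
  Cert.repTable_of_cert (by decide) _ op lab 0 cls cp move typ path jn jpath
    hbot h0 h1 h2 h5 h3a h3b h3c h4a h4b

end Vale.Agent.P183.Data.L33

namespace Vale.Agent.P183.Data.L35

noncomputable def g1 (l : List ℕ) (i : ℕ) : ℕ := l.getD i 0

noncomputable def g2 (l : List (List ℕ)) (i j : ℕ) : ℕ := (l.getD i []).getD j 0

noncomputable def opD : ℕ := 1243994150298985415756218369

noncomputable def op (i : Fin 2) (x : Fin 6) : Fin 6 :=
  Fin.ofNat 6 ((opD >>> (8 * (6 * i.1 + x.1))) &&& 255)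

noncomputable def labD : ℕ := 1950257443038312531310041694364234043292201757110436358298805558038685685065223110912

noncomputable def lab (t : Fin 7) (x : Fin 6) : Fin 6 :=
  Fin.ofNat 6 ((labD >>> (8 * (6 * t.1 + x.1))) &&& 255)

noncomputable def clsR : List ℕ :=
  [2207630032896, 1103840280576, 4415276712449, 4415226577409, 5497625510146, 21542207746]

noncomputable def cls (u v : Fin 6) : Fin 6 :=
  Fin.ofNat 6 ((g1 clsR u.1 >>> (8 * v.1)) &&& 255)

noncomputable def cpA : List ℕ :=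
  [0, 0, 0, 2, 2, 4]

noncomputable def cpB : List ℕ :=
  [1, 2, 4, 3, 4, 5]

noncomputable def cp (c : Fin 6) : Fin 6 × Fin 6 :=
  (Fin.ofNat 6 (g1 cpA c.1), Fin.ofNat 6 (g1 cpB c.1))

noncomputable def moveR : List ℕ :=
  [2305861151159748609, 18446884879950940161, 324276773950865409, 324399919253176384, 36046457928695809, 36046466553217088]

noncomputable def dec : ℕ → ℕ → List (Fin 2)
  | 0, _ => []
  | f + 1, p => if p ≤ 1 then [] else Fin.ofNat 2 (p % 8) :: dec f (p / 8)

noncomputable def move (u v : Fin 6) : List (Fin 2) :=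
  dec 4 ((g1 moveR u.1 >>> (11 * v.1)) &&& 2047)

noncomputable def typN : List ℕ :=
  [4, 5, 6, 1, 3, 2]

noncomputable def typ (c : Fin 6) : Fin 7 := Fin.ofNat 7 (g1 typN c.1)

set_option maxHeartbeats 0 in
noncomputable def pathN : List (List (List (List ℕ))) :=
  [[[], [[]], [], [[1], [1, 0]], [[1, 0]], [[1, 1]]], [[], [], [[]], [[1], []], [[0]], [[0, 1], [0]]], [[], [[0], [0, 1], []], [[0, 1], []], [[1, 0], []], [[]], [[1], [1, 0], []]], [[], [], [], [[]], [], []], [[], [], [], [[1, 0], []], [[]], [[1]]], [[], [], [], [[0]], [], [[]]]]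

noncomputable def path (c : Fin 6) (a : Fin 6) : List (List (Fin 2)) :=
  ((pathN.getD c.1 []).getD a.1 []).map fun w => w.map (Fin.ofNat 2)

noncomputable def jnN : List (List ℕ) :=
  [[0, 1, 2, 3, 4, 5, 6], [1, 1, 2, 3, 4, 5, 6], [2, 2, 2, 3, 4, 5, 6], [3, 3, 3, 3, 4, 6, 6], [4, 4, 4, 4, 4, 6, 6], [5, 5, 5, 6, 6, 5, 6], [6, 6, 6, 6, 6, 6, 6]]

noncomputable def jn (s t : Fin 7) : Fin 7 := Fin.ofNat 7 (g2 jnN s.1 t.1)

set_option maxHeartbeats 0 in
noncomputable def jpathN : List (List (List (List ℕ))) :=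
  [[[[], [], [], [], [], []], [[], [], [], [2], [], []], [[], [], [], [2], [], [4]], [[], [], [], [2], [2], [2]], [[], [0], [], [2], [2], [2]], [[], [], [0], [0], [1], [1]], [[], [0], [0], [0], [0], [0]]], [[[], [], [], [2], [], []], [[], [], [], [2], [], []], [[], [], [], [2], [], [4]], [[], [], [], [2], [2], [2]], [[], [0], [], [2], [2], [2]], [[], [], [0], [0], [1], [1]], [[], [0], [0], [0], [0], [0]]], [[[], [], [], [2], [], [4]], [[], [], [], [2], [], [4]], [[], [], [], [2], [], [4]], [[], [], [], [2], [2], [2]], [[], [0], [], [2], [2], [2]], [[], [], [0], [0], [1], [1]], [[], [0], [0], [0], [0], [0]]], [[[], [], [], [2], [2], [2]], [[], [], [], [2], [2], [2]], [[], [], [], [2], [2], [2]], [[], [], [], [2], [2], [2]], [[], [0], [], [2], [2], [2]], [[], [4, 2, 0], [0], [0], [2, 0], [2, 0]], [[], [0], [0], [0], [0], [0]]], [[[], [0], [], [2], [2], [2]], [[], [0], [], [2], [2], [2]], [[], [0], [], [2], [2], [2]], [[], [0], [], [2], [2], [2]], [[], [0],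 [], [2], [2], [2]], [[], [0], [0], [0], [1, 0], [1, 0]], [[], [0], [0], [0], [0], [0]]], [[[], [], [0], [0], [1], [1]], [[], [], [0], [0], [1], [1]], [[], [], [0], [0], [1], [1]], [[], [4, 2, 0], [0], [0], [2, 0], [2, 0]], [[], [0], [0], [0], [1, 0], [1, 0]], [[], [], [0], [0], [1], [1]], [[], [0], [0], [0], [0], [0]]], [[[], [0], [0], [0], [0], [0]], [[], [0], [0], [0], [0], [0]], [[], [0], [0], [0], [0], [0]], [[], [0], [0], [0], [0], [0]], [[], [0], [0], [0], [0], [0]], [[], [0], [0], [0], [0], [0]], [[], [0], [0], [0], [0], [0]]]]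

noncomputable def jpath (s t : Fin 7) (a : Fin 6) : List (Fin 6) :=
  (((jpathN.getD s.1 []).getD t.1 []).getD a.1 []).map (Fin.ofNat 6)

theorem hbot : ∀ a, lab 0 a = a := by decide +kernel

theorem h0 : ∀ t a, lab t (lab t a) = lab t a := by decide +kernel

theorem h1 : ∀ t i a, lab t (op i (lab t a)) = lab t (op i a) := by decide +kernel

theorem h2 : ∀ s t, mk7 (bitsOf 255) s t = true ↔ ∀ a, lab t (lab s a) = lab t a := by
  decide +kernel

theorem h5 : ∀ s t, mk7 (bitsOf 255) s t = true → mk7 (bitsOf 255) t s = true → s = t := by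
  decide +kernel

theorem h3a : ∀ u : Fin 6, ∀ u', u = u' ∨
    Cert.hits op (move u u') u u' (cp (cls u u')).1 (cp (cls u u')).2 = true := by
  decide +kernel

theorem h3b : ∀ c : Fin 6, ∀ a,
    Cert.walk op (cp c).1 (cp c).2 (path c a) a = lab (typ c) a := by
  decide +kernel

theorem h3c : ∀ u : Fin 6, ∀ u', lab (typ (cls u u')) u = lab (typ (cls u u')) u' := by
  decide +kernel

theorem h4a : ∀ s t, mk7 (bitsOf 255) s (jn s t) = true ∧ mk7 (bitsOf 255) t (jn s t) = true := by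
  decide +kernel

theorem h4b : ∀ s : Fin 7, ∀ t a,
    Cert.jwalk lab s t (jpath s t a) a = lab (jn s t) a := by
  decide +kernel

theorem rep : RepTable 7 (mk7 (bitsOf 255)) :=
  Cert.repTable_of_cert (by decide) _ op lab 0 cls cp move typ path jn jpath
    hbot h0 h1 h2 h5 h3a h3b h3c h4a h4b

end Vale.Agent.P183.Data.L35

namespace Vale.Agent.P183.Data.L43

noncomputable def g1 (l : List ℕ) (i : ℕ) : ℕ := l.getD i 0

noncomputable def g2 (l : List (List ℕ)) (i j : ℕ) : ℕ := (l.getD i []).getD j 0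

noncomputable def opD : ℕ := 16687907990777996782728517450381897915352442812219961019420337843143402700199662017986911798788

noncomputable def op (i : Fin 4) (x : Fin 10) : Fin 10 :=
  Fin.ofNat 10 ((opD >>> (8 * (10 * i.1 + x.1))) &&& 255)

noncomputable def labD : ℕ := 47820900187624357005306744287239459937029625246374225800888603983886692017059651062066588583499454782575259329387735285524071152224917651712

noncomputable def lab (t : Fin 7) (x : Fin 10) : Fin 10 :=
  Fin.ofNat 10 ((labD >>> (8 * (10 * t.1 + x.1))) &&& 255)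

noncomputable def clsR : List ℕ :=
  [14167099450812253863936, 18735537399831527424, 92378117031617102080, 36966671641363939584, 9444732970137336938497, 4722366482886825082882, 18518801667814654464, 18447025548703171584, 72339069048520960, 1108101562371]

noncomputable def cls (u v : Fin 10) : Fin 6 :=
  Fin.ofNat 6 ((g1 clsR u.1 >>> (8 * v.1)) &&& 255)

noncomputable def cpA : List ℕ :=
  [0, 0, 0, 0, 1, 2]

noncomputable def cpB : List ℕ :=
  [1, 4, 5, 9, 7, 8]

noncomputable def cp (c : Fin 6) : Fin 10 × Fin 10 :=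
  (Fin.ofNat 10 (g1 cpA c.1), Fin.ofNat 10 (g1 cpB c.1))

noncomputable def moveR : List ℕ :=
  [88144454616774405475428555630867136513, 399491919341544409049624529488569851461633, 765640543551434419203214755575679320139, 49769660773720862785946887448033777418843, 768684692061230463768799829021561323521, 768710653545523061173170879724646694913, 768709168481510697181949462535947321947, 50617054002775293411038087246048741310537, 49766301357664686961232668261019169342032, 88108273955678369921657649109040234497]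

noncomputable def dec : ℕ → ℕ → List (Fin 4)
  | 0, _ => []
  | f + 1, p => if p ≤ 1 then [] else Fin.ofNat 4 (p % 8) :: dec f (p / 8)

noncomputable def move (u v : Fin 10) : List (Fin 4) :=
  dec 5 ((g1 moveR u.1 >>> (14 * v.1)) &&& 16383)

noncomputable def typN : List ℕ :=
  [6, 5, 4, 2, 1, 3]

noncomputable def typ (c : Fin 6) : Fin 7 := Fin.ofNat 7 (g1 typN c.1)

set_option maxHeartbeats 0 in
noncomputable def pathN : List (List (List (List ℕ))) :=
  [[[], [[]], [[1, 3]], [[2, 2]], [[0], [0, 2]], [[2], [2, 2]], [[0, 2]], [[0, 3]], [[3, 0], [0], [0, 2]], [[1], [0, 2]]], [[], [], [[3], [2, 0]], [[2], [3, 1]], [[]], [[3, 1, 2]], [[3, 1]], [[2, 0]], [[3, 0], [2], [3, 1]], [[1], [3, 1, 2]]], [[], [], [], [], [], [[]], [[3, 1]], [[3]], [[3, 0]], [[1]]], [[], [], [], [], [], [[0]], [[2]], [[2, 0]], [], [[]]], [[], [], [], [], [], [[2]], [[0]], [[]], [], []], [[], [], [], [], [], [[1, 2]], [[1, 0]], [[1]], [[]], [[2]]]]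

noncomputable def path (c : Fin 6) (a : Fin 10) : List (List (Fin 4)) :=
  ((pathN.getD c.1 []).getD a.1 []).map fun w => w.map (Fin.ofNat 4)

noncomputable def jnN : List (List ℕ) :=
  [[0, 1, 2, 3, 4, 5, 6], [1, 1, 2, 3, 5, 5, 6], [2, 2, 2, 3, 5, 5, 6], [3, 3, 3, 3, 5, 5, 6], [4, 5, 5, 5, 4, 5, 6], [5, 5, 5, 5, 5, 5, 6], [6, 6, 6, 6, 6, 6, 6]]

noncomputable def jn (s t : Fin 7) : Fin 7 := Fin.ofNat 7 (g2 jnN s.1 t.1)

set_option maxHeartbeats 0 in
noncomputable def jpathN : List (List (List (List ℕ))) :=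
  [[[[], [], [], [], [], [], [], [], [], []], [[], [], [], [], [], [4], [3], [1], [], []], [[], [], [], [], [], [4], [3], [1], [], [0]], [[], [], [], [], [], [4], [3], [1], [2], [0]], [[], [], [], [], [], [0], [1], [2], [3], [4]], [[], [], [1], [1], [0], [0], [1], [1], [1], [0]], [[], [0], [0], [0], [0], [0], [0], [0], [0], [0]]], [[[], [], [], [], [], [4], [3], [1], [], []], [[], [], [], [], [], [4], [3], [1], [], []], [[], [], [], [], [], [4], [3], [1], [], [0]], [[], [], [], [], [], [4], [3], [1], [2], [0]], [[], [], [7, 1], [6, 1], [5, 0], [0], [1], [1], [3, 6, 1], [4, 5, 0]], [[], [], [1], [1], [0], [0], [1], [1], [1], [0]], [[], [0], [0], [0], [0], [0], [0], [0], [0], [0]]], [[[], [], [], [], [], [4], [3], [1], [], [0]], [[], [], [], [], [], [4], [3], [1], [], [0]], [[], [], [], [], [], [4], [3], [1], [], [0]], [[], [], [], [], [], [4], [3], [1], [2], [0]], [[], [], [7, 1], [6, 1], [5, 0], [0], [1], [1], [3, 6, 1], [0]], [[], [], [1], [1], [0], [0],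 [1], [1], [1], [0]], [[], [0], [0], [0], [0], [0], [0], [0], [0], [0]]], [[[], [], [], [], [], [4], [3], [1], [2], [0]], [[], [], [], [], [], [4], [3], [1], [2], [0]], [[], [], [], [], [], [4], [3], [1], [2], [0]], [[], [], [], [], [], [4], [3], [1], [2], [0]], [[], [], [7, 1], [6, 1], [5, 0], [0], [1], [1], [2, 7, 1], [0]], [[], [], [1], [1], [0], [0], [1], [1], [1], [0]], [[], [0], [0], [0], [0], [0], [0], [0], [0], [0]]], [[[], [], [], [], [], [0], [1], [2], [3], [4]], [[], [], [7, 1], [6, 1], [5, 0], [0], [1], [1], [3, 6, 1], [4, 5, 0]], [[], [], [7, 1], [6, 1], [5, 0], [0], [1], [1], [3, 6, 1], [0]], [[], [], [7, 1], [6, 1], [5, 0], [0], [1], [1], [2, 7, 1], [0]], [[], [], [], [], [], [0], [1], [2], [3], [4]], [[], [], [1], [1], [0], [0], [1], [1], [1], [0]], [[], [0], [0], [0], [0], [0], [0], [0], [0], [0]]], [[[], [], [1], [1], [0], [0], [1], [1], [1], [0]], [[], [], [1], [1], [0], [0], [1], [1], [1], [0]], [[], [], [1], [1], [0], [0], [1], [1], [1],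 [0]], [[], [], [1], [1], [0], [0], [1], [1], [1], [0]], [[], [], [1], [1], [0], [0], [1], [1], [1], [0]], [[], [], [1], [1], [0], [0], [1], [1], [1], [0]], [[], [0], [0], [0], [0], [0], [0], [0], [0], [0]]], [[[], [0], [0], [0], [0], [0], [0], [0], [0], [0]], [[], [0], [0], [0], [0], [0], [0], [0], [0], [0]], [[], [0], [0], [0], [0], [0], [0], [0], [0], [0]], [[], [0], [0], [0], [0], [0], [0], [0], [0], [0]], [[], [0], [0], [0], [0], [0], [0], [0], [0], [0]], [[], [0], [0], [0], [0], [0], [0], [0], [0], [0]], [[], [0], [0], [0], [0], [0], [0], [0], [0], [0]]]]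

noncomputable def jpath (s t : Fin 7) (a : Fin 10) : List (Fin 10) :=
  (((jpathN.getD s.1 []).getD t.1 []).getD a.1 []).map (Fin.ofNat 10)

theorem hbot : ∀ a, lab 0 a = a := by decide +kernel

theorem h0 : ∀ t a, lab t (lab t a) = lab t a := by decide +kernel

theorem h1 : ∀ t i a, lab t (op i (lab t a)) = lab t (op i a) := by decide +kernel

theorem h2 : ∀ s t, mk7 (bitsOf 859) s t = true ↔ ∀ a, lab t (lab s a) = lab t a := by
  decide +kernel

theorem h5 : ∀ s t, mk7 (bitsOf 859) s t = true → mk7 (bitsOf 859) t s = true → s = t := by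
  decide +kernel

theorem h3a : ∀ u : Fin 10, ∀ u', u = u' ∨
    Cert.hits op (move u u') u u' (cp (cls u u')).1 (cp (cls u u')).2 = true := by
  decide +kernel

theorem h3b : ∀ c : Fin 6, ∀ a,
    Cert.walk op (cp c).1 (cp c).2 (path c a) a = lab (typ c) a := by
  decide +kernel

theorem h3c : ∀ u : Fin 10, ∀ u', lab (typ (cls u u')) u = lab (typ (cls u u')) u' := by
  decide +kernel

theorem h4a : ∀ s t, mk7 (bitsOf 859) s (jn s t) = true ∧ mk7 (bitsOf 859) t (jn s t) = true := by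
  decide +kernel

theorem h4b : ∀ s : Fin 7, ∀ t a,
    Cert.jwalk lab s t (jpath s t a) a = lab (jn s t) a := by
  decide +kernel

theorem rep : RepTable 7 (mk7 (bitsOf 859)) :=
  Cert.repTable_of_cert (by decide) _ op lab 0 cls cp move typ path jn jpath
    hbot h0 h1 h2 h5 h3a h3b h3c h4a h4b

end Vale.Agent.P183.Data.L43

namespace Vale.Agent.P183.Data.L45

noncomputable def g1 (l : List ℕ) (i : ℕ) : ℕ := l.getD i 0

noncomputable def g2 (l : List (List ℕ)) (i j : ℕ) : ℕ := (l.getD i []).getD j 0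

noncomputable def opD : ℕ := 18963542266265697583876

noncomputable def op (i : Fin 2) (x : Fin 5) : Fin 5 :=
  Fin.ofNat 5 ((opD >>> (8 * (5 * i.1 + x.1))) &&& 255)

noncomputable def labD : ℕ := 6928812017131824128317781754863693440721167318096227746537452223987968

noncomputable def lab (t : Fin 7) (x : Fin 5) : Fin 5 :=
  Fin.ofNat 5 ((labD >>> (8 * (5 * t.1 + x.1))) &&& 255)

noncomputable def clsR : List ℕ :=
  [12918521856, 25853952000, 34477179905, 25770263810, 101189123]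

noncomputable def cls (u v : Fin 5) : Fin 9 :=
  Fin.ofNat 9 ((g1 clsR u.1 >>> (8 * v.1)) &&& 255)

noncomputable def cpA : List ℕ :=
  [0, 0, 0, 0, 1, 1, 1, 2, 2]

noncomputable def cpB : List ℕ :=
  [1, 2, 3, 4, 2, 3, 4, 3, 4]

noncomputable def cp (c : Fin 9) : Fin 5 × Fin 5 :=
  (Fin.ofNat 5 (g1 cpA c.1), Fin.ofNat 5 (g1 cpB c.1))

noncomputable def moveR : List ℕ :=
  [1082401, 1082401, 1082401, 8422433, 1311777]

noncomputable def dec : ℕ → ℕ → List (Fin 2)
  | 0, _ => []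
  | f + 1, p => if p ≤ 1 then [] else Fin.ofNat 2 (p % 8) :: dec f (p / 8)

noncomputable def move (u v : Fin 5) : List (Fin 2) :=
  dec 2 ((g1 moveR u.1 >>> (5 * v.1)) &&& 31)

noncomputable def typN : List ℕ :=
  [6, 6, 6, 6, 3, 1, 4, 2, 5]

noncomputable def typ (c : Fin 9) : Fin 7 := Fin.ofNat 7 (g1 typN c.1)

set_option maxHeartbeats 0 in
noncomputable def pathN : List (List (List (List ℕ))) :=
  [[[], [[]], [[1], [0, 0], []], [[0], [0, 0], []], [[0, 0], []]], [[], [[0], [1], []], [[]], [[0, 0], [1], []], [[1], []]], [[], [[0], [0, 0], []], [[1], [0, 0], []], [[]], [[0, 0], []]], [[], [[1, 0], []], [[1], []], [[1, 0, 0], []], [[]]], [[], [], [[]], [[0]], []], [[], [], [], [[]], []], [[], [], [], [[0], []], [[]]], [[], [], [], [[]], []], [[], [], [[], [0]], [[0, 0], [0]], [[0]]]]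

noncomputable def path (c : Fin 9) (a : Fin 5) : List (List (Fin 2)) :=
  ((pathN.getD c.1 []).getD a.1 []).map fun w => w.map (Fin.ofNat 2)

noncomputable def jnN : List (List ℕ) :=
  [[0, 1, 2, 3, 4, 5, 6], [1, 1, 3, 3, 4, 5, 6], [2, 3, 2, 3, 5, 5, 6], [3, 3, 3, 3, 5, 5, 6], [4, 4, 5, 5, 4, 5, 6], [5, 5, 5, 5, 5, 5, 6], [6, 6, 6, 6, 6, 6, 6]]

noncomputable def jn (s t : Fin 7) : Fin 7 := Fin.ofNat 7 (g2 jnN s.1 t.1)

set_option maxHeartbeats 0 in
noncomputable def jpathN : List (List (List (List ℕ))) :=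
  [[[[], [], [], [], []], [[], [], [], [1], []], [[], [], [], [2], []], [[], [], [1], [1], []], [[], [], [], [1], [1]], [[], [], [1], [1], [1]], [[], [0], [0], [0], [0]]], [[[], [], [], [1], []], [[], [], [], [1], []], [[], [], [3, 1], [1], []], [[], [], [1], [1], []], [[], [], [], [1], [1]], [[], [], [1], [1], [1]], [[], [0], [0], [0], [0]]], [[[], [], [], [2], []], [[], [], [3, 1], [1], []], [[], [], [], [2], []], [[], [], [1], [1], []], [[], [], [3, 1], [1], [1]], [[], [], [1], [1], [1]], [[], [0], [0], [0], [0]]], [[[], [], [1], [1], []], [[], [], [1], [1], []], [[], [], [1], [1], []], [[], [], [1], [1], []], [[], [], [1], [1], [1]], [[], [], [1], [1], [1]], [[], [0], [0], [0], [0]]], [[[], [], [], [1], [1]], [[], [], [], [1], [1]], [[], [], [3, 1], [1], [1]], [[], [], [1], [1], [1]], [[], [], [], [1], [1]], [[], [], [1], [1], [1]], [[], [0], [0], [0], [0]]], [[[], [], [1], [1], [1]], [[], [], [1], [1], [1]], [[], [], [1], [1], [1]], [[], [], [1], [1],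 [1]], [[], [], [1], [1], [1]], [[], [], [1], [1], [1]], [[], [0], [0], [0], [0]]], [[[], [0], [0], [0], [0]], [[], [0], [0], [0], [0]], [[], [0], [0], [0], [0]], [[], [0], [0], [0], [0]], [[], [0], [0], [0], [0]], [[], [0], [0], [0], [0]], [[], [0], [0], [0], [0]]]]

noncomputable def jpath (s t : Fin 7) (a : Fin 5) : List (Fin 5) :=
  (((jpathN.getD s.1 []).getD t.1 []).getD a.1 []).map (Fin.ofNat 5)

theorem hbot : ∀ a, lab 0 a = a := by decide +kernel

theorem h0 : ∀ t a, lab t (lab t a) = lab t a := by decide +kernel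

theorem h1 : ∀ t i a, lab t (op i (lab t a)) = lab t (op i a) := by decide +kernel

theorem h2 : ∀ s t, mk7 (bitsOf 862) s t = true ↔ ∀ a, lab t (lab s a) = lab t a := by
  decide +kernel

theorem h5 : ∀ s t, mk7 (bitsOf 862) s t = true → mk7 (bitsOf 862) t s = true → s = t := by
  decide +kernel

theorem h3a : ∀ u : Fin 5, ∀ u', u = u' ∨
    Cert.hits op (move u u') u u' (cp (cls u u')).1 (cp (cls u u')).2 = true := by
  decide +kernel

theorem h3b : ∀ c : Fin 9, ∀ a,
    Cert.walk op (cp c).1 (cp c).2 (path c a) a = lab (typ c) a := by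
  decide +kernel

theorem h3c : ∀ u : Fin 5, ∀ u', lab (typ (cls u u')) u = lab (typ (cls u u')) u' := by
  decide +kernel

theorem h4a : ∀ s t, mk7 (bitsOf 862) s (jn s t) = true ∧ mk7 (bitsOf 862) t (jn s t) = true := by
  decide +kernel

theorem h4b : ∀ s : Fin 7, ∀ t a,
    Cert.jwalk lab s t (jpath s t a) a = lab (jn s t) a := by
  decide +kernel

theorem rep : RepTable 7 (mk7 (bitsOf 862)) :=
  Cert.repTable_of_cert (by decide) _ op lab 0 cls cp move typ path jn jpath
    hbot h0 h1 h2 h5 h3a h3b h3c h4a h4b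

end Vale.Agent.P183.Data.L45

namespace Vale.Agent.P183.Data.L51

noncomputable def g1 (l : List ℕ) (i : ℕ) : ℕ := l.getD i 0

noncomputable def g2 (l : List (List ℕ)) (i j : ℕ) : ℕ := (l.getD i []).getD j 0

noncomputable def opD : ℕ := 1240376817428710612992656642

noncomputable def op (i : Fin 2) (x : Fin 6) : Fin 6 :=
  Fin.ofNat 6 ((opD >>> (8 * (6 * i.1 + x.1))) &&& 255)

noncomputable def labD : ℕ := 452347357315001948252906358668012072960115737941975087978999318246959743232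

noncomputable def lab (t : Fin 7) (x : Fin 6) : Fin 6 :=
  Fin.ofNat 6 ((labD >>> (8 * (6 * t.1 + x.1))) &&& 255)

noncomputable def clsR : List ℕ :=
  [4410965032960, 8826258784256, 12137728574721, 14345191360002, 15393364772611, 60348368900]

noncomputable def cls (u v : Fin 6) : Fin 15 :=
  Fin.ofNat 15 ((g1 clsR u.1 >>> (8 * v.1)) &&& 255)

noncomputable def cpA : List ℕ :=
  [0, 0, 0, 0, 0, 1, 1, 1, 1, 2, 2, 2, 3, 3, 4]

noncomputable def cpB : List ℕ :=
  [1, 2, 3, 4, 5, 2, 3, 4, 5, 3, 4, 5, 4, 5, 5]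

noncomputable def cp (c : Fin 15) : Fin 6 × Fin 6 :=
  (Fin.ofNat 6 (g1 cpA c.1), Fin.ofNat 6 (g1 cpB c.1))

noncomputable def moveR : List ℕ :=
  [1365, 1365, 1365, 1365, 1365, 1365]

noncomputable def dec : ℕ → ℕ → List (Fin 2)
  | 0, _ => []
  | f + 1, p => if p ≤ 1 then [] else Fin.ofNat 2 (p % 8) :: dec f (p / 8)

noncomputable def move (u v : Fin 6) : List (Fin 2) :=
  dec 1 ((g1 moveR u.1 >>> (2 * v.1)) &&& 3)

noncomputable def typN : List ℕ :=
  [6, 1, 4, 3, 5, 6, 6, 6, 6, 4, 2, 5, 4, 5, 5]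

noncomputable def typ (c : Fin 15) : Fin 7 := Fin.ofNat 7 (g1 typN c.1)

set_option maxHeartbeats 0 in
noncomputable def pathN : List (List (List (List ℕ))) :=
  [[[], [[]], [[0, 0, 0]], [[0, 0], [0, 0, 0]], [[0, 1], [0, 0, 0]], [[0], [0, 0, 0]]], [[], [], [[]], [], [], []], [[], [], [[0]], [[]], [[1], [0]], []], [[], [], [[0], []], [], [[]], []], [[], [], [[0, 0]], [[0], [0, 0]], [[1], [0, 0]], [[]]], [[], [[], [0, 0, 0]], [[0, 0, 0]], [[0, 0], [0, 0, 0]], [[0, 1], [0, 0, 0]], [[0], [0, 0, 0]]], [[], [[], [0, 0], [0, 0, 0]], [[0, 0, 0]], [[0, 0], [0, 0, 0]], [[1], [0, 0, 0]], [[0]]], [[], [[], [0, 0, 0]], [[0, 1], [0, 0, 0]], [[0, 0], [0, 0, 0]], [[0, 0, 0]], [[0], [0, 0, 0]]], [[], [[], [0], [0, 0]], [[0, 0, 0]], [[0, 0]], [[1], [0, 0, 0]], [[0], [0, 0]]], [[], [], [[0]], [[], [0]], [[1], [0]], []], [[], [], [], [], [[]], []], [[], [], [[0, 0]], [[0], [0, 0]], [[1], [0, 0]], [[], [0, 0]]], [[], [], [[1], [0]], [[], [0]], [[0]], []], [[], [], [[0, 0]],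 [[0]], [[0, 1], [0, 0]], [[], [0]]], [[], [], [[1], [0, 0]], [[0], [0, 0]], [[0, 0]], [[], [0, 0]]]]

noncomputable def path (c : Fin 15) (a : Fin 6) : List (List (Fin 2)) :=
  ((pathN.getD c.1 []).getD a.1 []).map fun w => w.map (Fin.ofNat 2)

noncomputable def jnN : List (List ℕ) :=
  [[0, 1, 2, 3, 4, 5, 6], [1, 1, 3, 3, 4, 5, 6], [2, 3, 2, 3, 4, 5, 6], [3, 3, 3, 3, 4, 5, 6], [4, 4, 4, 4, 4, 5, 6], [5, 5, 5, 5, 5, 5, 6], [6, 6, 6, 6, 6, 6, 6]]

noncomputable def jn (s t : Fin 7) : Fin 7 := Fin.ofNat 7 (g2 jnN s.1 t.1)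

set_option maxHeartbeats 0 in
noncomputable def jpathN : List (List (List (List ℕ))) :=
  [[[[], [], [], [], [], []], [[], [], [0], [], [], []], [[], [], [], [], [2], []], [[], [], [0], [], [0], []], [[], [], [0], [0], [0], []], [[], [], [0], [0], [0], [0]], [[], [0], [0], [0], [0], [0]]], [[[], [], [0], [], [], []], [[], [], [0], [], [], []], [[], [], [0], [], [2, 0], []], [[], [], [0], [], [0], []], [[], [], [0], [0], [0], []], [[], [], [0], [0], [0], [0]], [[], [0], [0], [0], [0], [0]]], [[[], [], [], [], [2], []], [[], [], [0], [], [2, 0], []], [[], [], [], [], [2], []], [[], [], [0], [], [0], []], [[], [], [0], [0], [0], []], [[], [], [0], [0], [0], [0]], [[], [0], [0], [0], [0], [0]]], [[[], [], [0], [], [0], []], [[], [], [0], [], [0], []], [[], [], [0], [], [0], []], [[], [], [0], [], [0], []], [[], [], [0], [0], [0], []], [[], [], [0], [0], [0], [0]], [[], [0], [0], [0], [0], [0]]], [[[], [], [0], [0], [0], []], [[], [], [0], [0], [0], []], [[],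 [], [0], [0], [0], []], [[], [], [0], [0], [0], []], [[], [], [0], [0], [0], []], [[], [], [0], [0], [0], [0]], [[], [0], [0], [0], [0], [0]]], [[[], [], [0], [0], [0], [0]], [[], [], [0], [0], [0], [0]], [[], [], [0], [0], [0], [0]], [[], [], [0], [0], [0], [0]], [[], [], [0], [0], [0], [0]], [[], [], [0], [0], [0], [0]], [[], [0], [0], [0], [0], [0]]], [[[], [0], [0], [0], [0], [0]], [[], [0], [0], [0], [0], [0]], [[], [0], [0], [0], [0], [0]], [[], [0], [0], [0], [0], [0]], [[], [0], [0], [0], [0], [0]], [[], [0], [0], [0], [0], [0]], [[], [0], [0], [0], [0], [0]]]]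

noncomputable def jpath (s t : Fin 7) (a : Fin 6) : List (Fin 6) :=
  (((jpathN.getD s.1 []).getD t.1 []).getD a.1 []).map (Fin.ofNat 6)

theorem hbot : ∀ a, lab 0 a = a := by decide +kernel

theorem h0 : ∀ t a, lab t (lab t a) = lab t a := by decide +kernel

theorem h1 : ∀ t i a, lab t (op i (lab t a)) = lab t (op i a) := by decide +kernel

theorem h2 : ∀ s t, mk7 (bitsOf 1022) s t = true ↔ ∀ a, lab t (lab s a) = lab t a := by
  decide +kernel

theorem h5 : ∀ s t, mk7 (bitsOf 1022) s t = true → mk7 (bitsOf 1022) t s = true → s = t := by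
  decide +kernel

theorem h3a : ∀ u : Fin 6, ∀ u', u = u' ∨
    Cert.hits op (move u u') u u' (cp (cls u u')).1 (cp (cls u u')).2 = true := by
  decide +kernel

theorem h3b : ∀ c : Fin 15, ∀ a,
    Cert.walk op (cp c).1 (cp c).2 (path c a) a = lab (typ c) a := by
  decide +kernel

theorem h3c : ∀ u : Fin 6, ∀ u', lab (typ (cls u u')) u = lab (typ (cls u u')) u' := by
  decide +kernel

theorem h4a : ∀ s t, mk7 (bitsOf 1022) s (jn s t) = true ∧ mk7 (bitsOf 1022) t (jn s t) = true := by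
  decide +kernel

theorem h4b : ∀ s : Fin 7, ∀ t a,
    Cert.jwalk lab s t (jpath s t a) a = lab (jn s t) a := by
  decide +kernel

theorem rep : RepTable 7 (mk7 (bitsOf 1022)) :=
  Cert.repTable_of_cert (by decide) _ op lab 0 cls cp move typ path jn jpath
    hbot h0 h1 h2 h5 h3a h3b h3c h4a h4b

end Vale.Agent.P183.Data.L51
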